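import Vale.Agent.P200.Defs

/-! Basic facts on Hilbert functions of homogeneous ideals. -/

namespace Vale.Agent.P200.G

open MvPolynomial

variable {K : Type*} [Field K] {n : ℕ}

attribute [local instance] MvPolynomial.gradedAlgebra

theorem decompose_eq_comp (p : MvPolynomial (Fin n) K) (i : ℕ) :
    (DirectSum.decompose (homogeneousSubmodule (Fin n) K) p i : MvPolynomial (Fin n) K) =
      homogeneousComponent i p :=
  decomposition.decompose'_apply p i

theorem homIdeal_iff {I : Ideal (MvPolynomial (Fin n) K)} :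
    HomIdeal I ↔ I.IsHomogeneous (homogeneousSubmodule (Fin n) K) := by
  constructor
  · intro h d f hf
    rw [decompose_eq_comp]
    exact h f hf d
  · intro h f hf d
    exact homogeneousComponent_mem_of_mem h hf d

/-- the component of degree `d + e` of `l * u` -/
theorem comp_mul_add {l : MvPolynomial (Fin n) K} {e : ℕ} (hl : l.IsHomogeneous e)
    (u : MvPolynomial (Fin n) K) (d : ℕ) :
    homogeneousComponent (d + e) (l * u) = l * homogeneousComponent d u := by
  rw [← decompose_eq_comp, ← decompose_eq_comp, add_comm d e]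
  exact DirectSum.coe_decompose_mul_add_of_left_mem _ hl

theorem comp_mul_of_lt {l : MvPolynomial (Fin n) K} {e : ℕ} (hl : l.IsHomogeneous e)
    (u : MvPolynomial (Fin n) K) {d : ℕ} (hd : d < e) :
    homogeneousComponent d (l * u) = 0 := by
  rw [← decompose_eq_comp]
  exact DirectSum.coe_decompose_mul_of_left_mem_of_not_le _ hl (not_le.2 hd)

theorem comp_self {g : MvPolynomial (Fin n) K} {d : ℕ} (hg : g.IsHomogeneous d) :
    homogeneousComponent d g = g := homogeneousComponent_eq_self hg

/-- membership may be tested on homogeneous components -/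
theorem mem_of_forall_comp {I : Ideal (MvPolynomial (Fin n) K)} {g : MvPolynomial (Fin n) K}
    (h : ∀ d, homogeneousComponent d g ∈ I) : g ∈ I := by
  rw [← sum_homogeneousComponent g]
  exact I.sum_mem fun i _ => h i

/-- `(I : l)` -/
def colonBy {R : Type*} [CommRing R] (I : Ideal R) (l : R) : Ideal R where
  carrier := {g | l * g ∈ I}
  add_mem' := by
    intro a b ha hb
    simpa [mul_add] using I.add_mem ha hb
  zero_mem' := by simp
  smul_mem' := by
    intro c x hx
    have := I.mul_mem_left c hx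
    simpa [mul_left_comm, smul_eq_mul] using this

theorem mem_colonBy {R : Type*} [CommRing R] {I : Ideal R} {l g : R} :
    g ∈ colonBy I l ↔ l * g ∈ I := Iff.rfl

instance (d : ℕ) : Module.Finite K (homogeneousSubmodule (Fin n) K d) :=
  Module.Finite.iff_fg.2 (homogeneousSubmodule_fg _ _ d)

theorem finrank_homogeneousSubmodule (d : ℕ) :
    Module.finrank K (homogeneousSubmodule (Fin n) K d) =
      ((Finset.univ : Finset (Fin n)).finsuppAntidiag d).card := by
  classical
  have hb : {e : Fin n →₀ ℕ | e.degree = d} =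
      ↑((Finset.univ : Finset (Fin n)).finsuppAntidiag d) := by
    ext e
    simp [Finset.mem_finsuppAntidiag, Finsupp.degree_eq_sum]
  rw [homogeneousSubmodule_eq_finsupp_supported, hb,
    (AddMonoidAlgebra.supportedEquivFinsupp (R := K) (S := K)
      (↑((Finset.univ : Finset (Fin n)).finsuppAntidiag d) : Set (Fin n →₀ ℕ))).finrank_eq,
    Module.finrank_finsupp_self]
  simp

theorem mem_piece {I : Ideal (MvPolynomial (Fin n) K)} {d : ℕ} {g : MvPolynomial (Fin n) K} :
    g ∈ piece I d ↔ g ∈ I ∧ g.IsHomogeneous d := Iff.rfl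

theorem piece_le (I : Ideal (MvPolynomial (Fin n) K)) (d : ℕ) :
    piece I d ≤ homogeneousSubmodule (Fin n) K d := inf_le_right

instance finite_piece (I : Ideal (MvPolynomial (Fin n) K)) (d : ℕ) :
    Module.Finite K (piece I d) :=
  Submodule.finiteDimensional_of_le (piece_le I d)

theorem piece_mono {I J : Ideal (MvPolynomial (Fin n) K)} (h : I ≤ J) (d : ℕ) :
    piece I d ≤ piece J d := fun _ hg => ⟨h hg.1, hg.2⟩

theorem finrank_piece_add_hilb (I : Ideal (MvPolynomial (Fin n) K)) (d : ℕ) :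
    Module.finrank K (piece I d) + hilb I d =
      Module.finrank K (homogeneousSubmodule (Fin n) K d) :=
  Nat.add_sub_of_le (Submodule.finrank_mono (piece_le I d))

theorem hilb_antitone {I J : Ideal (MvPolynomial (Fin n) K)} (h : I ≤ J) (d : ℕ) :
    hilb J d ≤ hilb I d :=
  Nat.sub_le_sub_left (Submodule.finrank_mono (piece_mono h d)) _

theorem piece_congr {I J : Ideal (MvPolynomial (Fin n) K)} {d : ℕ}
    (h : ∀ g : MvPolynomial (Fin n) K, g.IsHomogeneous d → (g ∈ I ↔ g ∈ J)) :
    piece I d = piece J d := by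
  ext g
  simp only [mem_piece]
  constructor
  · rintro ⟨h1, h2⟩
    exact ⟨(h g h2).1 h1, h2⟩
  · rintro ⟨h1, h2⟩
    exact ⟨(h g h2).2 h1, h2⟩

theorem hilb_congr {I J : Ideal (MvPolynomial (Fin n) K)} {d : ℕ}
    (h : ∀ g : MvPolynomial (Fin n) K, g.IsHomogeneous d → (g ∈ I ↔ g ∈ J)) :
    hilb I d = hilb J d := by
  rw [hilb, hilb, piece_congr h]

theorem hilb_eq_zero_iff {I : Ideal (MvPolynomial (Fin n) K)} {d : ℕ} :
    hilb I d = 0 ↔ ∀ g : MvPolynomial (Fin n) K, g.IsHomogeneous d → g ∈ I := by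
  constructor
  · intro h g hg
    have h1 := finrank_piece_add_hilb I d
    rw [h, add_zero] at h1
    have h2 := Submodule.eq_of_le_of_finrank_eq (piece_le I d) h1
    have h3 : g ∈ piece I d := by
      rw [h2]
      exact hg
    exact h3.1
  · intro h
    have h1 : piece I d = homogeneousSubmodule (Fin n) K d :=
      le_antisymm (piece_le I d) fun g hg => ⟨h g hg, hg⟩
    rw [hilb, h1, Nat.sub_self]

theorem homIdeal_sup {I J : Ideal (MvPolynomial (Fin n) K)} (hI : HomIdeal I)
    (hJ : HomIdeal J) : HomIdeal (I ⊔ J) :=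
  homIdeal_iff.2 ((homIdeal_iff.1 hI).sup (homIdeal_iff.1 hJ))

theorem homIdeal_span {s : Set (MvPolynomial (Fin n) K)}
    (h : ∀ f ∈ s, ∃ d, f.IsHomogeneous d) : HomIdeal (Ideal.span s) :=
  homIdeal_iff.2 (Ideal.homogeneous_span _ _ h)

theorem homIdeal_colonBy {I : Ideal (MvPolynomial (Fin n) K)} (hI : HomIdeal I)
    {l : MvPolynomial (Fin n) K} {e : ℕ} (hl : l.IsHomogeneous e) :
    HomIdeal (colonBy I l) := by
  intro f hf d
  rw [mem_colonBy] at hf ⊢
  rw [← comp_mul_add hl]
  exact hI _ hf _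

/-- homogeneous elements of `I + (l)` -/
theorem exists_of_mem_sup_span {I : Ideal (MvPolynomial (Fin n) K)} (hI : HomIdeal I)
    {l g : MvPolynomial (Fin n) K} {d e : ℕ} (hl : l.IsHomogeneous e)
    (hg : g.IsHomogeneous (d + e)) (h : g ∈ I ⊔ Ideal.span {l}) :
    ∃ u : MvPolynomial (Fin n) K, u.IsHomogeneous d ∧ g - l * u ∈ I := by
  obtain ⟨i, hi, j, hj, rfl⟩ := Submodule.mem_sup.1 h
  obtain ⟨u, rfl⟩ := Ideal.mem_span_singleton'.1 hj
  refine ⟨homogeneousComponent d u, homogeneousComponent_isHomogeneous _ _, ?_⟩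
  have h1 : i + u * l = homogeneousComponent (d + e) i + l * homogeneousComponent d u := by
    rw [← comp_mul_add hl, mul_comm l u, ← map_add, comp_self hg]
  rw [h1, add_sub_cancel_right]
  exact hI _ hi _

private theorem piece_sup_span {I : Ideal (MvPolynomial (Fin n) K)} (hI : HomIdeal I)
    {l : MvPolynomial (Fin n) K} {e : ℕ} (hl : l.IsHomogeneous e) (d : ℕ) :
    piece (I ⊔ Ideal.span {l}) (d + e) =
      piece I (d + e) ⊔ (homogeneousSubmodule (Fin n) K d).map (LinearMap.mulLeft K l) := by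
  apply le_antisymm
  · intro g hg
    obtain ⟨u, hu, hgu⟩ := exists_of_mem_sup_span hI hl hg.2 hg.1
    have hlu : (l * u).IsHomogeneous (d + e) := by
      rw [add_comm]
      exact hl.mul hu
    rw [← sub_add_cancel g (l * u)]
    exact Submodule.add_mem_sup ⟨hgu, IsHomogeneous.sub hg.2 hlu⟩ ⟨u, hu, rfl⟩
  · refine sup_le (piece_mono le_sup_left _) ?_
    rintro _ ⟨u, hu, rfl⟩
    refine ⟨?_, ?_⟩
    · exact Ideal.mul_mem_right _ _ (Ideal.mem_sup_right (Ideal.mem_span_singleton_self l))
    · rw [add_comm]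
      exact hl.mul hu

private theorem piece_inf_map {I : Ideal (MvPolynomial (Fin n) K)}
    {l : MvPolynomial (Fin n) K} {e : ℕ} (hl : l.IsHomogeneous e) (d : ℕ) :
    piece I (d + e) ⊓ (homogeneousSubmodule (Fin n) K d).map (LinearMap.mulLeft K l) =
      (piece (colonBy I l) d).map (LinearMap.mulLeft K l) := by
  apply le_antisymm
  · rintro _ ⟨h1, ⟨u, hu, rfl⟩⟩
    exact ⟨u, ⟨h1.1, hu⟩, rfl⟩
  · rintro _ ⟨u, hu, rfl⟩
    refine ⟨⟨hu.1, ?_⟩, ⟨u, hu.2, rfl⟩⟩
    rw [add_comm]
    exact hl.mul hu.2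

/-- the exact sequence `0 → (S / (I : l))(-e) → S / I → S / (I + l) → 0` in degrees `≥ e` -/
theorem hilb_exact {I : Ideal (MvPolynomial (Fin n) K)} (hI : HomIdeal I)
    {l : MvPolynomial (Fin n) K} {e : ℕ} (hl : l.IsHomogeneous e) (d : ℕ) :
    hilb I (d + e) = hilb (I ⊔ Ideal.span {l}) (d + e) + hilb (colonBy I l) d := by
  by_cases hl0 : l = 0
  · subst hl0
    have h1 : hilb (colonBy I 0) d = 0 :=
      hilb_eq_zero_iff.2 fun g _ => by
        rw [mem_colonBy, zero_mul]
        exact I.zero_mem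
    have h2 : I ⊔ Ideal.span {(0 : MvPolynomial (Fin n) K)} = I := by simp
    rw [h1, h2, add_zero]
  · have hinj : Function.Injective (LinearMap.mulLeft K l) := by
      intro u v huv
      exact mul_left_cancel₀ hl0 huv
    have h1 := finrank_piece_add_hilb I (d + e)
    have h2 := finrank_piece_add_hilb (I ⊔ Ideal.span {l}) (d + e)
    have h3 := finrank_piece_add_hilb (colonBy I l) d
    have h4 := Submodule.finrank_sup_add_finrank_inf_eq (piece I (d + e))
      ((homogeneousSubmodule (Fin n) K d).map (LinearMap.mulLeft K l))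
    rw [← piece_sup_span hI hl, piece_inf_map hl,
      ← (Submodule.equivMapOfInjective _ hinj (piece (colonBy I l) d)).finrank_eq,
      ← (Submodule.equivMapOfInjective _ hinj (homogeneousSubmodule (Fin n) K d)).finrank_eq] at h4
    omega

theorem hilb_sup_span_of_lt {I : Ideal (MvPolynomial (Fin n) K)} (hI : HomIdeal I)
    {l : MvPolynomial (Fin n) K} {e : ℕ} (hl : l.IsHomogeneous e) {d : ℕ} (hd : d < e) :
    hilb (I ⊔ Ideal.span {l}) d = hilb I d := by
  refine hilb_congr fun g hg => ⟨fun h => ?_, fun h => Ideal.mem_sup_left h⟩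
  obtain ⟨i, hi, j, hj, rfl⟩ := Submodule.mem_sup.1 h
  obtain ⟨u, rfl⟩ := Ideal.mem_span_singleton'.1 hj
  rw [← comp_self hg, map_add, mul_comm u l, comp_mul_of_lt hl u hd, add_zero]
  exact hI _ hi _

theorem mem_of_hilb_eq {I J : Ideal (MvPolynomial (Fin n) K)}
    (h : I ≤ J) {d : ℕ} (hh : hilb I d = hilb J d) {g : MvPolynomial (Fin n) K}
    (hg : g.IsHomogeneous d) (hgJ : g ∈ J) : g ∈ I := by
  have h1 := finrank_piece_add_hilb I d
  have h2 := finrank_piece_add_hilb J d
  have h3 := Submodule.eq_of_le_of_finrank_eq (piece_mono h d) (by omega)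
  have h4 : g ∈ piece I d := by
    rw [h3]
    exact ⟨hgJ, hg⟩
  exact h4.1

/-- two homogeneous ideals, one inside the other, with equal Hilbert functions are equal -/
theorem eq_of_le_of_hilb_eq {I J : Ideal (MvPolynomial (Fin n) K)} (hI : HomIdeal I)
    (hJ : HomIdeal J) (h : I ≤ J) (hh : ∀ d, hilb I d = hilb J d) : I = J :=
  le_antisymm h fun g hg => mem_of_forall_comp fun d =>
    mem_of_hilb_eq h (hh d) (homogeneousComponent_isHomogeneous d g) (hJ g hg d)

/-- m-primary in terms of powers of the variables -/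
theorem isMPrimary_iff_pow {I : Ideal (MvPolynomial (Fin n) K)} :
    IsMPrimary I ↔ ∀ i, ∃ N : ℕ, (X i : MvPolynomial (Fin n) K) ^ N ∈ I := by
  constructor
  · rintro ⟨N, hN⟩ i
    exact ⟨N, hN N le_rfl _ (isHomogeneous_X_pow i N)⟩
  · intro h
    choose N hN using h
    refine ⟨∑ i, N i + 1, fun d hd g hg => ?_⟩
    rw [g.as_sum]
    refine I.sum_mem fun m hm => ?_
    have hdeg : ∑ i, m i = d := by
      rw [hg.degree_eq_sum_deg_support hm]
      exact (Finset.sum_subset (Finset.subset_univ _)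
        fun i _ hi => Finsupp.notMem_support_iff.1 hi).symm
    obtain ⟨i, -, hi⟩ : ∃ i ∈ (Finset.univ : Finset (Fin n)), N i < m i :=
      Finset.exists_lt_of_sum_lt (by omega)
    have h1 : monomial m (coeff m g) =
        X i ^ N i * monomial (m - Finsupp.single i (N i)) (coeff m g) := by
      rw [X_pow_eq_monomial, monomial_mul, one_mul,
        add_tsub_cancel_of_le (Finsupp.single_le_iff.2 hi.le)]
    rw [h1]
    exact I.mul_mem_right _ (hN i)

theorem isMPrimary_iff_radical {I : Ideal (MvPolynomial (Fin n) K)} :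
    IsMPrimary I ↔ ∀ i, (X i : MvPolynomial (Fin n) K) ∈ I.radical := by
  rw [isMPrimary_iff_pow]
  rfl

theorem IsMPrimary.mono {I J : Ideal (MvPolynomial (Fin n) K)} (h : IsMPrimary I)
    (hIJ : I ≤ J) : IsMPrimary J := by
  obtain ⟨N, hN⟩ := h
  exact ⟨N, fun d hd g hg => hIJ (hN d hd g hg)⟩

end Vale.Agent.P200.G
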