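import Vale.Agent.P200.G.CAHeight

/-! `n` forms in `n` variables generating an m-primary ideal are a regular sequence. -/

namespace Vale.Agent.P200.G

open MvPolynomial

variable {K : Type*} [Field K] {n : ℕ}

/-- the ideal generated by the forms other than the `k`-th one -/
def spanOthers {R : Type*} [CommRing R] {n : ℕ} (f : Fin n → R) (k : Fin n) : Ideal R :=
  Ideal.span (f '' {i | i ≠ k})

/-- replacing a nonzerodivisor: if `h` is a nonzerodivisor modulo `J` and a power of `h` is in
`J + (f)` then `f` is a nonzerodivisor modulo `J` -/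
theorem nzd_replace {R : Type*} [CommRing R] {J : Ideal R} {h f : R}
    (hnzd : ∀ g, h * g ∈ J → g ∈ J) {N : ℕ} (hN : h ^ N ∈ J ⊔ Ideal.span {f}) :
    ∀ g, f * g ∈ J → g ∈ J := by
  intro g hg
  have hpow : ∀ N : ℕ, ∀ g, h ^ N * g ∈ J → g ∈ J := by
    intro N
    induction N with
    | zero => intro g hg; simpa using hg
    | succ N ih =>
      intro g hg
      refine ih g (hnzd _ ?_)
      rw [← mul_assoc, ← pow_succ']; exact hg
  refine hpow N g ?_
  obtain ⟨j, hj, w, hw, hjw⟩ := Submodule.mem_sup.1 hN
  obtain ⟨c, rfl⟩ := Ideal.mem_span_singleton'.1 hw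
  rw [← hjw, add_mul]
  refine J.add_mem (J.mul_mem_right _ hj) ?_
  rw [mul_assoc]
  exact J.mul_mem_left _ hg

/-- swapping two elements -/
theorem nzd_swap {R : Type*} [CommRing R] {Y : Ideal R} {x y : R}
    (hx : ∀ g, x * g ∈ Y → g ∈ Y) (hy : ∀ g, y * g ∈ Y ⊔ Ideal.span {x} → g ∈ Y ⊔ Ideal.span {x}) :
    ∀ g, x * g ∈ Y ⊔ Ideal.span {y} → g ∈ Y ⊔ Ideal.span {y} := by
  intro g hg
  obtain ⟨y0, hy0, w, hw, hyw⟩ := Submodule.mem_sup.1 hg
  obtain ⟨h, rfl⟩ := Ideal.mem_span_singleton'.1 hw
  have h1 : y * h ∈ Y ⊔ Ideal.span {x} := by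
    have : y * h = -y0 + g * x := by rw [mul_comm g x, ← hyw]; ring
    rw [this]
    exact Submodule.add_mem_sup (Y.neg_mem hy0) (Ideal.mem_span_singleton'.2 ⟨g, rfl⟩)
  obtain ⟨y1, hy1, w, hw, hyw'⟩ := Submodule.mem_sup.1 (hy h h1)
  obtain ⟨h', rfl⟩ := Ideal.mem_span_singleton'.1 hw
  have h2 : x * (g - y * h') ∈ Y := by
    have : x * (g - y * h') = y0 + y * y1 := by
      rw [mul_sub, ← hyw, ← hyw']; ring
    rw [this]
    exact Y.add_mem hy0 (Y.mul_mem_left _ hy1)
  have h3 := hx _ h2
  have : g = (g - y * h') + h' * y := by ring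
  rw [this]
  exact Submodule.add_mem_sup h3 (Ideal.mem_span_singleton'.2 ⟨h', rfl⟩)

/-- graded descent: a nonzerodivisor modulo `Y + (y)` is one modulo `Y` if `y` is a
nonzerodivisor modulo `Y` of positive degree -/
theorem nzd_descent {Y : Ideal (MvPolynomial (Fin n) K)} (hY : HomIdeal Y)
    {x y : MvPolynomial (Fin n) K} {ex e : ℕ} (hxh : x.IsHomogeneous ex)
    (hyh : y.IsHomogeneous e) (he : 1 ≤ e)
    (hy : ∀ g, y * g ∈ Y → g ∈ Y)
    (hx : ∀ g, x * g ∈ Y ⊔ Ideal.span {y} → g ∈ Y ⊔ Ideal.span {y}) :
    ∀ g, x * g ∈ Y → g ∈ Y := by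
  have key : ∀ d : ℕ, ∀ g : MvPolynomial (Fin n) K, g.IsHomogeneous d → x * g ∈ Y → g ∈ Y := by
    intro d
    induction d using Nat.strong_induction_on with
    | _ d ih =>
      intro g hg hxg
      have h1 : g ∈ Y ⊔ Ideal.span {y} := hx g (Ideal.mem_sup_left hxg)
      rcases lt_or_ge d e with hd | hd
      · exact mem_of_hilb_eq le_sup_left (hilb_sup_span_of_lt hY hyh hd).symm hg h1
      · obtain ⟨d', rfl⟩ := Nat.exists_eq_add_of_le' hd
        obtain ⟨u, hu, hgu⟩ := exists_of_mem_sup_span hY hyh hg h1
        have h2 : x * u ∈ Y := by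
          refine hy _ ?_
          have : y * (x * u) = x * g - x * (g - y * u) := by ring
          rw [this]
          exact Y.sub_mem hxg (Y.mul_mem_left _ hgu)
        have h3 := ih d' (by omega) u hu h2
        have : g = (g - y * u) + y * u := by ring
        rw [this]
        exact Y.add_mem hgu (Y.mul_mem_left _ h3)
  intro g hg
  have hC := homIdeal_colonBy hY hxh
  rw [← sum_homogeneousComponent g]
  refine Y.sum_mem fun d _ => ?_
  exact key d _ (homogeneousComponent_isHomogeneous d g) (hC g (mem_colonBy.2 hg) d)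

/-- every form is a nonzerodivisor modulo any set of other ones -/
def Reg {R : Type*} [CommRing R] (f : Fin n → R) : Prop :=
  ∀ (T : Set (Fin n)) (k : Fin n), k ∉ T → ∀ g, f k * g ∈ Ideal.span (f '' T) →
    g ∈ Ideal.span (f '' T)

theorem span_image_insert {R : Type*} [CommRing R] (f : Fin n → R) (T : Set (Fin n))
    (k : Fin n) :
    Ideal.span (f '' insert k T) = Ideal.span (f '' T) ⊔ Ideal.span {f k} := by
  rw [Set.image_insert_eq, Ideal.span_insert, sup_comm]

/-- the one-step replacement -/
theorem Reg.replace {a : Fin n → ℕ} (hpos : ∀ i, 1 ≤ a i)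
    {f : Fin n → MvPolynomial (Fin n) K} (hf : ∀ i, (f i).IsHomogeneous (a i))
    (h : IsMPrimary (Ideal.span (Set.range f))) {k : Fin n} {l : MvPolynomial (Fin n) K}
    (hl : l.IsHomogeneous 1) (hreg : Reg (Function.update f k l)) : Reg f := by
  classical
  have himg : ∀ T : Set (Fin n), k ∉ T → Function.update f k l '' T = f '' T := by
    intro T hT
    refine Set.image_congr fun i hi => ?_
    rw [Function.update_of_ne]
    rintro rfl; exact hT hi
  -- (A)
  have hA : ∀ T : Set (Fin n), k ∉ T → ∀ j, j ∉ T → j ≠ k → ∀ g,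
      f j * g ∈ Ideal.span (f '' T) → g ∈ Ideal.span (f '' T) := by
    intro T hkT j hj hjk g hg
    have := hreg T j hj g
    rw [himg T hkT, Function.update_of_ne hjk] at this
    exact this hg
  have hhom : ∀ T : Set (Fin n), HomIdeal (Ideal.span (f '' T)) := by
    intro T
    refine homIdeal_span ?_
    rintro _ ⟨i, _, rfl⟩
    exact ⟨a i, hf i⟩
  -- (B)
  have hB0 : ∀ g, f k * g ∈ Ideal.span (f '' {i | i ≠ k}) →
      g ∈ Ideal.span (f '' {i | i ≠ k}) := by
    have h1 : ∀ g, l * g ∈ Ideal.span (f '' {i | i ≠ k}) →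
        g ∈ Ideal.span (f '' {i | i ≠ k}) := by
      intro g hg
      have := hreg {i | i ≠ k} k (by simp) g
      rw [himg _ (by simp), Function.update_self] at this
      exact this hg
    obtain ⟨N, hN⟩ := h
    refine nzd_replace h1 (N := N) ?_
    rw [← span_image_insert]
    have h2 : insert k {i | i ≠ k} = (Set.univ : Set (Fin n)) := by
      ext i; simp [em]
    rw [h2, Set.image_univ]
    exact hN N le_rfl _ (by simpa using hl.pow N)
  have hB1 : ∀ D : Finset (Fin n), ∀ g, f k * g ∈ Ideal.span (f '' {i | i ≠ k ∧ i ∉ D}) →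
      g ∈ Ideal.span (f '' {i | i ≠ k ∧ i ∉ D}) := by
    intro D
    induction D using Finset.induction_on with
    | empty => simpa using hB0
    | insert j D hjD ih =>
      by_cases hjk : j = k
      · have h1 : {i | i ≠ k ∧ i ∉ insert j D} = {i | i ≠ k ∧ i ∉ D} := by
          ext i
          simp only [Set.mem_ofPred_eq, Finset.mem_insert, not_or, hjk]
          tauto
        rw [h1]; exact ih
      · have h1 : insert j {i | i ≠ k ∧ i ∉ insert j D} = {i | i ≠ k ∧ i ∉ D} := by
          ext i
          simp only [Set.mem_insert_iff, Set.mem_ofPred_eq, Finset.mem_insert, not_or]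
          constructor
          · rintro (rfl | ⟨h1, h2, h3⟩)
            · exact ⟨hjk, hjD⟩
            · exact ⟨h1, h3⟩
          · rintro ⟨h1, h2⟩
            by_cases hij : i = j
            · exact Or.inl hij
            · exact Or.inr ⟨h1, hij, h2⟩
        refine nzd_descent (hhom _) (hf k) (hf j) (hpos j)
          (hA _ (by simp) j (by simp) hjk) ?_
        rw [← span_image_insert, h1]
        exact ih
  have hB : ∀ T : Set (Fin n), k ∉ T → ∀ g, f k * g ∈ Ideal.span (f '' T) →
      g ∈ Ideal.span (f '' T) := by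
    intro T hT
    have h1 : T = {i | i ≠ k ∧ i ∉ Finset.univ.filter (· ∉ T)} := by
      ext i
      simp only [Set.mem_ofPred_eq, Finset.mem_filter, Finset.mem_univ, true_and, not_not]
      constructor
      · intro hi
        exact ⟨fun hik => hT (hik ▸ hi), hi⟩
      · exact fun hi => hi.2
    have := hB1 (Finset.univ.filter (· ∉ T))
    rw [← h1] at this
    exact this
  -- (C)
  intro T j hj
  by_cases hkT : k ∈ T
  · have hjk : j ≠ k := by rintro rfl; exact hj hkT
    have h1 : insert k (T \ {k}) = T := by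
      ext i
      simp only [Set.mem_insert_iff, Set.mem_sdiff, Set.mem_singleton_iff]
      constructor
      · rintro (rfl | ⟨h1, -⟩)
        · exact hkT
        · exact h1
      · intro hi
        by_cases hik : i = k
        · exact Or.inl hik
        · exact Or.inr ⟨hi, hik⟩
    have h2 := nzd_swap (Y := Ideal.span (f '' (T \ {k}))) (x := f j) (y := f k)
      (hA _ (by simp) j (fun hcon => hj hcon.1) hjk)
      (by
        rw [← span_image_insert]
        exact hB _ (by simp [hjk.symm]))
    rw [← span_image_insert, h1] at h2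
    exact h2
  · by_cases hjk : j = k
    · subst hjk; exact hB T hkT
    · exact hA T hkT j hj hjk

/-! ### The base case: linear forms -/

theorem reg_X : Reg (X : Fin n → MvPolynomial (Fin n) K) := by
  intro T k hk g hg
  rw [mem_ideal_span_X_image] at hg ⊢
  intro m hm
  have h1 : m + Finsupp.single k 1 ∈ (X k * g).support := by
    rw [mem_support_iff, mul_comm, coeff_mul_X]
    exact mem_support_iff.1 hm
  obtain ⟨i, hi, hmi⟩ := hg _ h1
  refine ⟨i, hi, ?_⟩
  have hik : k ≠ i := by rintro rfl; exact hk hi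
  rw [Finsupp.add_apply, Finsupp.single_apply, if_neg hik, add_zero] at hmi
  exact hmi

theorem reg_linear {f : Fin n → MvPolynomial (Fin n) K} (hf : ∀ i, (f i).IsHomogeneous 1)
    (h : IsMPrimary (Ideal.span (Set.range f))) : Reg f := by
  classical
  have hc : ∀ i, ∃ c : Fin n → K, ∑ j, c j • (X j : MvPolynomial (Fin n) K) = f i := by
    intro i
    have h1 : f i ∈ homogeneousSubmodule (Fin n) K 1 := hf i
    rw [homogeneousSubmodule_one_eq_span_X, Submodule.mem_span_range_iff_exists_fun] at h1
    exact h1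
  choose c hc using hc
  set C : Matrix (Fin n) (Fin n) K := Matrix.of c with hC
  have hdet : C.det ≠ 0 := by
    intro h0
    obtain ⟨v, hv, hCv⟩ := Matrix.exists_mulVec_eq_zero_iff.2 h0
    have hker : Ideal.span (Set.range f) ≤ RingHom.ker (eval v) := by
      rw [Ideal.span_le]
      rintro _ ⟨i, rfl⟩
      rw [SetLike.mem_coe, RingHom.mem_ker, ← hc i, map_sum]
      have := congrFun hCv i
      rw [Matrix.mulVec, dotProduct] at this
      simpa [smul_eval, hC] using this
    obtain ⟨N, hN⟩ := h
    apply hv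
    funext j
    have h1 := hker (hN (N + 1) (by omega) (X j ^ (N + 1)) (isHomogeneous_X_pow _ _))
    rw [RingHom.mem_ker, map_pow, eval_X] at h1
    exact eq_zero_of_pow_eq_zero h1
  have hunit : IsUnit C.det := isUnit_iff_ne_zero.2 hdet
  set D := C⁻¹ with hD
  have hDC : D * C = 1 := Matrix.nonsing_inv_mul C hunit
  have hCD : C * D = 1 := Matrix.mul_nonsing_inv C hunit
  have hmul : ∀ (A B : Matrix (Fin n) (Fin n) K) (i : Fin n),
      ∑ j, A i j • ∑ k, B j k • (X k : MvPolynomial (Fin n) K) = ∑ k, (A * B) i k • X k := by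
    intro A B i
    simp only [Finset.smul_sum, smul_smul, Matrix.mul_apply, Finset.sum_smul]
    rw [Finset.sum_comm]
  have hone : ∀ i, ∑ k, (1 : Matrix (Fin n) (Fin n) K) i k • (X k : MvPolynomial (Fin n) K)
      = X i := by
    intro i
    simp [Matrix.one_apply]
  let φ : MvPolynomial (Fin n) K →ₐ[K] MvPolynomial (Fin n) K := aeval f
  let ψ : MvPolynomial (Fin n) K →ₐ[K] MvPolynomial (Fin n) K :=
    aeval fun i => ∑ j, D i j • (X j : MvPolynomial (Fin n) K)
  have h1 : φ.comp ψ = AlgHom.id K _ := by
    refine algHom_ext fun i => ?_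
    simp only [φ, ψ, AlgHom.comp_apply, aeval_X, map_sum, map_smul, AlgHom.id_apply]
    have : ∀ j, f j = ∑ k, C j k • (X k : MvPolynomial (Fin n) K) := fun j => (hc j).symm
    simp only [this]
    rw [hmul, hDC, hone]
  have h2 : ψ.comp φ = AlgHom.id K _ := by
    refine algHom_ext fun i => ?_
    simp only [φ, ψ, AlgHom.comp_apply, aeval_X, AlgHom.id_apply]
    rw [← hc i]
    simp only [map_sum, map_smul, aeval_X]
    have : ∀ j, c i j = C i j := fun j => rfl
    simp only [this]
    rw [hmul, hCD, hone]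
  let e : MvPolynomial (Fin n) K ≃+* MvPolynomial (Fin n) K :=
    (AlgEquiv.ofAlgHom φ ψ h1 h2).toRingEquiv
  have he : ∀ i, e (X i) = f i := fun i => by
    change φ (X i) = f i
    simp [φ]
  have hspan : ∀ T : Set (Fin n), Ideal.span (f '' T) =
      Ideal.map (e : MvPolynomial (Fin n) K →+* MvPolynomial (Fin n) K) (Ideal.span (X '' T)) := by
    intro T
    rw [Ideal.map_span, Set.image_image]
    congr 1
    exact Set.image_congr fun i _ => (he i).symm
  intro T k hk g hg
  rw [hspan] at hg ⊢
  obtain ⟨x, hx, hxe⟩ := (Ideal.mem_map_of_equiv e _).1 hg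
  refine (Ideal.mem_map_of_equiv e _).2 ⟨e.symm g, ?_, e.apply_symm_apply g⟩
  refine reg_X T k hk _ ?_
  have : X k * e.symm g = x := by
    apply e.injective
    rw [map_mul, he, e.apply_symm_apply, hxe]
  rw [this]; exact hx

/-! ### Regularity -/

theorem reg_aux [Infinite K] (S : Finset (Fin n)) : ∀ (a : Fin n → ℕ)
    (f : Fin n → MvPolynomial (Fin n) K), (∀ i, 1 ≤ a i) → (∀ i, (f i).IsHomogeneous (a i)) →
    (∀ i, i ∉ S → a i = 1) → IsMPrimary (Ideal.span (Set.range f)) → Reg f := by
  classical
  induction S using Finset.induction_on with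
  | empty =>
    intro a f _ hf h1 h
    exact reg_linear (fun i => by have := hf i; rwa [h1 i (by simp)] at this) h
  | insert k S hk ih =>
    intro a f hpos hf h1 h
    obtain ⟨l, hl, hlP⟩ := exists_linear_replacement a hpos f hf h k
    refine Reg.replace hpos hf h hl (ih (Function.update a k 1) (Function.update f k l) ?_ ?_ ?_
      hlP)
    · intro i
      by_cases hik : i = k
      · subst hik; simp
      · rw [Function.update_of_ne hik]; exact hpos i
    · intro i
      by_cases hik : i = k
      · subst hik; simpa using hl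
      · rw [Function.update_of_ne hik, Function.update_of_ne hik]; exact hf i
    · intro i hi
      by_cases hik : i = k
      · subst hik; simp
      · rw [Function.update_of_ne hik]
        exact h1 i (by simp [hik, hi])

theorem reg_of_isMPrimary [Infinite K] (a : Fin n → ℕ) (hpos : ∀ i, 1 ≤ a i)
    (f : Fin n → MvPolynomial (Fin n) K) (hf : ∀ i, (f i).IsHomogeneous (a i))
    (h : IsMPrimary (Ideal.span (Set.range f))) : Reg f :=
  reg_aux Finset.univ a f hpos hf (by simp) h

/-! ### The Hilbert function -/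

/-- exponents of degree `d` bounded by `a` on `T` -/
def boxT (a : Fin n → ℕ) (T : Finset (Fin n)) (d : ℕ) : Finset (Fin n → ℕ) :=
  (Finset.piAntidiag Finset.univ d).filter fun m => ∀ i ∈ T, m i < a i

theorem mem_boxT {a : Fin n → ℕ} {T : Finset (Fin n)} {d : ℕ} {m : Fin n → ℕ} :
    m ∈ boxT a T d ↔ ∑ i, m i = d ∧ ∀ i ∈ T, m i < a i := by
  simp [boxT, Finset.mem_piAntidiag]

theorem boxT_univ (a : Fin n → ℕ) (d : ℕ) : boxT a Finset.univ d = boxD a d := by
  ext m
  simp [mem_boxT, boxD, and_comm]

theorem card_boxT_empty (a : Fin n → ℕ) (d : ℕ) :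
    (boxT a ∅ d).card = ((Finset.univ : Finset (Fin n)).finsuppAntidiag d).card := by
  refine Finset.card_bij' (fun m _ => Finsupp.equivFunOnFinite.symm m) (fun m _ => ⇑m) ?_ ?_ ?_ ?_
  · intro m hm
    rw [mem_boxT] at hm
    simpa [Finset.mem_finsuppAntidiag] using hm.1
  · intro m hm
    rw [Finset.mem_finsuppAntidiag] at hm
    rw [mem_boxT]
    simpa using hm.1
  · intro m hm; rfl
  · intro m hm; ext i; rfl

theorem card_boxT_insert_of_lt (a : Fin n → ℕ) (T : Finset (Fin n)) (k : Fin n) {d : ℕ}
    (hd : d < a k) : (boxT a (insert k T) d).card = (boxT a T d).card := by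
  congr 1
  ext m
  simp only [mem_boxT, Finset.mem_insert, forall_eq_or_imp]
  constructor
  · rintro ⟨h1, h2, h3⟩; exact ⟨h1, h3⟩
  · rintro ⟨h1, h3⟩
    refine ⟨h1, ?_, h3⟩
    have := Finset.single_le_sum (f := m) (fun i _ => Nat.zero_le _) (Finset.mem_univ k)
    omega

theorem card_boxT_insert (a : Fin n → ℕ) (T : Finset (Fin n)) {k : Fin n} (hk : k ∉ T) (d : ℕ) :
    (boxT a T (d + a k)).card = (boxT a (insert k T) (d + a k)).card + (boxT a T d).card := by
  classical
  have h1 : (boxT a T d).card = ((boxT a T (d + a k)).filter fun m => ¬ m k < a k).card := by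
    refine Finset.card_bij' (fun m _ => m + Pi.single k (a k)) (fun m _ => m - Pi.single k (a k))
      ?_ ?_ ?_ ?_
    · intro m hm
      rw [mem_boxT] at hm
      rw [Finset.mem_filter, mem_boxT]
      refine ⟨⟨?_, ?_⟩, by simp⟩
      · simp [Finset.sum_add_distrib, hm.1]
      · intro i hi
        have hik : i ≠ k := by rintro rfl; exact hk hi
        simp [hik, hm.2 i hi]
    · intro m hm
      rw [Finset.mem_filter, mem_boxT, not_lt] at hm
      rw [mem_boxT]
      have hle : Pi.single k (a k) ≤ m := by
        intro i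
        by_cases hik : i = k
        · subst hik; simpa using hm.2
        · simp [hik]
      refine ⟨?_, ?_⟩
      · have h2 : ∑ i, (m - Pi.single k (a k) : Fin n → ℕ) i +
            ∑ i, (Pi.single k (a k) : Fin n → ℕ) i
            = ∑ i, m i := by
          rw [← Finset.sum_add_distrib]
          refine Finset.sum_congr rfl fun i _ => ?_
          exact Nat.sub_add_cancel (hle i)
        rw [hm.1.1] at h2
        simp at h2
        exact h2
      · intro i hi
        have hik : i ≠ k := by rintro rfl; exact hk hi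
        simpa [hik] using hm.1.2 i hi
    · intro m hm; ext i; simp
    · intro m hm
      rw [Finset.mem_filter, mem_boxT, not_lt] at hm
      ext i
      by_cases hik : i = k
      · subst hik
        have := hm.2
        simp only [Pi.add_apply, Pi.sub_apply, Pi.single_eq_same]
        omega
      · simp [hik]
  have h2 : boxT a (insert k T) (d + a k) = (boxT a T (d + a k)).filter fun m => m k < a k := by
    ext m
    simp only [mem_boxT, Finset.mem_insert, forall_eq_or_imp, Finset.mem_filter]
    tauto
  rw [h1, h2]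
  exact (Finset.card_filter_add_card_filter_not _).symm

theorem hilb_span_eq_card_boxT {a : Fin n → ℕ}
    {f : Fin n → MvPolynomial (Fin n) K} (hf : ∀ i, (f i).IsHomogeneous (a i)) (hreg : Reg f)
    (T : Finset (Fin n)) (d : ℕ) :
    hilb (Ideal.span (f '' (T : Set (Fin n)))) d = (boxT a T d).card := by
  classical
  induction T using Finset.induction_on generalizing d with
  | empty =>
    rw [card_boxT_empty, ← finrank_homogeneousSubmodule (K := K)]
    have h := finrank_piece_add_hilb (K := K) (n := n) (Ideal.span (f '' (∅ : Finset (Fin n)))) d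
    rw [← h]
    have h0 : piece (Ideal.span (f '' ((∅ : Finset (Fin n)) : Set (Fin n)))) d = ⊥ := by
      rw [Finset.coe_empty, Set.image_empty, Ideal.span_empty]
      unfold piece
      ext x; simp
    rw [h0, finrank_bot, zero_add]
  | insert k T hk ih =>
    have hhom : HomIdeal (Ideal.span (f '' (T : Set (Fin n)))) := by
      refine homIdeal_span ?_
      rintro _ ⟨i, _, rfl⟩
      exact ⟨a i, hf i⟩
    rw [Finset.coe_insert, span_image_insert]
    rcases lt_or_ge d (a k) with hd | hd
    · rw [hilb_sup_span_of_lt hhom (hf k) hd, ih, card_boxT_insert_of_lt _ _ _ hd]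
    · obtain ⟨d, rfl⟩ := Nat.exists_eq_add_of_le' hd
      have h1 := hilb_exact hhom (hf k) d
      have h2 : colonBy (Ideal.span (f '' (T : Set (Fin n)))) (f k) =
          Ideal.span (f '' (T : Set (Fin n))) := by
        ext g
        rw [mem_colonBy]
        exact ⟨hreg _ k (by simpa using hk) g, fun hg => Ideal.mul_mem_left _ _ hg⟩
      rw [h2, ih, ih, card_boxT_insert a T hk] at h1
      omega

/-- the Hilbert function of a complete intersection -/
theorem hilb_span_eq_card_boxD [Infinite K] (a : Fin n → ℕ) (hpos : ∀ i, 1 ≤ a i)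
    (f : Fin n → MvPolynomial (Fin n) K) (hf : ∀ i, (f i).IsHomogeneous (a i))
    (h : IsMPrimary (Ideal.span (Set.range f))) (d : ℕ) :
    hilb (Ideal.span (Set.range f)) d = (boxD a d).card := by
  have := hilb_span_eq_card_boxT hf (reg_of_isMPrimary a hpos f hf h) Finset.univ d
  rw [Finset.coe_univ, Set.image_univ, boxT_univ] at this
  exact this

/-- each form is a nonzerodivisor modulo the other ones -/
theorem nzd_of_isMPrimary [Infinite K] (a : Fin n → ℕ) (hpos : ∀ i, 1 ≤ a i)
    (f : Fin n → MvPolynomial (Fin n) K) (hf : ∀ i, (f i).IsHomogeneous (a i))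
    (h : IsMPrimary (Ideal.span (Set.range f))) (k : Fin n) (g : MvPolynomial (Fin n) K)
    (hg : f k * g ∈ spanOthers f k) : g ∈ spanOthers f k :=
  reg_of_isMPrimary a hpos f hf h {i | i ≠ k} k (by simp) g hg

theorem isRegSeq_of_isMPrimary [Infinite K] (a : Fin n → ℕ) (hpos : ∀ i, 1 ≤ a i)
    (f : Fin n → MvPolynomial (Fin n) K) (hf : ∀ i, (f i).IsHomogeneous (a i))
    (h : IsMPrimary (Ideal.span (Set.range f))) : IsRegSeq f := fun k g hg =>
  reg_of_isMPrimary a hpos f hf h {j | j < k} k (by simp) g hg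

end Vale.Agent.P200.G
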