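import Vale.Agent.P200.G.CLMain

/-! Duality of boxes and of the growth function of lexicographic segments. -/

namespace Vale.Agent.P200.G

variable {n : ℕ}

/-- the complement of an exponent in the box -/
private def cpl (a m : Fin n → ℕ) : Fin n → ℕ := fun i => a i - 1 - m i

private theorem cpl_lt {a : Fin n → ℕ} (hpos : ∀ i, 1 ≤ a i) (m : Fin n → ℕ) (i : Fin n) :
    cpl a m i < a i := by
  have := hpos i
  simp only [cpl]
  omega

private theorem cpl_cpl {a m : Fin n → ℕ} (hm : ∀ i, m i < a i) : cpl a (cpl a m) = m := by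
  funext i
  have := hm i
  simp only [cpl]
  omega

private theorem sum_cpl {a m : Fin n → ℕ} (hm : ∀ i, m i < a i) :
    ∑ i, cpl a m i + ∑ i, m i = ∑ i, (a i - 1) := by
  rw [← Finset.sum_add_distrib]
  refine Finset.sum_congr rfl fun i _ => ?_
  have := hm i
  simp only [cpl]
  omega

private theorem cpl_mem {a m : Fin n → ℕ} (hpos : ∀ i, 1 ≤ a i) {d e : ℕ}
    (hde : d + e = ∑ i, (a i - 1)) (hm : m ∈ boxD a d) : cpl a m ∈ boxD a e := by
  obtain ⟨h1, h2⟩ := mem_boxD.1 hm
  refine mem_boxD.2 ⟨cpl_lt hpos m, ?_⟩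
  have := sum_cpl h1
  omega

private theorem cpl_injOn (a : Fin n → ℕ) (d : ℕ) : Set.InjOn (cpl a) (boxD a d : Set _) := by
  intro m hm m' hm' h
  rw [← cpl_cpl (mem_boxD.1 hm).1, ← cpl_cpl (mem_boxD.1 hm').1, h]

private theorem image_cpl {a : Fin n → ℕ} (hpos : ∀ i, 1 ≤ a i) {d e : ℕ}
    (hde : d + e = ∑ i, (a i - 1)) : (boxD a d).image (cpl a) = boxD a e := by
  ext m
  rw [Finset.mem_image]
  constructor
  · rintro ⟨m, hm, rfl⟩
    exact cpl_mem hpos hde hm
  · intro hm
    exact ⟨cpl a m, cpl_mem hpos ((add_comm e d).trans hde) hm, cpl_cpl (mem_boxD.1 hm).1⟩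

private theorem card_cpl {a : Fin n → ℕ} (hpos : ∀ i, 1 ≤ a i) {d e : ℕ}
    (hde : d + e = ∑ i, (a i - 1)) : (boxD a e).card = (boxD a d).card := by
  rw [← image_cpl hpos hde, Finset.card_image_of_injOn (cpl_injOn a d)]

/-- duality of boxes: `m ↦ a - 1 - m` -/
theorem card_boxD_dual (a : Fin n → ℕ) (hpos : ∀ i, 1 ≤ a i) (d : ℕ)
    (hd : d ≤ ∑ i, (a i - 1)) : (boxD a (∑ i, (a i - 1) - d)).card = (boxD a d).card :=
  card_cpl hpos (by omega)

/-- the complement reverses the lexicographic order -/
private theorem cpl_lex {a m m' : Fin n → ℕ} (hm' : ∀ i, m' i < a i) (h : lexLT m m') :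
    lexLT (cpl a m') (cpl a m) := by
  obtain ⟨i, hi, hi'⟩ := h
  refine ⟨i, fun k hk => ?_, ?_⟩
  · simp only [cpl, hi k hk]
  · have := hm' i
    simp only [cpl]
    omega

/-- duality of the growth function of lexicographic segments: with `s = ∑ (a i - 1)`,
if `w + up a d v` is larger than the size of the box in degree `d + 1` (`w` is the size of a
segment in degree `s - d - 1`) then `up a (s-d-1) w + v` is larger than the size of the box in
degree `d`. -/
theorem up_dual (a : Fin n → ℕ) (hpos : ∀ i, 1 ≤ a i) (d : ℕ)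
    (hd : d + 1 ≤ ∑ i, (a i - 1)) (v w : ℕ) (hv : v ≤ (boxD a d).card)
    (hw : w ≤ (boxD a (d + 1)).card)
    (h : (boxD a (d + 1)).card < w + up a d v) :
    (boxD a d).card < up a (∑ i, (a i - 1) - d - 1) w + v := by
  classical
  set s := ∑ i, (a i - 1) with hs
  obtain ⟨e, he⟩ : ∃ e, d + 1 + e = s := ⟨s - d - 1, by omega⟩
  rw [show s - d - 1 = e by omega]
  -- the smallest element `y` of the shadow
  have hup : 0 < up a d v := by omega
  have hupc := up_le_card a d v
  set r : (Fin n → ℕ) → ℕ := fun m => ((boxD a (d + 1)).filter fun x => lexLT m x).card with hr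
  have himg : (boxD a (d + 1)).image r = Finset.range (boxD a (d + 1)).card := by
    apply Finset.eq_of_subset_of_card_le
    · intro t ht
      obtain ⟨m, hm, rfl⟩ := Finset.mem_image.1 ht
      exact Finset.mem_range.2 (rank_lt_card hm)
    · rw [Finset.card_image_of_injOn (rank_injOn a (d + 1)), Finset.card_range]
  obtain ⟨y, hy, hyr⟩ : ∃ y ∈ boxD a (d + 1), r y = up a d v - 1 := by
    have : up a d v - 1 ∈ (boxD a (d + 1)).image r := by
      rw [himg, Finset.mem_range]
      omega
    exact Finset.mem_image.1 this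
  have hyS : y ∈ upShadow a (lexSeg a d v) := by
    rw [upShadow_lexSeg, mem_lexSeg]
    refine ⟨hy, ?_⟩
    change r y < up a d v
    omega
  obtain ⟨hyb, m, hm, i, hym⟩ := mem_upShadow.1 hyS
  have hmb := mem_boxD.1 (lexSeg_subset hm)
  -- the number of elements above the complement of `y`
  have hcy : cpl a y ∈ lexSeg a e w := by
    rw [mem_lexSeg]
    refine ⟨cpl_mem hpos he hy, ?_⟩
    -- elements above `cpl a y` inject into the elements below `y`
    have h1 : ((boxD a e).filter fun x => lexLT (cpl a y) x).card ≤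
        ((boxD a (d + 1)).filter fun x => lexLT x y).card := by
      apply Finset.card_le_card_of_injOn (cpl a)
      · intro x hx
        rw [Finset.mem_coe, Finset.mem_filter] at hx
        rw [Finset.mem_coe, Finset.mem_filter]
        refine ⟨cpl_mem hpos ((add_comm _ _).trans he) hx.1, ?_⟩
        have := cpl_lex (mem_boxD.1 hx.1).1 hx.2
        rwa [cpl_cpl hyb] at this
      · exact (cpl_injOn a e).mono fun x hx => (Finset.mem_filter.1 hx).1
    have h2 : ((boxD a (d + 1)).filter fun x => lexLT x y).card + r y + 1 ≤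
        (boxD a (d + 1)).card := by
      have hdisj : Disjoint ((boxD a (d + 1)).filter fun x => lexLT x y)
          ((boxD a (d + 1)).filter fun x => lexLT y x) := by
        rw [Finset.disjoint_filter]
        intro x _ h3 h4
        exact lexLT_asymm h3 h4
      have hny : y ∉ ((boxD a (d + 1)).filter fun x => lexLT x y) ∪
          ((boxD a (d + 1)).filter fun x => lexLT y x) := by
        rw [Finset.mem_union, Finset.mem_filter, Finset.mem_filter]
        rintro (h3 | h3) <;> exact lexLT_irrefl _ h3.2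
      change _ + ((boxD a (d + 1)).filter fun x => lexLT y x).card + 1 ≤ _
      rw [← Finset.card_union_of_disjoint hdisj, ← Finset.card_insert_of_notMem hny]
      apply Finset.card_le_card
      intro x hx
      rw [Finset.mem_insert, Finset.mem_union, Finset.mem_filter, Finset.mem_filter] at hx
      rcases hx with rfl | h3 | h3
      · exact hy
      · exact h3.1
      · exact h3.1
    omega
  -- the complement of `m` is in the shadow
  have hcm : cpl a m ∈ upShadow a (lexSeg a e w) := by
    refine mem_upShadow.2 ⟨cpl_lt hpos m, cpl a y, hcy, i, ?_⟩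
    funext j
    by_cases hj : j = i
    · subst hj
      rw [Function.update_self]
      have h1 : y j = m j + 1 := by rw [hym, Function.update_self]
      have h2 := hyb j
      simp only [cpl, h1]
      rw [h1] at h2
      omega
    · rw [Function.update_of_ne hj]
      have h1 : y j = m j := by rw [hym, Function.update_of_ne hj]
      simp only [cpl, h1]
  have hde : d + (e + 1) = s := by omega
  -- everything outside the segment maps into the shadow
  have hsub : insert (cpl a m) ((boxD a d \ lexSeg a d v).image (cpl a)) ⊆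
      upShadow a (lexSeg a e w) := by
    intro x hx
    rw [Finset.mem_insert, Finset.mem_image] at hx
    rcases hx with rfl | ⟨m', hm', rfl⟩
    · exact hcm
    · rw [Finset.mem_sdiff] at hm'
      have hlt : lexLT m' m := by
        rcases lexLT_trichotomy m' m with h1 | h1 | h1
        · exact h1
        · exact absurd (h1 ▸ hm) hm'.2
        · exact absurd (lexSeg_upClosed hm hm'.1 h1) hm'.2
      exact upShadow_lexSeg_upClosed hcm (cpl_mem hpos hde hm'.1) (cpl_lex hmb.1 hlt)
  have hnot : cpl a m ∉ (boxD a d \ lexSeg a d v).image (cpl a) := by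
    rw [Finset.mem_image]
    rintro ⟨m', hm', heq⟩
    rw [Finset.mem_sdiff] at hm'
    have : m' = m := by
      rw [← cpl_cpl (mem_boxD.1 hm'.1).1, heq, cpl_cpl hmb.1]
    exact hm'.2 (this ▸ hm)
  have hcard := Finset.card_le_card hsub
  rw [Finset.card_insert_of_notMem hnot,
    Finset.card_image_of_injOn ((cpl_injOn a d).mono fun x hx => (Finset.mem_sdiff.1 hx).1),
    Finset.card_sdiff_of_subset lexSeg_subset, card_lexSeg] at hcard
  rw [up]
  omega

theorem boxD_congr (a a' : Fin n → ℕ) (d : ℕ)
    (h : ∀ i, a i = a' i ∨ (d + 1 ≤ a i ∧ d + 1 ≤ a' i)) : boxD a d = boxD a' d := by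
  have key : ∀ b b' : Fin n → ℕ, (∀ i, b i = b' i ∨ (d + 1 ≤ b i ∧ d + 1 ≤ b' i)) →
      boxD b d ⊆ boxD b' d := by
    intro b b' hb m hm
    obtain ⟨h1, h2⟩ := mem_boxD.1 hm
    refine mem_boxD.2 ⟨fun i => ?_, h2⟩
    rcases hb i with h3 | h3
    · rw [← h3]
      exact h1 i
    · have h4 : m i ≤ ∑ j, m j := Finset.single_le_sum (fun _ _ => Nat.zero_le _)
        (Finset.mem_univ i)
      omega
  exact le_antisymm (key a a' h) (key a' a fun i => (h i).imp Eq.symm And.symm)

/-- the box only matters up to the degree in question: enlarging sides `> d + 1`. -/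
theorem up_congr (a a' : Fin n → ℕ) (d q : ℕ)
    (h : ∀ i, a i = a' i ∨ (d + 2 ≤ a i ∧ d + 2 ≤ a' i)) : up a d q = up a' d q := by
  have h1 : boxD a d = boxD a' d := boxD_congr a a' d fun i => by
    rcases h i with h | h
    · exact Or.inl h
    · exact Or.inr ⟨by omega, by omega⟩
  have h2 : lexSeg a d q = lexSeg a' d q := by rw [lexSeg, lexSeg, h1]
  have h3 : boxD a (d + 1) = boxD a' (d + 1) := boxD_congr a a' (d + 1) h
  rw [up, up, h2]
  congr 1
  ext y
  have key : ∀ b : Fin n → ℕ, lexSeg a' d q ⊆ boxD b d →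
      (y ∈ upShadow b (lexSeg a' d q) ↔ y ∈ boxD b (d + 1) ∧ ∃ m ∈ lexSeg a' d q, ∃ i,
        y = Function.update m i (m i + 1)) := by
    intro b hb
    constructor
    · intro hy
      exact ⟨upShadow_subset_boxD hb hy, (mem_upShadow.1 hy).2⟩
    · rintro ⟨h4, h5⟩
      exact mem_upShadow.2 ⟨(mem_boxD.1 h4).1, h5⟩
  rw [key a (by rw [h1]; exact lexSeg_subset), key a' lexSeg_subset, h3]

end Vale.Agent.P200.G
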