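import Vale.Agent.P200.G.StackA
import Vale.Agent.P200.G.StackB

/-! Stacking lexicographic segments of a box with one side removed: see StackA (slices and
growth) and StackB (duality and congruence). -/

namespace Vale.Agent.P200.G

variable {n : ℕ}

/-- numerical growth condition of Eisenbud-Green-Harris for a function `h` -/
def EGHnum (a : Fin n → ℕ) (h : ℕ → ℕ) : Prop :=
  ∀ d, up a d ((boxD a d).card - h d) + h (d + 1) ≤ (boxD a (d + 1)).card

end Vale.Agent.P200.G
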