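import Vale.Agent.P200.G.CAReg
import Vale.Agent.P200.G.Stack

/-! Gorenstein duality of complete intersections. -/

namespace Vale.Agent.P200.G

open MvPolynomial

variable {K : Type*} [Field K] {n : ℕ}

/-- the colon ideal `(I : J)` -/
def colonIdeal {R : Type*} [CommRing R] (I J : Ideal R) : Ideal R where
  carrier := {g | ∀ h ∈ J, g * h ∈ I}
  add_mem' := by
    intro a b ha hb h hh
    simpa [add_mul] using I.add_mem (ha h hh) (hb h hh)
  zero_mem' := by simp
  smul_mem' := by
    intro c x hx h hh
    simpa [mul_assoc, smul_eq_mul] using I.mul_mem_left c (hx h hh)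

theorem mem_colonIdeal {R : Type*} [CommRing R] {I J : Ideal R} {g : R} :
    g ∈ colonIdeal I J ↔ ∀ h ∈ J, g * h ∈ I := Iff.rfl

theorem span_range_eq_sup (f : Fin n → MvPolynomial (Fin n) K) (k : Fin n) :
    Ideal.span (Set.range f) = spanOthers f k ⊔ Ideal.span {f k} := by
  rw [spanOthers, ← Ideal.span_union, range_eq_insert f k, Set.union_comm, Set.insert_eq]

theorem spanOthers_update (f : Fin n → MvPolynomial (Fin n) K) (k : Fin n)
    (l : MvPolynomial (Fin n) K) : spanOthers (Function.update f k l) k = spanOthers f k := by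
  unfold spanOthers
  congr 1
  apply Set.image_congr
  intro i hi
  exact Function.update_of_ne hi _ _

theorem homIdeal_spanOthers (a : Fin n → ℕ) (f : Fin n → MvPolynomial (Fin n) K)
    (hf : ∀ i, (f i).IsHomogeneous (a i)) (k : Fin n) : HomIdeal (spanOthers f k) := by
  apply homIdeal_span
  rintro g ⟨i, -, rfl⟩
  exact ⟨a i, hf i⟩

theorem homIdeal_spanRange (a : Fin n → ℕ) (f : Fin n → MvPolynomial (Fin n) K)
    (hf : ∀ i, (f i).IsHomogeneous (a i)) : HomIdeal (Ideal.span (Set.range f)) := by
  apply homIdeal_span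
  rintro g ⟨i, rfl⟩
  exact ⟨a i, hf i⟩

/-- the socle of a complete intersection is concentrated in one degree -/
theorem socle_degree [Infinite K] (m : ℕ) : ∀ (a : Fin n → ℕ) (_ : ∀ i, 1 ≤ a i)
    (f : Fin n → MvPolynomial (Fin n) K) (_ : ∀ i, (f i).IsHomogeneous (a i))
    (_ : IsMPrimary (Ideal.span (Set.range f)))
    (_ : (Finset.univ.filter fun i => a i ≠ 1).card = m) (d : ℕ) (g : MvPolynomial (Fin n) K)
    (_ : g.IsHomogeneous d) (_ : g ∉ Ideal.span (Set.range f))
    (_ : ∀ i, X i * g ∈ Ideal.span (Set.range f)), d = ∑ i, (a i - 1) := by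
  induction m with
  | zero =>
    intro a hpos f hf h hm d g hg hgI hX
    have ha : ∀ i, a i = 1 := by
      intro i
      by_contra hne
      have : i ∈ Finset.univ.filter fun i => a i ≠ 1 := by simp [hne]
      rw [Finset.card_eq_zero.mp hm] at this
      simp at this
    have hs : ∑ i, (a i - 1) = 0 := by simp [ha]
    rw [hs]
    by_contra hd
    have h1 : hilb (Ideal.span (Set.range f)) 1 = 0 := by
      rw [hilb_span_eq_card_boxD a hpos f hf h]
      rw [Finset.card_eq_zero]
      by_contra hne
      obtain ⟨x, hx⟩ := Finset.nonempty_iff_ne_empty.mpr hne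
      rw [boxD, Finset.mem_filter, Fintype.mem_piFinset] at hx
      have h2 : ∑ i, x i = 0 := by
        apply Finset.sum_eq_zero
        intro i _
        have := hx.1 i
        rw [ha i, Finset.mem_range] at this
        omega
      omega
    rw [hilb_eq_zero_iff] at h1
    apply hgI
    have h2 : irr K n ≤ Ideal.span (Set.range f) := by
      rw [irr, Ideal.span_le]
      rintro _ ⟨i, rfl⟩
      exact h1 _ (isHomogeneous_X K i)
    exact h2 (mem_irr_of_isHomogeneous (by omega) hg)
  | succ m ih =>
    intro a hpos f hf h hm d g hg hgI hX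
    have hne : (Finset.univ.filter fun i => a i ≠ 1).Nonempty := by
      rw [← Finset.card_pos, hm]; omega
    obtain ⟨k, hk⟩ := hne
    have hk1 : a k ≠ 1 := (Finset.mem_filter.mp hk).2
    obtain ⟨l, hl, hl2⟩ := exists_linear_replacement a hpos f hf h k
    set f' := Function.update f k l with hf'
    set a' := Function.update a k 1 with ha'
    have hpos' : ∀ i, 1 ≤ a' i := by
      intro i
      by_cases hi : i = k
      · subst hi; rw [ha', Function.update_self]
      · rw [ha', Function.update_of_ne hi]; exact hpos i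
    have hhom' : ∀ i, (f' i).IsHomogeneous (a' i) := by
      intro i
      by_cases hi : i = k
      · subst hi; rw [ha', hf', Function.update_self, Function.update_self]; exact hl
      · rw [ha', hf', Function.update_of_ne hi, Function.update_of_ne hi]; exact hf i
    have hcard' : (Finset.univ.filter fun i => a' i ≠ 1).card = m := by
      have h1 : (Finset.univ.filter fun i => a' i ≠ 1) =
          (Finset.univ.filter fun i => a i ≠ 1).erase k := by
        ext i
        simp only [Finset.mem_filter, Finset.mem_univ, true_and, Finset.mem_erase]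
        by_cases hi : i = k
        · subst hi; simp [ha']
        · rw [ha', Function.update_of_ne hi]; simp [hi]
      rw [h1, Finset.card_erase_of_mem hk, hm]; rfl
    set J := spanOthers f k with hJ
    have hJhom : HomIdeal J := homIdeal_spanOthers a f hf k
    have hIJ : Ideal.span (Set.range f) = J ⊔ Ideal.span {f k} := span_range_eq_sup f k
    have hIJ' : Ideal.span (Set.range f') = J ⊔ Ideal.span {l} := by
      rw [span_range_eq_sup f' k, hf', spanOthers_update, Function.update_self]
    have nzf : ∀ w, f k * w ∈ J → w ∈ J := fun w hw => nzd_of_isMPrimary a hpos f hf h k w hw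
    have nzl : ∀ w, l * w ∈ J → w ∈ J := by
      intro w hw
      have h1 := nzd_of_isMPrimary a' hpos' f' hhom' hl2 k w
      rw [hf', spanOthers_update, Function.update_self] at h1
      exact h1 hw
    -- `l * g ∈ I`
    have hlg : l * g ∈ Ideal.span (Set.range f) := by
      have hli : l ∈ irr K n := mem_irr_of_isHomogeneous le_rfl hl
      have h1 : irr K n ≤ colonBy (Ideal.span (Set.range f)) g := by
        rw [irr, Ideal.span_le]
        rintro _ ⟨i, rfl⟩
        show g * X i ∈ Ideal.span (Set.range f)
        rw [mul_comm]; exact hX i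
      have h2 : g * l ∈ Ideal.span (Set.range f) := h1 hli
      rwa [mul_comm] at h2
    have hlgh : (l * g).IsHomogeneous (1 + d) := hl.mul hg
    have hdeg : a k ≤ d + 1 := by
      by_contra hlt
      push Not at hlt
      apply hgI
      have h1 : l * g ∈ J := by
        apply mem_of_hilb_eq (le_sup_left : J ≤ J ⊔ Ideal.span {f k})
          (hilb_sup_span_of_lt hJhom (hf k) (d := 1 + d) (by omega)).symm hlgh
        rw [← hIJ]; exact hlg
      rw [hIJ]
      exact Ideal.mem_sup_left (nzl g h1)
    obtain ⟨e, he⟩ : ∃ e, d + 1 = e + a k := ⟨d + 1 - a k, by omega⟩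
    obtain ⟨y, hy, hy2⟩ := exists_of_mem_sup_span hJhom (hf k) (d := e) (g := l * g)
      (by rw [← he, add_comm d 1]; exact hlgh) (by rw [← hIJ]; exact hlg)
    have hy3 : y ∉ Ideal.span (Set.range f') := by
      intro hmem
      rw [hIJ', Submodule.mem_sup] at hmem
      obtain ⟨j, hj, z, hz, hjz⟩ := hmem
      obtain ⟨y', rfl⟩ := Ideal.mem_span_singleton'.mp hz
      apply hgI
      have h1 : l * (g - f k * y') ∈ J := by
        have h2 : l * (g - f k * y') = (l * g - f k * y) + f k * j := by
          rw [← hjz]; ring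
        rw [h2]
        exact J.add_mem hy2 (J.mul_mem_left _ hj)
      have h2 := nzl _ h1
      rw [hIJ]
      have h3 : g = (g - f k * y') + f k * y' := by ring
      rw [h3]
      exact Ideal.add_mem _ (Ideal.mem_sup_left h2)
        (Ideal.mem_sup_right (Ideal.mul_mem_right _ _ (Ideal.mem_span_singleton_self _)))
    have hy4 : ∀ i, X i * y ∈ Ideal.span (Set.range f') := by
      intro i
      have h1 := hX i
      rw [hIJ, Submodule.mem_sup] at h1
      obtain ⟨j, hj, z, hz, hjz⟩ := h1
      obtain ⟨z', rfl⟩ := Ideal.mem_span_singleton'.mp hz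
      have h2 : f k * (X i * y - l * z') ∈ J := by
        have h3 : f k * (X i * y - l * z') = -(X i * (l * g - f k * y)) + l * j := by
          have h4 : j = X i * g - z' * f k := by rw [← hjz]; ring
          rw [h4]; ring
        rw [h3]
        exact J.add_mem (J.neg_mem (J.mul_mem_left _ hy2)) (J.mul_mem_left _ hj)
      have h3 := nzf _ h2
      rw [hIJ']
      have h4 : X i * y = (X i * y - l * z') + l * z' := by ring
      rw [h4]
      exact Ideal.add_mem _ (Ideal.mem_sup_left h3)
        (Ideal.mem_sup_right (Ideal.mul_mem_right _ _ (Ideal.mem_span_singleton_self _)))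
    have h5 := ih a' hpos' f' hhom' hl2 hcard' e y hy hy3 hy4
    have h6 : ∑ i, (a i - 1) = (a k - 1) + ∑ i, (a' i - 1) := by
      rw [← Finset.add_sum_erase _ _ (Finset.mem_univ k),
        ← Finset.add_sum_erase _ (fun i => a' i - 1) (Finset.mem_univ k)]
      have h7 : a' k - 1 = 0 := by rw [ha', Function.update_self]
      have h8 : ∑ x ∈ Finset.univ.erase k, (a x - 1) = ∑ x ∈ Finset.univ.erase k, (a' x - 1) := by
        apply Finset.sum_congr rfl
        intro x hx
        rw [ha', Function.update_of_ne (Finset.ne_of_mem_erase hx)]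
      rw [h7, h8]; ring
    have := hpos k
    omega

/-- nonzero homogeneous elements have nonzero multiples in the socle degree -/
theorem exists_mul_notMem [Infinite K] (a : Fin n → ℕ) (hpos : ∀ i, 1 ≤ a i)
    (f : Fin n → MvPolynomial (Fin n) K) (hf : ∀ i, (f i).IsHomogeneous (a i))
    (h : IsMPrimary (Ideal.span (Set.range f))) {d : ℕ} {g : MvPolynomial (Fin n) K}
    (hg : g.IsHomogeneous d) (hgI : g ∉ Ideal.span (Set.range f)) :
    d ≤ ∑ i, (a i - 1) ∧ ∃ u : MvPolynomial (Fin n) K, u.IsHomogeneous (∑ i, (a i - 1) - d) ∧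
      g * u ∉ Ideal.span (Set.range f) := by
  obtain ⟨N, hN⟩ := h
  have key : ∀ (r d : ℕ) (g : MvPolynomial (Fin n) K), g.IsHomogeneous d →
      g ∉ Ideal.span (Set.range f) → N ≤ d + r → d ≤ ∑ i, (a i - 1) ∧
        ∃ u : MvPolynomial (Fin n) K, u.IsHomogeneous (∑ i, (a i - 1) - d) ∧
          g * u ∉ Ideal.span (Set.range f) := by
    intro r
    induction r with
    | zero =>
      intro d g hg hgI hd
      exact absurd (hN d (by omega) g hg) hgI
    | succ r ih =>
      intro d g hg hgI hd
      by_cases hds : d = ∑ i, (a i - 1)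
      · refine ⟨hds.le, 1, ?_, by rwa [mul_one]⟩
        rw [← hds, Nat.sub_self]
        exact isHomogeneous_one _ _
      · have hex : ∃ i, X i * g ∉ Ideal.span (Set.range f) := by
          by_contra hc
          push Not at hc
          exact hds (socle_degree _ a hpos f hf ⟨N, hN⟩ rfl d g hg hgI hc)
        obtain ⟨i, hi⟩ := hex
        have h1 : (X i * g : MvPolynomial (Fin n) K).IsHomogeneous (1 + d) :=
          (isHomogeneous_X K i).mul hg
        obtain ⟨h2, u, hu, hu2⟩ := ih (1 + d) (X i * g) h1 hi (by omega)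
        refine ⟨by omega, X i * u, ?_, ?_⟩
        · have h3 : ∑ i, (a i - 1) - d = 1 + (∑ i, (a i - 1) - (1 + d)) := by omega
          rw [h3]
          exact (isHomogeneous_X K i).mul hu
        · have h3 : g * (X i * u) = X i * g * u := by ring
          rw [h3]; exact hu2
  exact key N d g hg hgI (by omega)

theorem mem_of_components {J : Ideal (MvPolynomial (Fin n) K)} {h : MvPolynomial (Fin n) K}
    (H : ∀ e, homogeneousComponent e h ∈ J) : h ∈ J := by
  rw [← sum_homogeneousComponent h]
  exact J.sum_mem fun e _ => H e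

theorem homIdeal_colonIdeal {I J : Ideal (MvPolynomial (Fin n) K)} (hI : HomIdeal I)
    (hJ : HomIdeal J) : HomIdeal (colonIdeal I J) := by
  intro g hg d h hh
  have h1 : homogeneousComponent d g * h = ∑ e ∈ Finset.range (h.totalDegree + 1),
      homogeneousComponent d g * homogeneousComponent e h := by
    rw [← Finset.mul_sum, sum_homogeneousComponent]
  rw [h1]
  apply I.sum_mem
  intro e _
  have h2 := homIdeal_colonBy hI (homogeneousComponent_isHomogeneous e h)
  have h3 : g ∈ colonBy I (homogeneousComponent e h) := by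
    show homogeneousComponent e h * g ∈ I
    rw [mul_comm]
    exact hg _ (hJ h hh e)
  have h4 : homogeneousComponent e h * homogeneousComponent d g ∈ I := h2 g h3 d
  rwa [mul_comm] at h4

theorem card_boxD_top (a : Fin n → ℕ) (hpos : ∀ i, 1 ≤ a i) :
    (boxD a (∑ i, (a i - 1))).card = 1 := by
  rw [Finset.card_eq_one]
  refine ⟨fun i => a i - 1, ?_⟩
  ext m
  rw [boxD, Finset.mem_filter, Fintype.mem_piFinset, Finset.mem_singleton]
  constructor
  · rintro ⟨h1, h2⟩
    have h3 : ∀ i ∈ Finset.univ, m i ≤ a i - 1 := by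
      intro i _
      have := h1 i
      rw [Finset.mem_range] at this
      omega
    have h4 := (Finset.sum_eq_sum_iff_of_le h3).mp h2
    funext i
    exact h4 i (Finset.mem_univ i)
  · rintro rfl
    refine ⟨fun i => ?_, rfl⟩
    rw [Finset.mem_range]
    have := hpos i
    show a i - 1 < a i
    omega

/-- a linear functional whose kernel on the socle degree is the ideal -/
theorem exists_functional {I : Ideal (MvPolynomial (Fin n) K)} {s : ℕ} (h : hilb I s = 1) :
    ∃ Λ : MvPolynomial (Fin n) K →ₗ[K] K, ∀ x, x.IsHomogeneous s → (Λ x = 0 ↔ x ∈ I) := by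
  set P : Submodule K (homogeneousSubmodule (Fin n) K s) :=
    (piece I s).comap (homogeneousSubmodule (Fin n) K s).subtype with hP
  have hle : piece I s ≤ homogeneousSubmodule (Fin n) K s := inf_le_right
  have h1 : Module.finrank K P = Module.finrank K (piece I s) :=
    (Submodule.comapSubtypeEquivOfLe hle).finrank_eq
  have h2 := Submodule.finrank_quotient_add_finrank P
  have h3 := finrank_piece_add_hilb I s
  have h4 : Module.finrank K (homogeneousSubmodule (Fin n) K s ⧸ P) = 1 := by omega
  have h5 : Module.finrank K (homogeneousSubmodule (Fin n) K s ⧸ P) = Module.finrank K K := by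
    rw [h4, Module.finrank_self]
  let e : (homogeneousSubmodule (Fin n) K s ⧸ P) ≃ₗ[K] K := LinearEquiv.ofFinrankEq _ _ h5
  let lam : homogeneousSubmodule (Fin n) K s →ₗ[K] K := e.toLinearMap ∘ₗ P.mkQ
  obtain ⟨Λ, hΛ⟩ := lam.exists_extend
  refine ⟨Λ, fun x hx => ?_⟩
  have h6 : Λ x = lam ⟨x, hx⟩ := by rw [← hΛ]; rfl
  rw [h6]
  show e (P.mkQ ⟨x, hx⟩) = 0 ↔ _
  rw [LinearEquiv.map_eq_zero_iff, Submodule.mkQ_apply, Submodule.Quotient.mk_eq_zero]
  show x ∈ piece I s ↔ _
  rw [piece, Submodule.mem_inf]
  exact ⟨fun h => h.1, fun h => ⟨h, hx⟩⟩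

/-- linkage formula for Hilbert functions -/
theorem hilb_colonIdeal [Infinite K] (a : Fin n → ℕ) (hpos : ∀ i, 1 ≤ a i)
    (f : Fin n → MvPolynomial (Fin n) K) (hf : ∀ i, (f i).IsHomogeneous (a i))
    (h : IsMPrimary (Ideal.span (Set.range f))) (J : Ideal (MvPolynomial (Fin n) K))
    (hJ : HomIdeal J) (hfJ : ∀ i, f i ∈ J) (d : ℕ) (hd : d ≤ ∑ i, (a i - 1)) :
    hilb (colonIdeal (Ideal.span (Set.range f)) J) (∑ i, (a i - 1) - d) + hilb J d =
      (boxD a d).card := by
  set I := Ideal.span (Set.range f) with hI
  set s := ∑ i, (a i - 1) with hs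
  have hIJ : I ≤ J := by
    rw [hI, Ideal.span_le]
    rintro _ ⟨i, rfl⟩
    exact hfJ i
  have hs1 : hilb I s = 1 := by
    rw [hI, hilb_span_eq_card_boxD a hpos f hf h, hs, card_boxD_top a hpos]
  obtain ⟨Λ, hΛ⟩ := exists_functional hs1
  set T := homogeneousSubmodule (Fin n) K (s - d) with hT
  let B : MvPolynomial (Fin n) K →ₗ[K] MvPolynomial (Fin n) K →ₗ[K] K :=
    (LinearMap.mul K (MvPolynomial (Fin n) K)).compr₂ Λ
  have hB : ∀ x y, B x y = Λ (x * y) := fun x y => rfl
  let BJ : piece J d →ₗ[K] Module.Dual K T := B.domRestrict₁₂ (piece J d) T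
  have hBJ : ∀ (x : piece J d) (y : T), BJ x y = Λ ((x : MvPolynomial (Fin n) K) * y) :=
    fun x y => rfl
  have hmulhom : ∀ (x y : MvPolynomial (Fin n) K), x.IsHomogeneous d → y.IsHomogeneous (s - d) →
      (x * y).IsHomogeneous s := by
    intro x y hx hy
    have := hx.mul hy
    rwa [show d + (s - d) = s by omega] at this
  -- kernel of BJ
  have hker : Module.finrank K (LinearMap.ker BJ) = Module.finrank K (piece I d) := by
    have h1 : LinearMap.ker BJ = (piece I d).comap (piece J d).subtype := by
      ext x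
      have hx1 : (x : MvPolynomial (Fin n) K) ∈ J := x.2.1
      have hx2 : (x : MvPolynomial (Fin n) K).IsHomogeneous d := x.2.2
      rw [LinearMap.mem_ker, Submodule.mem_comap, Submodule.subtype_apply]
      constructor
      · intro h0
        refine ⟨?_, hx2⟩
        show (x : MvPolynomial (Fin n) K) ∈ I
        by_contra hxI
        obtain ⟨-, u, hu, hu2⟩ := exists_mul_notMem a hpos f hf h hx2 hxI
        apply hu2
        rw [← hΛ _ (hmulhom _ _ hx2 hu)]
        have h2 := hBJ x ⟨u, hu⟩
        rw [h0] at h2
        exact h2.symm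
      · rintro ⟨h0, -⟩
        have h0' : (x : MvPolynomial (Fin n) K) ∈ I := h0
        ext y
        rw [hBJ]
        exact (hΛ _ (hmulhom _ _ hx2 y.2)).mpr (I.mul_mem_right _ h0')
    rw [h1]
    exact (Submodule.comapSubtypeEquivOfLe (piece_mono hIJ d)).finrank_eq
  -- the orthogonal complement
  have horth : Module.finrank K (LinearMap.range BJ).dualCoannihilator =
      Module.finrank K (piece (colonIdeal I J) (s - d)) := by
    have h1 : (LinearMap.range BJ).dualCoannihilator =
        (piece (colonIdeal I J) (s - d)).comap T.subtype := by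
      ext y
      have hy2 : (y : MvPolynomial (Fin n) K).IsHomogeneous (s - d) := y.2
      rw [Submodule.mem_dualCoannihilator, Submodule.mem_comap, Submodule.subtype_apply]
      constructor
      · intro h0
        refine ⟨?_, hy2⟩
        show (y : MvPolynomial (Fin n) K) ∈ colonIdeal I J
        have h2 : ∀ x ∈ J, x.IsHomogeneous d → x * (y : MvPolynomial (Fin n) K) ∈ I := by
          intro x hx hxd
          rw [← hΛ _ (hmulhom _ _ hxd hy2)]
          exact h0 (BJ ⟨x, ⟨hx, hxd⟩⟩) ⟨_, rfl⟩
        have h3 : ∀ e, ∀ z ∈ J, z.IsHomogeneous e → (y : MvPolynomial (Fin n) K) * z ∈ I := by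
          intro e z hz hze
          by_contra hcon
          obtain ⟨h4, w, hw, hw2⟩ := exists_mul_notMem a hpos f hf h (hy2.mul hze) hcon
          apply hw2
          have h5 : e ≤ d := by omega
          have h6 : (z * w).IsHomogeneous d := by
            have h7 := hze.mul hw
            rwa [show e + (∑ i, (a i - 1) - (s - d + e)) = d by omega] at h7
          have h7 := h2 (z * w) (J.mul_mem_right _ hz) h6
          have h8 : (y : MvPolynomial (Fin n) K) * z * w = z * w * y := by ring
          rw [h8]; exact h7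
        rw [mem_colonIdeal]
        intro z hz
        have h4 : (y : MvPolynomial (Fin n) K) * z = ∑ e ∈ Finset.range (z.totalDegree + 1),
            (y : MvPolynomial (Fin n) K) * homogeneousComponent e z := by
          rw [← Finset.mul_sum, sum_homogeneousComponent]
        rw [h4]
        exact I.sum_mem fun e _ => h3 e _ (hJ z hz e) (homogeneousComponent_isHomogeneous e z)
      · rintro ⟨h0, -⟩ φ ⟨x, rfl⟩
        have h0' : (y : MvPolynomial (Fin n) K) ∈ colonIdeal I J := h0
        have hx2 : (x : MvPolynomial (Fin n) K).IsHomogeneous d := x.2.2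
        rw [hBJ]
        refine (hΛ _ (hmulhom _ _ hx2 hy2)).mpr ?_
        rw [mul_comm]
        exact h0' _ x.2.1
    rw [h1]
    exact (Submodule.comapSubtypeEquivOfLe
      (inf_le_right : piece (colonIdeal I J) (s - d) ≤ T)).finrank_eq
  have e1 := LinearMap.finrank_range_add_finrank_ker BJ
  have e2 := Subspace.finrank_add_finrank_dualCoannihilator_eq (LinearMap.range BJ)
  have e3 := finrank_piece_add_hilb I d
  have e4 := finrank_piece_add_hilb J d
  have e5 := finrank_piece_add_hilb (colonIdeal I J) (s - d)
  have e6 : hilb I d = (boxD a d).card := hilb_span_eq_card_boxD a hpos f hf h d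
  rw [← e6]
  have e7 : Module.finrank K (LinearMap.range BJ) +
      Module.finrank K (piece (colonIdeal I J) (s - d)) = Module.finrank K T := by
    rw [← horth]; exact e2
  rw [hker] at e1
  have e8 : Module.finrank K T =
      Module.finrank K (homogeneousSubmodule (Fin n) K (s - d)) := rfl
  omega

/-- duality of the growth inequality -/
theorem egh_dual [Infinite K] (a : Fin n → ℕ) (hpos : ∀ i, 1 ≤ a i)
    (f : Fin n → MvPolynomial (Fin n) K) (hf : ∀ i, (f i).IsHomogeneous (a i))
    (h : IsMPrimary (Ideal.span (Set.range f))) (J : Ideal (MvPolynomial (Fin n) K))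
    (hJ : HomIdeal J) (hfJ : ∀ i, f i ∈ J) (d : ℕ) (hd : d + 1 ≤ ∑ i, (a i - 1))
    (hdual : up a (∑ i, (a i - 1) - d - 1)
        ((boxD a (∑ i, (a i - 1) - d - 1)).card -
          hilb (colonIdeal (Ideal.span (Set.range f)) J) (∑ i, (a i - 1) - d - 1)) +
        hilb (colonIdeal (Ideal.span (Set.range f)) J) (∑ i, (a i - 1) - d) ≤
        (boxD a (∑ i, (a i - 1) - d)).card) :
    up a d ((boxD a d).card - hilb J d) + hilb J (d + 1) ≤ (boxD a (d + 1)).card := by
  by_contra hcon
  push Not at hcon
  have hIJ : Ideal.span (Set.range f) ≤ J := by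
    rw [Ideal.span_le]
    rintro _ ⟨i, rfl⟩
    exact hfJ i
  have c1 := hilb_colonIdeal a hpos f hf h J hJ hfJ d (by omega)
  have c2 := hilb_colonIdeal a hpos f hf h J hJ hfJ (d + 1) hd
  have c3 := card_boxD_dual a hpos d (by omega)
  have c4 := card_boxD_dual a hpos (d + 1) hd
  have c5 : hilb J (d + 1) ≤ (boxD a (d + 1)).card := by omega
  have c6 := up_dual a hpos d hd ((boxD a d).card - hilb J d) (hilb J (d + 1))
    (Nat.sub_le _ _) c5 (by omega)
  rw [← Nat.sub_sub] at c2 c4
  rw [c3] at hdual
  rw [c4] at hdual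
  have c7 : (boxD a (d + 1)).card - hilb (colonIdeal (Ideal.span (Set.range f)) J)
      (∑ i, (a i - 1) - d - 1) = hilb J (d + 1) := by omega
  rw [c7] at hdual
  omega

end Vale.Agent.P200.G
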