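import Vale.Agent.P200.G.RL
import Vale.Agent.P200.G.CAGor

/-! The main induction on the number of variables. -/

namespace Vale.Agent.P200.G

open MvPolynomial

/-- The three-variable theorem (proved elsewhere), as a hypothesis on the field. -/
def Base3 (K : Type*) [Field K] : Prop :=
  ∀ a : Fin 3 → ℕ, Monotone a → (∀ i, 2 ≤ a i) →
    ∀ f : Fin 3 → MvPolynomial (Fin 3) K, (∀ i, (f i).IsHomogeneous (a i)) →
      IsMPrimary (Ideal.span (Set.range f)) →
      ∀ I : Ideal (MvPolynomial (Fin 3) K), HomIdeal I → (∀ i, f i ∈ I) → EGH a I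

/-- `T` is an admissible set of nonsplit forms: from the fourth element on the degrees grow
fast. -/
structure Admissible {n : ℕ} (a : Fin n → ℕ) (T : Finset (Fin n)) : Prop where
  grow : ∀ i ∈ T, 3 ≤ (T.filter fun j => j < i).card →
    ∑ j ∈ T.filter fun j => j < i, (a j - 1) < a i

/-- Transport of admissibility along a strictly monotone map. -/
private theorem Admissible.pull {n N : ℕ} {a : Fin N → ℕ}
    {T : Finset (Fin N)} (h : Admissible a T) (e : Fin n ↪ Fin N)
    (T' : Finset (Fin n)) (hT' : ∀ i ∈ T', e i ∈ T)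
    (hf : ∀ i ∈ T', (T'.filter fun j => j < i).map e = T.filter fun j => j < e i) :
    Admissible (fun i => a (e i)) T' := by
  constructor
  intro i hi h3
  have h1 := h.grow (e i) (hT' i hi)
  rw [← hf i hi, Finset.card_map, Finset.sum_map] at h1
  exact h1 h3

private theorem admissible_of_card_lt {n : ℕ} (a : Fin n → ℕ)
    (T : Finset (Fin n)) (h : T.card < 3) : Admissible a T where
  grow i _ h3 := by
    have := Finset.card_le_card (Finset.filter_subset (fun j => j < i) T)
    omega

/-- The statement for `n` variables. -/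
private def Main (K : Type*) [Field K] (n : ℕ) : Prop :=
  ∀ (a : Fin n → ℕ), Monotone a → (∀ i, 2 ≤ a i) →
    ∀ f : Fin n → MvPolynomial (Fin n) K, (∀ i, (f i).IsHomogeneous (a i)) →
      IsMPrimary (Ideal.span (Set.range f)) →
      ∀ T : Finset (Fin n), Admissible a T → (∀ i, i ∉ T → SplitsLinear (a i) (f i)) →
      ∀ I : Ideal (MvPolynomial (Fin n) K), HomIdeal I → (∀ i, f i ∈ I) → EGH a I

/-- Case A: one of the forms splits. -/
private theorem caseA {K : Type*} [Field K] {n : ℕ} (ih : Main K n)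
    (a : Fin (n + 1) → ℕ) (ha : Monotone a) (h2 : ∀ i, 2 ≤ a i)
    (f : Fin (n + 1) → MvPolynomial (Fin (n + 1)) K) (hf : ∀ i, (f i).IsHomogeneous (a i))
    (hm : IsMPrimary (Ideal.span (Set.range f))) (k : Fin (n + 1))
    (hk : SplitsLinear (a k) (f k)) (T' : Finset (Fin n))
    (hT' : Admissible (fun i => a (k.succAbove i)) T')
    (hs : ∀ i, i ∉ T' → SplitsLinear (a (k.succAbove i)) (f (k.succAbove i)))
    (I : Ideal (MvPolynomial (Fin (n + 1)) K)) (hI : HomIdeal I) (hfI : ∀ i, f i ∈ I) :
    EGH a I := by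
  have hpos : ∀ i, 1 ≤ a i := fun i => le_trans (by norm_num) (h2 i)
  refine egh_of_linear_factors a ha hpos k I hI (f k) hk
    (ne_zero_of_isMPrimary a hpos f hf hm k) (hfI k) ?_
  intro l hl hl0 hdvd J hJ hIJ hlJ
  obtain ⟨φ, hφ⟩ := exists_eliminates hl hl0
  have h1 := ih (fun i => a (k.succAbove i)) (fun i j hij => ha (by
      exact (Fin.strictMono_succAbove k).monotone hij)) (fun i => h2 _)
    (fun i => φ (f (k.succAbove i))) (fun i => hφ.homog _ _ (hf _))
    (hφ.isMPrimary k f hm hdvd) T' hT' (fun i hi => hφ.splitsLinear (hs i hi))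
    (J.map φ) (hφ.homIdeal_map hJ) (fun i => Ideal.mem_map_of_mem _ (hIJ (hfI _)))
  rw [egh_iff_num] at h1
  have h3 : hilb (J.map φ) = hilb J := funext fun d => hφ.hilb_map hlJ d
  rwa [h3] at h1

private theorem boxD_eq_empty {n : ℕ} (a : Fin n → ℕ) (d : ℕ) (hd : ∑ i, (a i - 1) < d) :
    boxD a d = ∅ := by
  rw [Finset.eq_empty_iff_forall_notMem]
  intro m hm
  obtain ⟨h1, h2⟩ := mem_boxD.1 hm
  have h3 : ∑ i, m i ≤ ∑ i, (a i - 1) := Finset.sum_le_sum fun i _ => by
    have := h1 i
    omega
  omega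

private theorem egh_large {K : Type*} [Field K] [Infinite K] {n : ℕ} (a : Fin n → ℕ)
    (hpos : ∀ i, 1 ≤ a i) (f : Fin n → MvPolynomial (Fin n) K)
    (hf : ∀ i, (f i).IsHomogeneous (a i)) (hm : IsMPrimary (Ideal.span (Set.range f)))
    (I : Ideal (MvPolynomial (Fin n) K)) (hfI : ∀ i, f i ∈ I) (d : ℕ)
    (hd : ∑ i, (a i - 1) < d + 1) :
    up a d ((boxD a d).card - hilb I d) + hilb I (d + 1) ≤ (boxD a (d + 1)).card := by
  have h1 : boxD a (d + 1) = ∅ := boxD_eq_empty a (d + 1) hd
  have h2 : hilb I (d + 1) ≤ hilb (Ideal.span (Set.range f)) (d + 1) := by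
    apply hilb_antitone
    rw [Ideal.span_le]
    rintro _ ⟨i, rfl⟩
    exact hfI i
  rw [hilb_span_eq_card_boxD a hpos f hf hm (d + 1), h1, Finset.card_empty] at h2
  have h3 := up_le_card a d ((boxD a d).card - hilb I d)
  rw [h1, Finset.card_empty] at h3 ⊢
  omega

private theorem splitsLinear_linear_pow {K : Type*} [Field K] {n : ℕ} {l : MvPolynomial (Fin n) K}
    (hl : l.IsHomogeneous 1) (A : ℕ) : SplitsLinear A (l ^ A) :=
  ⟨fun _ => l, fun _ => hl, by simp⟩

/-- Case C: no form is known to split, at least four variables. -/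
private theorem caseC {K : Type*} [Field K] [Infinite K] {n : ℕ} (hn : 3 ≤ n) (ih : Main K n)
    (a : Fin (n + 1) → ℕ) (ha : Monotone a) (h2 : ∀ i, 2 ≤ a i)
    (f : Fin (n + 1) → MvPolynomial (Fin (n + 1)) K) (hf : ∀ i, (f i).IsHomogeneous (a i))
    (hm : IsMPrimary (Ideal.span (Set.range f)))
    (hadm : Admissible a Finset.univ)
    (I : Ideal (MvPolynomial (Fin (n + 1)) K)) (hI : HomIdeal I) (hfI : ∀ i, f i ∈ I) :
    EGH a I := by
  classical
  have hpos : ∀ i, 1 ≤ a i := fun i => le_trans (by norm_num) (h2 i)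
  set A := a (Fin.last n) with hA
  have hfil : (Finset.univ : Finset (Fin (n + 1))).filter (fun j => j < Fin.last n) =
      (Finset.univ : Finset (Fin n)).map Fin.castSuccEmb := by
    ext j
    rw [Finset.mem_filter, Finset.mem_map]
    constructor
    · rintro ⟨-, hj⟩
      exact ⟨j.castPred hj.ne, Finset.mem_univ _, Fin.castSucc_castPred _ _⟩
    · rintro ⟨i, -, rfl⟩
      exact ⟨Finset.mem_univ _, Fin.castSucc_lt_last i⟩
  have hsum : ∑ j : Fin n, (a j.castSucc - 1) < A := by
    have h3 := hadm.grow (Fin.last n) (Finset.mem_univ _)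
    rw [hfil, Finset.card_map, Finset.sum_map, Finset.card_univ, Fintype.card_fin] at h3
    exact h3 hn
  have hadm' : Admissible (fun i => a ((Fin.last n).succAbove i)) Finset.univ := by
    refine hadm.pull (Fin.last n).succAboveEmb Finset.univ
      (fun i _ => Finset.mem_univ _) ?_
    intro i _
    ext j
    rw [Finset.mem_map, Finset.mem_filter]
    constructor
    · rintro ⟨l, hl, rfl⟩
      exact ⟨Finset.mem_univ _, Fin.strictMono_succAbove _ (Finset.mem_filter.1 hl).2⟩
    · rintro ⟨-, hj⟩
      have hjl : j ≠ Fin.last n := by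
        rintro rfl
        exact absurd hj (not_lt.2 (Fin.le_last _))
      obtain ⟨l, rfl⟩ := Fin.exists_succAbove_eq hjl
      exact ⟨l, Finset.mem_filter.2 ⟨Finset.mem_univ _,
        (Fin.strictMono_succAbove _).lt_iff_lt.1 hj⟩, rfl⟩
  obtain ⟨l, hl, hlm⟩ := exists_linear_replacement a hpos f hf hm (Fin.last n)
  have hm'' := isMPrimary_update_pow _ (Fin.last n) A hlm
  rw [Function.update_idem, Function.update_self] at hm''
  -- low degrees
  have low : ∀ I : Ideal (MvPolynomial (Fin (n + 1)) K), HomIdeal I → (∀ i, f i ∈ I) →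
      ∀ d, d + 1 < A →
      up a d ((boxD a d).card - hilb I d) + hilb I (d + 1) ≤ (boxD a (d + 1)).card := by
    intro I hI hfI d hd
    have hlA : (l ^ A).IsHomogeneous A := by
      simpa using hl.pow A
    have h3 := caseA ih a ha h2 (Function.update f (Fin.last n) (l ^ A)) (fun i => by
        rcases eq_or_ne i (Fin.last n) with rfl | hi
        · rw [Function.update_self]
          exact hlA
        · rw [Function.update_of_ne hi]
          exact hf i) hm'' (Fin.last n) (by
        rw [Function.update_self]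
        exact splitsLinear_linear_pow hl A) Finset.univ hadm'
      (fun i hi => absurd (Finset.mem_univ i) hi) (I ⊔ Ideal.span {l ^ A})
      (homIdeal_sup hI (homIdeal_span (by
        rintro g hg
        rw [Set.mem_singleton_iff] at hg
        exact ⟨A, by rw [hg]; exact hlA⟩))) (fun i => by
        rcases eq_or_ne i (Fin.last n) with rfl | hi
        · rw [Function.update_self]
          exact Ideal.mem_sup_right (Ideal.mem_span_singleton_self _)
        · rw [Function.update_of_ne hi]
          exact Ideal.mem_sup_left (hfI i)) d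
    rwa [hilb_sup_span_of_lt hI hlA hd, hilb_sup_span_of_lt hI hlA (by omega : d < A)] at h3
  intro d
  rcases Nat.lt_or_ge (d + 1) A with hd | hd
  · exact low I hI hfI d hd
  rcases Nat.lt_or_ge (∑ i, (a i - 1)) (d + 1) with hd2 | hd2
  · exact egh_large a hpos f hf hm I hfI d hd2
  refine egh_dual a hpos f hf hm I hI hfI d hd2 ?_
  have h4 : ∑ i, (a i - 1) = ∑ j : Fin n, (a j.castSucc - 1) + (A - 1) :=
    Fin.sum_univ_castSucc _
  have h5 := low (colonIdeal (Ideal.span (Set.range f)) I)
    (homIdeal_colonIdeal (homIdeal_span (by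
      rintro _ ⟨i, rfl⟩
      exact ⟨_, hf i⟩)) hI)
    (fun i h _ => Ideal.mul_mem_right _ _ (Ideal.subset_span ⟨i, rfl⟩))
    (∑ i, (a i - 1) - d - 1) (by omega)
  have h6 : ∑ i, (a i - 1) - d - 1 + 1 = ∑ i, (a i - 1) - d := by omega
  rwa [h6] at h5

theorem egh_main {K : Type*} [Field K] [IsAlgClosed K] (hbase : Base3 K) :
    ∀ (n : ℕ) (a : Fin n → ℕ), Monotone a → (∀ i, 2 ≤ a i) →
    ∀ f : Fin n → MvPolynomial (Fin n) K, (∀ i, (f i).IsHomogeneous (a i)) →
      IsMPrimary (Ideal.span (Set.range f)) →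
      ∀ T : Finset (Fin n), Admissible a T → (∀ i, i ∉ T → SplitsLinear (a i) (f i)) →
      ∀ I : Ideal (MvPolynomial (Fin n) K), HomIdeal I → (∀ i, f i ∈ I) → EGH a I := by
  classical
  have hinf : Infinite K := IsAlgClosed.instInfinite
  intro n
  induction n with
  | zero =>
    intro a _ _ f hf hm T _ _ I _ hfI d
    exact egh_large a (fun i => i.elim0) f hf hm I hfI d (by simp)
  | succ n ih =>
    intro a ha h2 f hf hm T hT hs I hI hfI
    have hpos : ∀ i, 1 ≤ a i := fun i => le_trans (by norm_num) (h2 i)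
    rcases Nat.lt_or_ge n 2 with hn | hn
    · -- at most two variables
      have hsp : ∀ i, SplitsLinear (a i) (f i) := fun i =>
        splitsLinear_of_le_two (by omega) (hpos i) (hf i)
      exact caseA ih a ha h2 f hf hm 0 (hsp 0) ∅
        (admissible_of_card_lt _ _ (by simp)) (fun i _ => hsp _) I hI hfI
    by_cases hTu : T = Finset.univ
    · subst hTu
      rcases hn.eq_or_lt with hn2 | hn3
      · -- three variables
        subst hn2
        exact hbase a ha h2 f hf hm I hI hfI
      · exact caseC hn3 ih a ha h2 f hf hm hT I hI hfI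
    · obtain ⟨k, hk⟩ : ∃ k, k ∉ T := by
        by_contra hcon
        push Not at hcon
        exact hTu (Finset.eq_univ_iff_forall.2 hcon)
      refine caseA ih a ha h2 f hf hm k (hs k hk)
        (Finset.univ.filter fun i => k.succAbove i ∈ T) ?_
        (fun i hi => hs _ fun h => hi (Finset.mem_filter.2 ⟨Finset.mem_univ _, h⟩)) I hI hfI
      refine hT.pull k.succAboveEmb _
        (fun i hi => (Finset.mem_filter.1 hi).2) ?_
      intro i _
      ext j
      rw [Finset.mem_map, Finset.mem_filter]
      constructor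
      · rintro ⟨l, hl, rfl⟩
        rw [Finset.mem_filter, Finset.mem_filter] at hl
        exact ⟨hl.1.2, Fin.strictMono_succAbove _ hl.2⟩
      · rintro ⟨hj, hji⟩
        have hjk : j ≠ k := by
          rintro rfl
          exact hk hj
        obtain ⟨l, rfl⟩ := Fin.exists_succAbove_eq hjk
        exact ⟨l, Finset.mem_filter.2 ⟨Finset.mem_filter.2 ⟨Finset.mem_univ _, hj⟩,
          (Fin.strictMono_succAbove _).lt_iff_lt.1 hji⟩, rfl⟩

end Vale.Agent.P200.G
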