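import Vale.Agent.P200.Defs

/-! Basic facts on the lexicographic order, boxes, shadows and lexicographic segments. -/

namespace Vale.Agent.P200.G

variable {n : ℕ}

theorem lexLT_irrefl (m : Fin n → ℕ) : ¬ lexLT m m := by
  rintro ⟨i, _, h⟩
  exact lt_irrefl _ h

theorem lexLT_trans {m₁ m₂ m₃ : Fin n → ℕ} (h : lexLT m₁ m₂) (h' : lexLT m₂ m₃) :
    lexLT m₁ m₃ := by
  obtain ⟨i, hi, hi'⟩ := h
  obtain ⟨j, hj, hj'⟩ := h'
  rcases lt_trichotomy i j with hij | rfl | hij
  · exact ⟨i, fun k hk => (hi k hk).trans (hj k (hk.trans hij)), by rw [← hj i hij]; exact hi'⟩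
  · exact ⟨i, fun k hk => (hi k hk).trans (hj k hk), hi'.trans hj'⟩
  · exact ⟨j, fun k hk => (hi k (hk.trans hij)).trans (hj k hk), by rw [hi j hij]; exact hj'⟩

theorem lexLT_asymm {m₁ m₂ : Fin n → ℕ} (h : lexLT m₁ m₂) : ¬ lexLT m₂ m₁ :=
  fun h' => lexLT_irrefl _ (lexLT_trans h h')

/-- the first index where two exponents differ -/
theorem exists_first_ne {m m' : Fin n → ℕ} (h : m ≠ m') :
    ∃ i, (∀ k, k < i → m k = m' k) ∧ m i ≠ m' i := by
  classical
  have hne : (Finset.univ.filter fun i => m i ≠ m' i).Nonempty := by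
    obtain ⟨i, hi⟩ := Function.ne_iff.1 h
    exact ⟨i, by simpa using hi⟩
  refine ⟨(Finset.univ.filter fun i => m i ≠ m' i).min' hne, fun k hk => ?_, ?_⟩
  · by_contra hk'
    exact absurd (Finset.min'_le _ k (by simpa using hk')) (not_le.2 hk)
  · have := Finset.min'_mem _ hne
    simpa using this

theorem lexLT_trichotomy (m m' : Fin n → ℕ) : lexLT m m' ∨ m = m' ∨ lexLT m' m := by
  by_cases h : m = m'
  · exact Or.inr (Or.inl h)
  · obtain ⟨i, hi, hi'⟩ := exists_first_ne h
    rcases lt_or_gt_of_ne hi' with h1 | h1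
    · exact Or.inl ⟨i, hi, h1⟩
    · exact Or.inr (Or.inr ⟨i, fun k hk => (hi k hk).symm, h1⟩)

theorem mem_boxD {a : Fin n → ℕ} {d : ℕ} {m : Fin n → ℕ} :
    m ∈ boxD a d ↔ (∀ i, m i < a i) ∧ ∑ i, m i = d := by
  simp [boxD]

theorem mem_upShadow {a : Fin n → ℕ} {M : Finset (Fin n → ℕ)} {y : Fin n → ℕ} :
    y ∈ upShadow a M ↔
      (∀ i, y i < a i) ∧ ∃ m ∈ M, ∃ i, y = Function.update m i (m i + 1) := by
  simp only [upShadow, Finset.mem_filter, Finset.mem_biUnion, Finset.mem_image, Finset.mem_univ,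
    true_and]
  constructor
  · rintro ⟨⟨m, hm, i, hi⟩, h⟩
    exact ⟨h, m, hm, i, hi.symm⟩
  · rintro ⟨h, m, hm, i, hi⟩
    exact ⟨⟨m, hm, i, hi.symm⟩, h⟩

theorem sum_update_succ (m : Fin n → ℕ) (i : Fin n) :
    ∑ j, Function.update m i (m i + 1) j = ∑ j, m j + 1 := by
  rw [Finset.sum_update_of_mem (Finset.mem_univ i), Finset.sdiff_singleton_eq_erase]
  have := Finset.add_sum_erase Finset.univ m (Finset.mem_univ i)
  omega

theorem sum_update_pred {m : Fin n → ℕ} {i : Fin n} (hi : 0 < m i) :
    ∑ j, Function.update m i (m i - 1) j + 1 = ∑ j, m j := by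
  rw [Finset.sum_update_of_mem (Finset.mem_univ i), Finset.sdiff_singleton_eq_erase]
  have := Finset.add_sum_erase Finset.univ m (Finset.mem_univ i)
  omega

theorem upShadow_subset_boxD {a : Fin n → ℕ} {d : ℕ} {M : Finset (Fin n → ℕ)}
    (hM : M ⊆ boxD a d) : upShadow a M ⊆ boxD a (d + 1) := by
  intro y hy
  obtain ⟨h, m, hm, i, rfl⟩ := mem_upShadow.1 hy
  rw [mem_boxD, sum_update_succ, (mem_boxD.1 (hM hm)).2]
  exact ⟨h, rfl⟩

theorem upShadow_mono {a : Fin n → ℕ} {M M' : Finset (Fin n → ℕ)} (h : M ⊆ M') :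
    upShadow a M ⊆ upShadow a M' := by
  intro y hy
  obtain ⟨h1, m, hm, i, h2⟩ := mem_upShadow.1 hy
  exact mem_upShadow.2 ⟨h1, m, h hm, i, h2⟩

theorem upShadow_empty {a : Fin n → ℕ} : upShadow a ∅ = ∅ := by
  simp [upShadow]

theorem lexSeg_subset {a : Fin n → ℕ} {d q : ℕ} : lexSeg a d q ⊆ boxD a d :=
  Finset.filter_subset _ _

theorem mem_lexSeg {a : Fin n → ℕ} {d q : ℕ} {m : Fin n → ℕ} :
    m ∈ lexSeg a d q ↔ m ∈ boxD a d ∧ ((boxD a d).filter fun m' => lexLT m m').card < q := by
  simp [lexSeg]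

/-- the number of larger elements is strictly decreasing -/
theorem rank_lt {a : Fin n → ℕ} {d : ℕ} {m m' : Fin n → ℕ} (hm' : m' ∈ boxD a d)
    (h : lexLT m m') : ((boxD a d).filter fun x => lexLT m' x).card <
      ((boxD a d).filter fun x => lexLT m x).card := by
  apply Finset.card_lt_card
  refine ⟨fun x hx => ?_, fun hsub => ?_⟩
  · simp only [Finset.mem_filter] at hx ⊢
    exact ⟨hx.1, lexLT_trans h hx.2⟩
  · have h1 : m' ∈ (boxD a d).filter fun x => lexLT m x := by
      simp only [Finset.mem_filter]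
      exact ⟨hm', h⟩
    have h2 := hsub h1
    simp only [Finset.mem_filter] at h2
    exact lexLT_irrefl _ h2.2

theorem rank_lt_card {a : Fin n → ℕ} {d : ℕ} {m : Fin n → ℕ} (hm : m ∈ boxD a d) :
    ((boxD a d).filter fun x => lexLT m x).card < (boxD a d).card := by
  apply Finset.card_lt_card
  refine ⟨Finset.filter_subset _ _, fun hsub => ?_⟩
  have h2 := hsub hm
  simp only [Finset.mem_filter] at h2
  exact lexLT_irrefl _ h2.2

theorem rank_injOn (a : Fin n → ℕ) (d : ℕ) :
    Set.InjOn (fun m => ((boxD a d).filter fun x => lexLT m x).card) (boxD a d : Set _) := by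
  intro m hm m' hm' h
  simp only at h
  rcases lexLT_trichotomy m m' with h1 | h1 | h1
  · exact absurd h (rank_lt hm' h1).ne'
  · exact h1
  · exact absurd h (rank_lt hm h1).ne

theorem card_lexSeg (a : Fin n → ℕ) (d q : ℕ) :
    (lexSeg a d q).card = min q (boxD a d).card := by
  classical
  set r : (Fin n → ℕ) → ℕ := fun m => ((boxD a d).filter fun x => lexLT m x).card with hr
  have himg : (boxD a d).image r = Finset.range (boxD a d).card := by
    apply Finset.eq_of_subset_of_card_le
    · intro t ht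
      obtain ⟨m, hm, rfl⟩ := Finset.mem_image.1 ht
      exact Finset.mem_range.2 (rank_lt_card hm)
    · rw [Finset.card_image_of_injOn (rank_injOn a d), Finset.card_range]
  have himg2 : (lexSeg a d q).image r = Finset.range (min q (boxD a d).card) := by
    ext t
    rw [Finset.mem_image, Finset.mem_range, lt_min_iff]
    constructor
    · rintro ⟨m, hm, rfl⟩
      exact ⟨(mem_lexSeg.1 hm).2, rank_lt_card (mem_lexSeg.1 hm).1⟩
    · rintro ⟨h1, h2⟩
      rw [← Finset.mem_range, ← himg, Finset.mem_image] at h2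
      obtain ⟨m, hm, rfl⟩ := h2
      exact ⟨m, mem_lexSeg.2 ⟨hm, h1⟩, rfl⟩
  rw [← Finset.card_image_of_injOn ((rank_injOn a d).mono fun x hx => lexSeg_subset hx), himg2,
    Finset.card_range]

theorem lexSeg_upClosed {a : Fin n → ℕ} {d q : ℕ} {m m' : Fin n → ℕ}
    (hm : m ∈ lexSeg a d q) (hm' : m' ∈ boxD a d) (h : lexLT m m') : m' ∈ lexSeg a d q :=
  mem_lexSeg.2 ⟨hm', (rank_lt hm' h).trans (mem_lexSeg.1 hm).2⟩

theorem eq_lexSeg_of_upClosed {a : Fin n → ℕ} {d : ℕ} {M : Finset (Fin n → ℕ)}
    (hM : M ⊆ boxD a d) (h : ∀ m ∈ M, ∀ m' ∈ boxD a d, lexLT m m' → m' ∈ M) :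
    M = lexSeg a d M.card := by
  ext m
  rw [mem_lexSeg]
  constructor
  · intro hm
    refine ⟨hM hm, Finset.card_lt_card ⟨fun x hx => ?_, fun hsub => ?_⟩⟩
    · rw [Finset.mem_filter] at hx
      exact h m hm x hx.1 hx.2
    · have h2 := hsub hm
      rw [Finset.mem_filter] at h2
      exact lexLT_irrefl _ h2.2
  · rintro ⟨hm, hcard⟩
    by_contra hmM
    refine absurd hcard (not_lt.2 (Finset.card_le_card fun x hx => ?_))
    rw [Finset.mem_filter]
    refine ⟨hM hx, ?_⟩
    rcases lexLT_trichotomy m x with h1 | h1 | h1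
    · exact h1
    · exact absurd (h1 ▸ hx) hmM
    · exact absurd (h x hx m hm h1) hmM

theorem lexSeg_mono {a : Fin n → ℕ} {d q q' : ℕ} (h : q ≤ q') :
    lexSeg a d q ⊆ lexSeg a d q' := by
  intro m hm
  rw [mem_lexSeg] at hm ⊢
  exact ⟨hm.1, hm.2.trans_le h⟩

/-- a lexicographic segment of full size is everything -/
theorem lexSeg_of_card_le {a : Fin n → ℕ} {d q : ℕ} (h : (boxD a d).card ≤ q) :
    lexSeg a d q = boxD a d :=
  le_antisymm lexSeg_subset fun _ hm => mem_lexSeg.2 ⟨hm, (rank_lt_card hm).trans_le h⟩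

/-- two up-closed subsets of the same degree are comparable -/
theorem upClosed_total {a : Fin n → ℕ} {d : ℕ} {M M' : Finset (Fin n → ℕ)}
    (hM : M ⊆ boxD a d) (h : ∀ m ∈ M, ∀ m' ∈ boxD a d, lexLT m m' → m' ∈ M)
    (hM' : M' ⊆ boxD a d) (h' : ∀ m ∈ M', ∀ m' ∈ boxD a d, lexLT m m' → m' ∈ M') :
    M ⊆ M' ∨ M' ⊆ M := by
  by_contra hcon
  rw [not_or, Finset.not_subset, Finset.not_subset] at hcon
  obtain ⟨⟨x, hx, hx'⟩, ⟨y, hy, hy'⟩⟩ := hcon
  rcases lexLT_trichotomy x y with h1 | h1 | h1
  · exact hy' (h x hx y (hM' hy) h1)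
  · exact hx' (h1 ▸ hy)
  · exact hx' (h' y hy x (hM hx) h1)

/-- `m' ≤ m` pointwise with a strict inequality somewhere contradicts equal degrees -/
theorem sum_ne_of_le {m m' : Fin n → ℕ} (h : ∀ k, m' k ≤ m k) {k0 : Fin n} (h0 : m' k0 < m k0)
    (hs : ∑ i, m i ≤ ∑ i, m' i) : False :=
  absurd (Finset.sum_lt_sum (fun k _ => h k) ⟨k0, Finset.mem_univ _, h0⟩) (not_lt.2 hs)

theorem upShadow_lexSeg_upClosed {a : Fin n → ℕ} {d q : ℕ} {y y' : Fin n → ℕ}
    (hy : y ∈ upShadow a (lexSeg a d q)) (hy' : y' ∈ boxD a (d + 1)) (h : lexLT y y') :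
    y' ∈ upShadow a (lexSeg a d q) := by
  classical
  obtain ⟨hyb, m, hm, i, hym⟩ := mem_upShadow.1 hy
  obtain ⟨j, hj, hj'⟩ := h
  obtain ⟨hyb', hys'⟩ := mem_boxD.1 hy'
  have hms := (mem_boxD.1 (lexSeg_subset hm)).2
  have hmy : ∀ k, m k ≤ y k := by
    intro k
    rw [hym]
    by_cases hk : k = i
    · subst hk
      simp
    · simp [hk]
  -- the last index in the support of `y'`
  have hne : (Finset.univ.filter fun k => 0 < y' k).Nonempty :=
    ⟨j, by
      rw [Finset.mem_filter]
      exact ⟨Finset.mem_univ _, by omega⟩⟩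
  set l := (Finset.univ.filter fun k => 0 < y' k).max' hne with hl
  have hlpos : 0 < y' l := by
    have := Finset.max'_mem _ hne
    rw [Finset.mem_filter] at this
    exact this.2
  have hlast : ∀ k, l < k → y' k = 0 := by
    intro k hk
    by_contra hk'
    refine absurd (Finset.le_max' _ k ?_) (not_le.2 hk)
    rw [Finset.mem_filter]
    exact ⟨Finset.mem_univ _, by omega⟩
  have hjl : j ≤ l := by
    refine Finset.le_max' _ j ?_
    rw [Finset.mem_filter]
    exact ⟨Finset.mem_univ _, by omega⟩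
  set m' := Function.update y' l (y' l - 1) with hm'def
  have hm's : ∑ k, m' k = d := by
    have := sum_update_pred hlpos
    rw [← hm'def] at this
    omega
  have hm'l : m' l = y' l - 1 := by simp [hm'def]
  have hm'k : ∀ k, k ≠ l → m' k = y' k := by
    intro k hk
    simp [hm'def, hk]
  have hm'le : ∀ k, m' k ≤ y' k := by
    intro k
    by_cases hk : k = l
    · rw [hk, hm'l]
      omega
    · rw [hm'k k hk]
  have hm'box : m' ∈ boxD a d :=
    mem_boxD.2 ⟨fun k => (hm'le k).trans_lt (hyb' k), hm's⟩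
  have hmem : m' ∈ lexSeg a d q := by
    rcases lexLT_trichotomy m m' with h1 | h1 | h1
    · exact lexSeg_upClosed hm hm'box h1
    · rw [← h1]
      exact hm
    · exfalso
      obtain ⟨k0, hk0, hk0'⟩ := h1
      rcases lt_trichotomy k0 j with h2 | h2 | h2
      · have e1 := hmy k0
        have e2 := hj k0 h2
        have e3 := hm'k k0 (h2.trans_le hjl).ne
        omega
      · subst h2
        have e1 := hmy k0
        have e2 : y' k0 ≤ m' k0 + 1 := by
          by_cases hk : k0 = l
          · rw [hk, hm'l]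
            omega
          · rw [hm'k k0 hk]
            omega
        omega
      · have e1 := hk0 j h2
        have e2 := hmy j
        have e3 : j = l := by
          by_contra hk
          have := hm'k j hk
          omega
        refine sum_ne_of_le (m := m) (m' := m') (fun k => ?_) hk0' (by omega)
        rcases lt_or_ge k k0 with h3 | h3
        · exact (hk0 k h3).le
        · have e4 : l < k := by
            rw [← e3]
            exact h2.trans_le h3
          rw [hm'k k e4.ne', hlast k e4]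
          exact Nat.zero_le _
  refine mem_upShadow.2 ⟨hyb', m', hmem, l, ?_⟩
  rw [hm'l, hm'def, Function.update_idem, Nat.sub_add_cancel hlpos, Function.update_eq_self]

theorem upShadow_lexSeg (a : Fin n → ℕ) (d q : ℕ) :
    upShadow a (lexSeg a d q) = lexSeg a (d + 1) (up a d q) :=
  eq_lexSeg_of_upClosed (upShadow_subset_boxD lexSeg_subset)
    fun _ hy _ hy' h => upShadow_lexSeg_upClosed hy hy' h

theorem up_mono {a : Fin n → ℕ} {d q q' : ℕ} (h : q ≤ q') : up a d q ≤ up a d q' :=
  Finset.card_le_card (upShadow_mono (lexSeg_mono h))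

theorem up_le_card (a : Fin n → ℕ) (d q : ℕ) : up a d q ≤ (boxD a (d + 1)).card :=
  Finset.card_le_card (upShadow_subset_boxD lexSeg_subset)

theorem up_zero (a : Fin n → ℕ) (d : ℕ) : up a d 0 = 0 := by
  have h : lexSeg a d 0 = ∅ := by
    rw [← Finset.card_eq_zero, card_lexSeg, Nat.zero_min]
  rw [up, h, upShadow_empty, Finset.card_empty]

/-- one step of filling from the end: if `y < z` lexicographically, `deg y < deg z`, both in
the box, then some `y + e_k` is in the box and is lexicographically at most `z`. -/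
theorem exists_step {a : Fin n → ℕ} {y z : Fin n → ℕ} (hy : ∀ i, y i < a i)
    (hz : ∀ i, z i < a i) (hyz : lexLT y z) (hdeg : ∑ i, y i < ∑ i, z i) :
    ∃ k, (∀ i, Function.update y k (y k + 1) i < a i) ∧
      (Function.update y k (y k + 1) = z ∨ lexLT (Function.update y k (y k + 1)) z) := by
  obtain ⟨i, hi, hi'⟩ := hyz
  by_cases hk : ∃ k, i < k ∧ y k + 1 < a k
  · obtain ⟨k, hik, hk⟩ := hk
    refine ⟨k, fun j => ?_, Or.inr ⟨i, fun j hj => ?_, ?_⟩⟩
    · by_cases hjk : j = k
      · subst hjk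
        simpa using hk
      · simpa [hjk] using hy j
    · rw [Function.update_of_ne (hj.trans hik).ne]
      exact hi j hj
    · rw [Function.update_of_ne hik.ne]
      exact hi'
  · simp only [not_exists, not_and, not_lt] at hk
    have h1 : ∀ k, i < k → z k ≤ y k := fun k hik => by
      have := hk k hik
      have := hz k
      omega
    refine ⟨i, fun j => ?_, ?_⟩
    · by_cases hji : j = i
      · subst hji
        have := hz j
        simp only [Function.update_self]
        omega
      · simpa [hji] using hy j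
    · rcases lexLT_trichotomy (Function.update y i (y i + 1)) z with h2 | h2 | h2
      · exact Or.inr h2
      · exact Or.inl h2
      · exfalso
        obtain ⟨k0, hk0, hk0'⟩ := h2
        refine sum_ne_of_le (m := Function.update y i (y i + 1)) (m' := z) (fun k => ?_) hk0' ?_
        · rcases lt_trichotomy k i with h3 | h3 | h3
          · rw [Function.update_of_ne h3.ne]
            exact (hi k h3).ge
          · subst h3
            by_contra hcon
            have h4 : Function.update y k (y k + 1) k < z k := not_le.1 hcon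
            rcases lt_trichotomy k0 k with h5 | h5 | h5
            · rw [Function.update_of_ne h5.ne, hi k0 h5] at hk0'
              exact lt_irrefl _ hk0'
            · subst h5
              exact lt_asymm hk0' h4
            · exact absurd (hk0 k h5) h4.ne'
          · rw [Function.update_of_ne h3.ne']
            exact h1 k h3
        · rw [sum_update_succ]
          exact hdeg

end Vale.Agent.P200.G
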