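import Vale.Agent.P200.GrowthPolyFree
import Vale.Agent.P200.Main
import Vale.Agent.P200.G.Induct
import Vale.Agent.P200.G.LexBasic
import Vale.Agent.P200.G.HilbBasic
import Vale.Agent.P200.G.CAReg

/-! The three-variable theorem in the form used by the induction. -/

namespace Vale.Agent.P200.G

open MvPolynomial

/-- the rank in lex order is one plus the number of larger monomials, function form -/
theorem b3_rank (a : Fin 3 → ℕ) (d : ℕ) (m : Fin 3 → ℕ) (hm : m ∈ boxD a d) :
    ((boxD a d).filter fun m' => lexLT m m').card + 1 =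
      rk (a 0) (a 1) (a 2) d (m 0) (m 1) := by
  classical
  obtain ⟨hm1, hm2⟩ := mem_boxD.mp hm
  let e : Fin 3 →₀ ℕ := Finsupp.equivFunOnFinite.symm m
  have he : ∀ i, e i = m i := fun i => rfl
  have heo : e ∈ outside (le_refl 3) a d := by
    refine ⟨fun i => ?_, ?_⟩
    · exact hm1 i
    · exact hm2
  have h1 := rk_eq_ncard a d e heo
  rw [he, he] at h1
  rw [← h1]
  congr 1
  rw [← Set.ncard_coe_finset]
  refine Set.ncard_congr (fun x _ => Finsupp.equivFunOnFinite.symm x) ?_ ?_ ?_
  · intro x hx
    rw [Finset.mem_coe, Finset.mem_filter, mem_boxD] at hx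
    obtain ⟨⟨h2, h3⟩, i, h4, h5⟩ := hx
    exact ⟨⟨h2, h3⟩, i, h5, fun j hj => (h4 j hj).symm⟩
  · intro x y _ _ hxy
    exact Finsupp.equivFunOnFinite.symm.injective hxy
  · intro y hy
    obtain ⟨⟨h2, h3⟩, i, h4, h5⟩ := hy
    refine ⟨fun i => y i, ?_, ?_⟩
    · rw [Finset.mem_coe, Finset.mem_filter, mem_boxD]
      exact ⟨⟨h2, h3⟩, i, fun j hj => (h5 j hj).symm, h4⟩
    · ext i; rfl

theorem b3_inBox (a : Fin 3 → ℕ) (d : ℕ) (m : Fin 3 → ℕ) (hm : m ∈ boxD a d) :
    InBox (a 0) (a 1) (a 2) d (m 0) (m 1) (m 2) := by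
  obtain ⟨hm1, hm2⟩ := mem_boxD.mp hm
  rw [Fin.sum_univ_three] at hm2
  exact ⟨hm1 0, hm1 1, hm1 2, hm2⟩

/-- the rank function form of the growth inequality implies the segment form -/
theorem b3_up_le (a : Fin 3 → ℕ) (d q M : ℕ) (h : Shadow (a 0) (a 1) (a 2) d q M) :
    up a d q ≤ M := by
  classical
  have hsub : upShadow a (lexSeg a d q) ⊆ lexSeg a (d+1) M := by
    intro y hy
    have hyb : y ∈ boxD a (d+1) := upShadow_subset_boxD lexSeg_subset hy
    obtain ⟨_, m, hm, i, hym⟩ := mem_upShadow.mp hy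
    obtain ⟨hmb, hmq⟩ := mem_lexSeg.mp hm
    have h1 := b3_rank a d m hmb
    have h2 := b3_rank a (d+1) y hyb
    have h3 := b3_inBox a (d+1) y hyb
    obtain ⟨g1, g2, g3⟩ := h (m 0) (m 1) (m 2) (b3_inBox a d m hmb) (by omega)
    refine mem_lexSeg.mpr ⟨hyb, ?_⟩
    have key : rk (a 0) (a 1) (a 2) (d+1) (y 0) (y 1) ≤ M := by
      subst hym
      fin_cases i
      · have e0 : Function.update m (0 : Fin 3) (m 0 + 1) 0 = m 0 + 1 := by simp
        have e1 : Function.update m (0 : Fin 3) (m 0 + 1) 1 = m 1 := by simp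
        have e2 : Function.update m (0 : Fin 3) (m 0 + 1) 2 = m 2 := by simp
        change InBox _ _ _ _ (Function.update m (0 : Fin 3) (m 0 + 1) 0)
          (Function.update m (0 : Fin 3) (m 0 + 1) 1)
          (Function.update m (0 : Fin 3) (m 0 + 1) 2) at h3
        change rk _ _ _ _ (Function.update m (0 : Fin 3) (m 0 + 1) 0)
          (Function.update m (0 : Fin 3) (m 0 + 1) 1) ≤ M
        rw [e0, e1, e2] at h3
        rw [e0, e1]
        exact g1 h3
      · have e0 : Function.update m (1 : Fin 3) (m 1 + 1) 0 = m 0 := by simp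
        have e1 : Function.update m (1 : Fin 3) (m 1 + 1) 1 = m 1 + 1 := by simp
        have e2 : Function.update m (1 : Fin 3) (m 1 + 1) 2 = m 2 := by simp
        change InBox _ _ _ _ (Function.update m (1 : Fin 3) (m 1 + 1) 0)
          (Function.update m (1 : Fin 3) (m 1 + 1) 1)
          (Function.update m (1 : Fin 3) (m 1 + 1) 2) at h3
        change rk _ _ _ _ (Function.update m (1 : Fin 3) (m 1 + 1) 0)
          (Function.update m (1 : Fin 3) (m 1 + 1) 1) ≤ M
        rw [e0, e1, e2] at h3
        rw [e0, e1]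
        exact g2 h3
      · have e0 : Function.update m (2 : Fin 3) (m 2 + 1) 0 = m 0 := by simp
        have e1 : Function.update m (2 : Fin 3) (m 2 + 1) 1 = m 1 := by simp
        have e2 : Function.update m (2 : Fin 3) (m 2 + 1) 2 = m 2 + 1 := by simp
        change InBox _ _ _ _ (Function.update m (2 : Fin 3) (m 2 + 1) 0)
          (Function.update m (2 : Fin 3) (m 2 + 1) 1)
          (Function.update m (2 : Fin 3) (m 2 + 1) 2) at h3
        change rk _ _ _ _ (Function.update m (2 : Fin 3) (m 2 + 1) 0)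
          (Function.update m (2 : Fin 3) (m 2 + 1) 1) ≤ M
        rw [e0, e1, e2] at h3
        rw [e0, e1]
        exact g3 h3
    omega
  calc up a d q ≤ (lexSeg a (d+1) M).card := Finset.card_le_card hsub
    _ = min M (boxD a (d+1)).card := card_lexSeg a (d+1) M
    _ ≤ M := min_le_left _ _

theorem base3 (K : Type*) [Field K] [IsAlgClosed K] : Base3 K := by
  intro a hmono h2 f hf hprim I hI hfI d
  have hinf : Infinite K := IsAlgClosed.instInfinite
  have hpos : ∀ i, 1 ≤ a i := fun i => le_trans (by norm_num) (h2 i)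
  have hreg : IsRegularSeq f := isRegSeq_of_isMPrimary a hpos f hf hprim
  have H := regSeq3_of_isRegularSeq a f hf hreg
  have hspan : I3 (f 0) (f 1) (f 2) = Ideal.span (Set.range f) := by
    unfold I3
    congr 1
    ext p
    simp only [Set.mem_insert_iff, Set.mem_singleton_iff, Set.mem_range]
    constructor
    · rintro (rfl | rfl | rfl)
      · exact ⟨0, rfl⟩
      · exact ⟨1, rfl⟩
      · exact ⟨2, rfl⟩
    · rintro ⟨i, rfl⟩
      fin_cases i
      · exact Or.inl rfl
      · exact Or.inr (Or.inl rfl)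
      · exact Or.inr (Or.inr rfl)
  have hle : Ideal.span (Set.range f) ≤ I := by
    rw [Ideal.span_le]
    rintro _ ⟨i, rfl⟩
    exact hfI i
  have key := growth_poly_free (hpos 0) (hmono (by decide : (0 : Fin 3) ≤ 1))
    (hmono (by decide : (1 : Fin 3) ≤ 2)) H I
    (by rw [hspan]; exact hle) d
  rw [hspan] at key
  have hd : ∀ e, Module.finrank K (degPart I e) -
      Module.finrank K (degPart (Ideal.span (Set.range f)) e) = (boxD a e).card - hilb I e := by
    intro e
    have h1 := finrank_piece_add_hilb I e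
    have h3 := finrank_piece_add_hilb (Ideal.span (Set.range f)) e
    have h4 := hilb_span_eq_card_boxD a hpos f hf hprim e
    have h5 := hilb_antitone hle e
    change Module.finrank K (piece I e) - Module.finrank K (piece (Ideal.span (Set.range f)) e)
      = _
    omega
  rw [hd, hd] at key
  have h5 := hilb_antitone hle (d+1)
  rw [hilb_span_eq_card_boxD a hpos f hf hprim (d+1)] at h5
  have h6 := b3_up_le a d _ _ key
  omega

end Vale.Agent.P200.G
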