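import Vale.Agent.P200.G.HilbBasic
import Vale.Agent.P200.BCAux

/-! Extension of the base field. -/

namespace Vale.Agent.P200.G

open MvPolynomial

variable {K : Type*} [Field K] {L : Type*} [Field L] [Algebra K L] {n : ℕ}

theorem homIdeal_baseChange {I : Ideal (MvPolynomial (Fin n) K)} (hI : HomIdeal I) :
    HomIdeal (I.map (MvPolynomial.map (σ := Fin n) (algebraMap K L))) := by
  intro p hp d
  rw [mem_map_iff_bcc] at hp ⊢
  intro φ
  rw [← homogeneousComponent_bcc]
  exact hI _ (hp φ) d

theorem hilb_baseChange (I : Ideal (MvPolynomial (Fin n) K)) (hI : HomIdeal I) (d : ℕ) :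
    hilb (I.map (MvPolynomial.map (σ := Fin n) (algebraMap K L))) d = hilb I d := by
  have h1 : Module.Finite K (homogeneousSubmodule (Fin n) K d) :=
    Module.Finite.iff_fg.2 (homogeneousSubmodule_fg (Fin n) K d)
  have h2 : Module.Finite K (I.restrictScalars K ⊓ homogeneousSubmodule (Fin n) K d :
      Submodule K (MvPolynomial (Fin n) K)) :=
    Submodule.finiteDimensional_of_le (S₂ := homogeneousSubmodule (Fin n) K d) inf_le_right
  have h3 := finrank_deg_map (L := L) I d
  have h4 : Module.Finite K ((⊤ : Ideal (MvPolynomial (Fin n) K)).restrictScalars K ⊓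
      homogeneousSubmodule (Fin n) K d : Submodule K (MvPolynomial (Fin n) K)) :=
    Submodule.finiteDimensional_of_le (S₂ := homogeneousSubmodule (Fin n) K d) inf_le_right
  have h5 := finrank_deg_map (L := L) (⊤ : Ideal (MvPolynomial (Fin n) K)) d
  rw [Ideal.map_top, Submodule.restrictScalars_top, Submodule.restrictScalars_top, top_inf_eq,
    top_inf_eq] at h5
  unfold hilb piece
  rw [h3, h5]

theorem isRegSeq_baseChange {c : ℕ} (f : Fin c → MvPolynomial (Fin n) K)
    (a : Fin c → ℕ) (hf : ∀ i, (f i).IsHomogeneous (a i)) (hreg : IsRegSeq f) :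
    IsRegSeq fun i => MvPolynomial.map (σ := Fin n) (algebraMap K L) (f i) := by
  intro i g hg
  have e1 : (fun i => MvPolynomial.map (σ := Fin n) (algebraMap K L) (f i)) '' {j | j < i} =
      (MvPolynomial.map (σ := Fin n) (algebraMap K L)) '' (f '' {j | j < i}) := by
    rw [Set.image_image]
  rw [e1, ← map_span_image] at hg ⊢
  rw [mem_map_iff_bcc] at hg ⊢
  intro φ
  have h1 := hg φ
  rw [bcc_map_mul] at h1
  exact hreg i _ h1

end Vale.Agent.P200.G
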