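import Vale.Agent.P200.FDefs
import Vale.Agent.P200.G.Base3
import Vale.Agent.P200.G.BaseChange

/-! Final assembly: the literal lex-plus-powers space is an ideal. -/

namespace Vale.Agent.P200.G

open MvPolynomial

variable {K : Type*} [Field K] {n c : ℕ}

/-- the degrees `a`, completed by `N` -/
def extDeg (_ : c ≤ n) (a : Fin c → ℕ) (N : ℕ) : Fin n → ℕ :=
  fun i => if h : i.1 < c then a ⟨i.1, h⟩ else N

theorem extDeg_castLE (h : c ≤ n) (a : Fin c → ℕ) (N : ℕ) (i : Fin c) :
    extDeg h a N (Fin.castLE h i) = a i := by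
  simp [extDeg]

theorem extDeg_of_not_lt (h : c ≤ n) (a : Fin c → ℕ) (N : ℕ) {i : Fin n} (hi : ¬ i.1 < c) :
    extDeg h a N i = N := by
  simp [extDeg, hi]

theorem forall_lt_extDeg_iff (h : c ≤ n) (a : Fin c → ℕ) {N : ℕ} (m : Fin n → ℕ)
    (hm : ∑ i, m i < N) :
    (∀ i, m i < extDeg h a N i) ↔ ∀ i : Fin c, m (Fin.castLE h i) < a i := by
  constructor
  · intro H i
    have := H (Fin.castLE h i)
    rwa [extDeg_castLE] at this
  · intro H i
    by_cases hi : i.1 < c
    · have h1 : i = Fin.castLE h ⟨i.1, hi⟩ := rfl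
      rw [h1, extDeg_castLE]
      exact H _
    · rw [extDeg_of_not_lt h a N hi]
      exact lt_of_le_of_lt (Finset.single_le_sum (fun j _ => Nat.zero_le (m j))
        (Finset.mem_univ i)) hm

theorem mem_outside_iff (h : c ≤ n) (a : Fin c → ℕ) {N e : ℕ} (hN : e < N)
    (m : Fin n →₀ ℕ) : m ∈ outside h a e ↔ (m : Fin n → ℕ) ∈ boxD (extDeg h a N) e := by
  rw [mem_boxD]
  constructor
  · rintro ⟨h1, h2⟩
    exact ⟨(forall_lt_extDeg_iff h a _ (by omega)).mpr h1, h2⟩
  · rintro ⟨h1, h2⟩
    exact ⟨(forall_lt_extDeg_iff h a _ (by omega)).mp h1, h2⟩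

/-- exponents of the monomials of degree `d` inside `P` -/
def insideP (h : c ≤ n) (a : Fin c → ℕ) (d : ℕ) : Set (Fin n →₀ ℕ) :=
  {m | (∃ i, a i ≤ m (Fin.castLE h i)) ∧ ∑ i, m i = d}

theorem powerIdeal_eq (h : c ≤ n) (a : Fin c → ℕ) : powerIdeal K h a =
    Ideal.span ((fun s => monomial s (1 : K)) ''
      (Set.range fun i : Fin c => Finsupp.single (Fin.castLE h i) (a i))) := by
  rw [powerIdeal, ← Set.range_comp]
  congr 2
  funext i
  exact X_pow_eq_monomial

theorem mem_powerIdeal_iff (h : c ≤ n) (a : Fin c → ℕ) {x : MvPolynomial (Fin n) K} :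
    x ∈ powerIdeal K h a ↔ ∀ m ∈ x.support, ∃ i, a i ≤ m (Fin.castLE h i) := by
  rw [powerIdeal_eq, mem_ideal_span_monomial_image]
  constructor
  · intro H m hm
    obtain ⟨_, ⟨i, rfl⟩, hi⟩ := H m hm
    exact ⟨i, Finsupp.single_le_iff.mp hi⟩
  · intro H m hm
    obtain ⟨i, hi⟩ := H m hm
    exact ⟨_, ⟨i, rfl⟩, Finsupp.single_le_iff.mpr hi⟩

theorem weight_one_eq (m : Fin n →₀ ℕ) : Finsupp.weight (1 : Fin n → ℕ) m = ∑ i, m i := by
  rw [Finsupp.weight_apply, Finsupp.sum_fintype _ _ (by simp)]
  simp

theorem isHomogeneous_iff_support {x : MvPolynomial (Fin n) K} {d : ℕ} :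
    x.IsHomogeneous d ↔ ∀ m ∈ x.support, ∑ i, m i = d := by
  constructor
  · intro H m hm
    have h1 : Finsupp.weight (1 : Fin n → ℕ) m = d := H (mem_support_iff.mp hm)
    rwa [weight_one_eq] at h1
  · intro H m hm
    show Finsupp.weight (1 : Fin n → ℕ) m = d
    rw [weight_one_eq]
    exact H m (mem_support_iff.mpr hm)

theorem homogeneousSubmodule_eq_restrict (d : ℕ) :
    homogeneousSubmodule (Fin n) K d = restrictSupport K {m : Fin n →₀ ℕ | ∑ i, m i = d} := by
  ext x
  rw [mem_homogeneousSubmodule, isHomogeneous_iff_support, mem_restrictSupport_iff]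
  rfl

theorem degPart_powerIdeal (h : c ≤ n) (a : Fin c → ℕ) (d : ℕ) :
    degPart (powerIdeal K h a) d = restrictSupport K (insideP h a d) := by
  ext x
  rw [degPart, Submodule.mem_inf, Submodule.restrictScalars_mem, mem_powerIdeal_iff,
    mem_homogeneousSubmodule, isHomogeneous_iff_support, mem_restrictSupport_iff]
  constructor
  · rintro ⟨h1, h2⟩ m hm
    exact ⟨h1 m hm, h2 m hm⟩
  · intro H
    exact ⟨fun m hm => (H hm).1, fun m hm => (H hm).2⟩

theorem finite_degree_eq (d : ℕ) : {m : Fin n →₀ ℕ | ∑ i, m i = d}.Finite := by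
  have : {m : Fin n →₀ ℕ | ∑ i, m i = d} =
      ↑((Finset.univ : Finset (Fin n)).finsuppAntidiag d) := by
    ext e
    simp [Finset.mem_finsuppAntidiag]
  rw [this]
  exact Finset.finite_toSet _

theorem finrank_restrictSupport (s : Set (Fin n →₀ ℕ)) (hs : s.Finite) :
    Module.finrank K (restrictSupport K s) = s.ncard := by
  have := hs.fintype
  rw [Module.finrank_eq_card_basis (basisRestrictSupport K s), Set.ncard_eq_toFinset_card',
    Set.toFinset_card]

theorem outside_finite (h : c ≤ n) (a : Fin c → ℕ) (d : ℕ) : (outside h a d).Finite :=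
  (finite_degree_eq d).subset fun _ hm => hm.2

theorem finrank_homogeneous_eq (h : c ≤ n) (a : Fin c → ℕ) (d : ℕ) :
    Module.finrank K (homogeneousSubmodule (Fin n) K d) =
      Module.finrank K (degPart (powerIdeal K h a) d) + (outside h a d).ncard := by
  have hin : (insideP h a d).Finite := (finite_degree_eq d).subset fun _ hm => hm.2
  rw [homogeneousSubmodule_eq_restrict, degPart_powerIdeal,
    finrank_restrictSupport _ (finite_degree_eq d), finrank_restrictSupport _ hin,
    ← Set.ncard_union_eq _ hin (outside_finite h a d)]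
  · congr 1
    ext m
    constructor
    · intro hm
      by_cases hc : ∃ i, a i ≤ m (Fin.castLE h i)
      · exact Or.inl ⟨hc, hm⟩
      · push Not at hc
        exact Or.inr ⟨hc, hm⟩
    · rintro (hm | hm)
      · exact hm.2
      · exact hm.2
  · rw [Set.disjoint_left]
    rintro m ⟨⟨i, hi⟩, -⟩ ⟨h2, -⟩
    exact absurd (h2 i) (not_lt.mpr hi)

/-- finite sets of exponents as finsets of functions -/
theorem ncard_eq_card_of_iff {s : Set (Fin n →₀ ℕ)} {t : Finset (Fin n → ℕ)}
    (H : ∀ m : Fin n →₀ ℕ, m ∈ s ↔ (m : Fin n → ℕ) ∈ t) : s.ncard = t.card := by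
  have h1 : (fun m : Fin n →₀ ℕ => (m : Fin n → ℕ)) '' s = ↑t := by
    ext x
    constructor
    · rintro ⟨m, hm, rfl⟩
      exact (H m).mp hm
    · intro hx
      refine ⟨Finsupp.equivFunOnFinite.symm x, ?_, ?_⟩
      · rw [H]
        have : ((Finsupp.equivFunOnFinite.symm x : Fin n →₀ ℕ) : Fin n → ℕ) = x := rfl
        rw [this]
        exact hx
      · rfl
  rw [← Set.ncard_image_of_injective s (DFunLike.coe_injective (F := Fin n →₀ ℕ)), h1,
    Set.ncard_coe_finset]

theorem qdim_eq (h : c ≤ n) (a : Fin c → ℕ) (I : Ideal (MvPolynomial (Fin n) K)) {N e : ℕ}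
    (hN : e < N) : qdim h a I e = (boxD (extDeg h a N) e).card - hilb I e := by
  have h1 : (outside h a e).ncard = (boxD (extDeg h a N) e).card :=
    ncard_eq_card_of_iff fun m => mem_outside_iff h a hN m
  have h2 := finrank_homogeneous_eq (K := K) h a e
  have h3 := finrank_piece_add_hilb I e
  have h4 : degPart I e = piece I e := rfl
  rw [qdim, h4, ← h1]
  omega

theorem ncard_larger (h : c ≤ n) (a : Fin c → ℕ) {N e : ℕ} (hN : e < N) (m : Fin n →₀ ℕ) :
    {e' | e' ∈ outside h a e ∧ lexGT e' m}.ncard =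
      ((boxD (extDeg h a N) e).filter fun m' => lexLT (m : Fin n → ℕ) m').card := by
  apply ncard_eq_card_of_iff
  intro x
  rw [Finset.mem_filter, Set.mem_ofPred_eq, mem_outside_iff h a hN]
  constructor
  · rintro ⟨h1, i, h2, h3⟩
    exact ⟨h1, i, fun k hk => (h3 k hk).symm, h2⟩
  · rintro ⟨h1, i, h2, h3⟩
    exact ⟨h1, i, h3, fun k hk => (h2 k hk).symm⟩

/-- exponents of the monomials in the lex-plus-powers ideal -/
def lppSet (K : Type*) [Field K] (h : c ≤ n) (a : Fin c → ℕ) (I : Ideal (MvPolynomial (Fin n) K)) :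
    Set (Fin n →₀ ℕ) :=
  {m | (∃ i, a i ≤ m (Fin.castLE h i)) ∨
    (m ∈ outside h a (∑ i, m i) ∧
      {e' | e' ∈ outside h a (∑ i, m i) ∧ lexGT e' m}.ncard < qdim h a I (∑ i, m i))}

theorem lexPlusPowers_eq (h : c ≤ n) (a : Fin c → ℕ) (I : Ideal (MvPolynomial (Fin n) K)) :
    lexPlusPowers h a I = restrictSupport K (lppSet K h a I) := by
  apply le_antisymm
  · apply iSup_le
    intro d
    apply sup_le
    · rw [degPart_powerIdeal]
      apply restrictSupport_mono
      rintro m ⟨hm, -⟩
      exact Or.inl hm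
    · rw [Submodule.span_le]
      rintro _ ⟨m, ⟨hm, hm2⟩, rfl⟩
      show monomial m (1 : K) ∈ restrictSupport K (lppSet K h a I)
      rw [monomial_mem_restrictSupport]
      left
      right
      have h1 : ∑ i, m i = d := hm.2
      rw [h1]
      exact ⟨hm, hm2⟩
  · rw [restrictSupport_eq_span, Submodule.span_le]
    rintro _ ⟨m, hm, rfl⟩
    show monomial m (1 : K) ∈ lexPlusPowers h a I
    apply Submodule.mem_iSup_of_mem (∑ i, m i)
    rcases hm with hm | hm
    · apply Submodule.mem_sup_left
      rw [degPart_powerIdeal, monomial_mem_restrictSupport]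
      exact Or.inl ⟨hm, rfl⟩
    · apply Submodule.mem_sup_right
      exact Submodule.subset_span ⟨m, hm, rfl⟩

theorem lexPlusPowers_isIdeal_of_growth (h : c ≤ n) (a : Fin c → ℕ)
    (I : Ideal (MvPolynomial (Fin n) K))
    (hgrow : ∀ d, ∃ N, d + 2 ≤ N ∧
      up (extDeg h a N) d ((boxD (extDeg h a N) d).card - hilb I d) + hilb I (d + 1) ≤
        (boxD (extDeg h a N) (d + 1)).card) :
    ∃ J : Ideal (MvPolynomial (Fin n) K), J.restrictScalars K = lexPlusPowers h a I := by
  have hup : ∀ m ∈ lppSet K h a I, ∀ i, m + Finsupp.single i 1 ∈ lppSet K h a I := by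
    intro m hm i
    by_cases hin : ∃ j, a j ≤ (m + Finsupp.single i 1 : Fin n →₀ ℕ) (Fin.castLE h j)
    · exact Or.inl hin
    · right
      have hm' : ¬ ∃ j, a j ≤ m (Fin.castLE h j) := by
        rintro ⟨j, hj⟩
        exact hin ⟨j, hj.trans (by simp)⟩
      rcases hm with hm | ⟨hm1, hm2⟩
      · exact absurd hm hm'
      · obtain ⟨N, hN, hg⟩ := hgrow (∑ i, m i)
        set d := ∑ i, m i with hd
        set A := extDeg h a N with hA
        have hsum : ∑ j, (m + Finsupp.single i 1 : Fin n →₀ ℕ) j = d + 1 := by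
          simp only [Finsupp.add_apply, Finset.sum_add_distrib]
          rw [← hd]
          congr 1
          rw [Finset.sum_eq_single i]
          · simp
          · intro j _ hj
            rw [Finsupp.single_eq_of_ne hj]
          · intro hi
            exact absurd (Finset.mem_univ i) hi
        push Not at hin
        have hout : m + Finsupp.single i 1 ∈ outside h a (d + 1) := ⟨hin, hsum⟩
        rw [hsum]
        refine ⟨hout, ?_⟩
        have h1 : (m : Fin n → ℕ) ∈ lexSeg A d ((boxD A d).card - hilb I d) := by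
          rw [lexSeg, Finset.mem_filter]
          refine ⟨(mem_outside_iff h a (by omega) m).mp hm1, ?_⟩
          rw [← qdim_eq h a I (by omega), ← ncard_larger h a (by omega)]
          exact hm2
        have hfun : ((m + Finsupp.single i 1 : Fin n →₀ ℕ) : Fin n → ℕ) =
            Function.update (m : Fin n → ℕ) i (m i + 1) := by
          funext j
          by_cases hj : j = i
          · subst hj; simp
          · rw [Function.update_of_ne hj, Finsupp.add_apply, Finsupp.single_eq_of_ne hj, add_zero]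
        have h2 : ((m + Finsupp.single i 1 : Fin n →₀ ℕ) : Fin n → ℕ) ∈
            upShadow A (lexSeg A d ((boxD A d).card - hilb I d)) := by
          rw [mem_upShadow]
          refine ⟨?_, m, h1, i, hfun⟩
          exact (mem_boxD.mp ((mem_outside_iff h a (by omega) _).mp hout)).1
        rw [upShadow_lexSeg] at h2
        have h3 := lexSeg_mono (a := A) (d := d + 1)
          (show up A d ((boxD A d).card - hilb I d) ≤ (boxD A (d + 1)).card - hilb I (d + 1) by
            omega) h2
        rw [lexSeg, Finset.mem_filter, ← qdim_eq h a I (by omega), ← ncard_larger h a (by omega)]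
          at h3
        exact h3.2
  have hupper : IsUpperSet (lppSet K h a I) := by
    intro m m' hmm' hm
    obtain ⟨x, rfl⟩ := exists_add_of_le hmm'
    clear hmm'
    revert m
    induction x using Finsupp.induction_linear with
    | zero =>
      intro m hm
      simpa using hm
    | add x y hx hy =>
      intro m hm
      rw [← add_assoc]
      exact hy (hx hm)
    | single i k =>
      induction k with
      | zero =>
        intro m hm
        simpa using hm
      | succ k ih =>
        intro m hm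
        rw [Finsupp.single_add, ← add_assoc]
        exact hup _ (ih hm) i
  exact ⟨restrictSupportIdeal K (lppSet K h a I) hupper, by
    rw [restrictScalars_restrictSupportIdeal, lexPlusPowers_eq]⟩

/-! ### the main theorem -/

/-- a product of equal linear forms -/
theorem splitsLinear_pow_fin {l : MvPolynomial (Fin n) K} (hl : l.IsHomogeneous 1) (N : ℕ) :
    SplitsLinear N (l ^ N) :=
  ⟨fun _ => l, fun _ => hl, by simp⟩

/-- the degree `e` piece does not see forms of degree `> e` -/
theorem hilb_sup_span_high {I : Ideal (MvPolynomial (Fin n) K)} (hI : HomIdeal I)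
    (s : Set (MvPolynomial (Fin n) K)) {N : ℕ} (hs : ∀ f ∈ s, f.IsHomogeneous N) {e : ℕ}
    (he : e < N) : hilb (I ⊔ Ideal.span s) e = hilb I e := by
  have hcomp : ∀ v ∈ Ideal.span s, homogeneousComponent e v = 0 := by
    intro v hv
    refine Submodule.span_induction (p := fun v _ => ∀ w, homogeneousComponent e (w * v) = 0)
      ?_ ?_ ?_ ?_ hv 1 |> fun h1 => by rwa [one_mul] at h1
    · intro x hx w
      rw [mul_comm]
      exact comp_mul_of_lt (hs x hx) w he
    · intro w
      rw [mul_zero, map_zero]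
    · intro x y _ _ hx hy w
      rw [mul_add, map_add, hx, hy, add_zero]
    · intro b x _ hx w
      rw [smul_eq_mul, ← mul_assoc]
      exact hx _
  refine hilb_congr fun g hg => ⟨fun h => ?_, fun h => Ideal.mem_sup_left h⟩
  obtain ⟨i, hi, j, hj, rfl⟩ := Submodule.mem_sup.1 h
  rw [← comp_self hg, map_add, hcomp j hj, add_zero]
  exact hI _ hi _

theorem filter_map_castLE (h : c ≤ n) (T : Finset (Fin c)) (i : Fin c) :
    (T.map (Fin.castLEEmb h)).filter (fun j => j < Fin.castLE h i) =
      (T.filter fun j => j < i).map (Fin.castLEEmb h) := by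
  ext j
  simp only [Finset.mem_filter, Finset.mem_map, Fin.castLEEmb_apply]
  constructor
  · rintro ⟨⟨k, hk, rfl⟩, hlt⟩
    exact ⟨k, ⟨hk, hlt⟩, rfl⟩
  · rintro ⟨k, ⟨hk, hlt⟩, rfl⟩
    exact ⟨⟨k, hk, rfl⟩, hlt⟩

theorem admissible_ext (h : c ≤ n) (a : Fin c → ℕ) (N : ℕ)
    (T : Finset (Fin c)) (hT : Admissible a T) :
    Admissible (extDeg h a N) (T.map (Fin.castLEEmb h)) := by
  constructor
  intro i hi hcard
  obtain ⟨i0, hi0, rfl⟩ := Finset.mem_map.mp hi
  simp only [Fin.castLEEmb_apply] at hcard ⊢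
  rw [filter_map_castLE, Finset.card_map] at hcard
  rw [filter_map_castLE, Finset.sum_map, extDeg_castLE]
  simp only [Fin.castLEEmb_apply, extDeg_castLE]
  exact hT.grow i0 hi0 hcard

theorem monotone_extDeg (h : c ≤ n) (a : Fin c → ℕ) (ha : Monotone a) {N : ℕ}
    (hN : ∀ i, a i ≤ N) : Monotone (extDeg h a N) := by
  intro i j hij
  have hij' : i.1 ≤ j.1 := hij
  unfold extDeg
  by_cases hj : j.1 < c
  · have hi : i.1 < c := lt_of_le_of_lt hij' hj
    simp only [hi, hj, dif_pos]
    exact ha hij'
  · by_cases hi : i.1 < c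
    · simp only [hi, hj, dif_pos, dif_neg, not_false_iff]
      exact hN _
    · simp only [hi, hj, dif_neg, not_false_iff]
      exact le_rfl

/-- **Main theorem.** -/
theorem egh_final (K : Type*) [Field K] {n c : ℕ} (h : c ≤ n) (a : Fin c → ℕ)
    (ha : Monotone a) (h2 : ∀ i, 2 ≤ a i) (f : Fin c → MvPolynomial (Fin n) K)
    (hf : ∀ i, (f i).IsHomogeneous (a i)) (hreg : IsRegularSeq f) (T : Finset (Fin c))
    (hT : Admissible a T)
    (hsplit : ∀ i, i ∉ T →
      SplitsLinear (a i) (MvPolynomial.map (algebraMap K (AlgebraicClosure K)) (f i)))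
    (I : Ideal (MvPolynomial (Fin n) K)) (hI : HomIdeal I) (hfI : ∀ i, f i ∈ I) :
    ∃ J : Ideal (MvPolynomial (Fin n) K), J.restrictScalars K = lexPlusPowers h a I := by
  set L := AlgebraicClosure K with hL
  have hinf : Infinite L := IsAlgClosed.instInfinite
  set fL : Fin c → MvPolynomial (Fin n) L := fun i => MvPolynomial.map (algebraMap K L) (f i)
    with hfL
  set IL : Ideal (MvPolynomial (Fin n) L) := I.map (MvPolynomial.map (σ := Fin n) (algebraMap K L))
    with hIL
  have hILhom : HomIdeal IL := homIdeal_baseChange hI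
  have hregL : IsRegSeq fL := isRegSeq_baseChange f a hf hreg
  have hfLhom : ∀ i, (fL i).IsHomogeneous (a i) := fun i => (hf i).map _
  have hfIL : ∀ i, fL i ∈ IL := fun i => Ideal.mem_map_of_mem _ (hfI i)
  obtain ⟨l, hl, hlm⟩ := exists_linear_extension h a (fun i => by have := h2 i; omega) fL hfLhom
    hregL
  apply lexPlusPowers_isIdeal_of_growth
  intro d
  set N := d + 2 + ∑ i, a i with hN
  refine ⟨N, by omega, ?_⟩
  set A := extDeg h a N with hA
  have haN : ∀ i, a i ≤ N := by
    intro i
    have := Finset.single_le_sum (fun j _ => Nat.zero_le (a j)) (Finset.mem_univ i)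
    omega
  set F : Fin n → MvPolynomial (Fin n) L := fun i =>
    if hi : i.1 < c then fL ⟨i.1, hi⟩ else (l ⟨i.1 - c, by omega⟩) ^ N with hF
  have hFhom : ∀ i, (F i).IsHomogeneous (A i) := by
    intro i
    by_cases hi : i.1 < c
    · simp only [hF, hA, extDeg, hi, dif_pos]
      exact hfLhom _
    · simp only [hF, hA, extDeg, hi, dif_neg, not_false_iff]
      have := (hl ⟨i.1 - c, by omega⟩).pow N
      rwa [one_mul] at this
  have hFprim : IsMPrimary (Ideal.span (Set.range F)) := by
    rw [isMPrimary_iff_radical] at hlm ⊢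
    intro i
    have h3 : Ideal.span (Set.range fL) ⊔ Ideal.span (Set.range l) ≤
        (Ideal.span (Set.range F)).radical := by
      apply sup_le
      · rw [Ideal.span_le]
        rintro _ ⟨j, rfl⟩
        apply Ideal.le_radical
        apply Ideal.subset_span
        refine ⟨Fin.castLE h j, ?_⟩
        simp [hF]
      · rw [Ideal.span_le]
        rintro _ ⟨j, rfl⟩
        refine ⟨N, Ideal.subset_span ⟨⟨j.1 + c, by omega⟩, ?_⟩⟩
        simp [hF]
    have h4 := Ideal.radical_mono h3 (hlm i)
    rwa [Ideal.radical_idem] at h4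
  set S : Set (MvPolynomial (Fin n) L) := Set.range fun j => l j ^ N with hS
  have hShom : ∀ g ∈ S, g.IsHomogeneous N := by
    rintro _ ⟨j, rfl⟩
    have := (hl j).pow N
    rwa [one_mul] at this
  set I' := IL ⊔ Ideal.span S with hI'
  have hI'hom : HomIdeal I' := homIdeal_sup hILhom (homIdeal_span fun g hg => ⟨N, hShom g hg⟩)
  have hFI' : ∀ i, F i ∈ I' := by
    intro i
    by_cases hi : i.1 < c
    · simp only [hF, hi, dif_pos]
      exact Ideal.mem_sup_left (hfIL _)
    · simp only [hF, hi, dif_neg, not_false_iff]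
      exact Ideal.mem_sup_right (Ideal.subset_span ⟨_, rfl⟩)
  have hA2 : ∀ i, 2 ≤ A i := by
    intro i
    by_cases hi : i.1 < c
    · simp only [hA, extDeg, hi, dif_pos]; exact h2 _
    · simp only [hA, extDeg, hi, dif_neg, not_false_iff]; omega
  have hspl : ∀ i, i ∉ T.map (Fin.castLEEmb h) → SplitsLinear (A i) (F i) := by
    intro i hi
    by_cases hic : i.1 < c
    · have h3 : (⟨i.1, hic⟩ : Fin c) ∉ T := fun hmem =>
        hi (Finset.mem_map.mpr ⟨⟨i.1, hic⟩, hmem, rfl⟩)
      simp only [hF, hA, extDeg, hic, dif_pos]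
      exact hsplit _ h3
    · simp only [hF, hA, extDeg, hic, dif_neg, not_false_iff]
      exact splitsLinear_pow_fin (hl _) N
  have key := egh_main (base3 L) n A (monotone_extDeg h a ha haN) hA2 F hFhom hFprim
    (T.map (Fin.castLEEmb h)) (admissible_ext h a N T hT) hspl I' hI'hom hFI' d
  have e1 : hilb I' d = hilb I d := by
    rw [hI', hilb_sup_span_high hILhom S hShom (by omega), hIL, hilb_baseChange I hI]
  have e2 : hilb I' (d + 1) = hilb I (d + 1) := by
    rw [hI', hilb_sup_span_high hILhom S hShom (by omega), hIL, hilb_baseChange I hI]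
  rw [e1, e2] at key
  exact key

/-- the case of regular sequences of length at most three, in any number of variables -/
theorem egh_le_three (K : Type*) [Field K] {n c : ℕ} (h : c ≤ n) (hc3 : c ≤ 3) (a : Fin c → ℕ)
    (ha : Monotone a) (h2 : ∀ i, 2 ≤ a i)
    (f : Fin c → MvPolynomial (Fin n) K)
    (hf : ∀ i, (f i).IsHomogeneous (a i)) (hreg : IsRegularSeq f)
    (I : Ideal (MvPolynomial (Fin n) K)) (hI : HomIdeal I) (hfI : ∀ i, f i ∈ I) :
    ∃ J : Ideal (MvPolynomial (Fin n) K), J.restrictScalars K = lexPlusPowers h a I := by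
  have hcount : ∀ i : Fin c, (Finset.univ.filter fun j : Fin c => j < i).card = i.1 := by
    intro i
    have : (Finset.univ.filter fun j : Fin c => j < i) = Finset.Iio i := by
      ext j; simp
    rw [this, Fin.card_Iio]
  apply egh_final K h a ha h2 f hf hreg Finset.univ _ (fun i hi => absurd (Finset.mem_univ i) hi)
    I hI hfI
  constructor
  intro i _ hcard
  rw [hcount] at hcard
  have := i.2
  omega

end Vale.Agent.P200.G
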