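import Vale.Agent.P200.G.HilbBasic

/-! Heights of primes in polynomial rings; choosing general forms. -/

namespace Vale.Agent.P200.G

open MvPolynomial

variable {K : Type*} [Field K] {n : ℕ}

attribute [local instance] MvPolynomial.gradedAlgebra

/-- the irrelevant ideal -/
noncomputable def irr (K : Type*) [Field K] (n : ℕ) : Ideal (MvPolynomial (Fin n) K) :=
  Ideal.span (Set.range X)

theorem X_mem_irr (i : Fin n) : (X i : MvPolynomial (Fin n) K) ∈ irr K n :=
  Ideal.subset_span ⟨i, rfl⟩

theorem homIdeal_irr : HomIdeal (irr K n) := by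
  apply homIdeal_span
  rintro f ⟨i, rfl⟩
  exact ⟨1, isHomogeneous_X K i⟩

theorem mem_irr_iff {f : MvPolynomial (Fin n) K} : f ∈ irr K n ↔ constantCoeff f = 0 := by
  have h1 : irr K n = Ideal.span (X '' (Set.univ : Set (Fin n)) : Set (MvPolynomial (Fin n) K)) := by
    rw [irr, Set.image_univ]
  rw [h1, mem_ideal_span_X_image]
  constructor
  · intro h
    by_contra hc
    have h2 : (0 : Fin n →₀ ℕ) ∈ f.support := by
      rw [mem_support_iff]
      exact hc
    obtain ⟨i, -, hi⟩ := h 0 h2
    exact hi rfl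
  · intro h m hm
    by_contra hc
    push Not at hc
    have hm0 : m = 0 := by
      ext i
      exact hc i (Set.mem_univ i)
    rw [hm0, mem_support_iff] at hm
    exact hm h

theorem irr_eq_ker : irr K n = RingHom.ker (constantCoeff : MvPolynomial (Fin n) K →+* K) := by
  ext f
  rw [mem_irr_iff, RingHom.mem_ker]

instance irr_isMaximal : (irr K n).IsMaximal := by
  rw [irr_eq_ker]
  exact RingHom.ker_isMaximal_of_surjective _ (fun c => ⟨C c, constantCoeff_C _ c⟩)

theorem le_irr_of_homIdeal {I : Ideal (MvPolynomial (Fin n) K)} (hI : HomIdeal I)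
    (hne : I ≠ ⊤) : I ≤ irr K n := by
  intro f hf
  rw [mem_irr_iff]
  by_contra hc
  apply hne
  have h1 := hI f hf 0
  rw [homogeneousComponent_zero] at h1
  have h2 : (C (constantCoeff f)⁻¹ : MvPolynomial (Fin n) K) * C (coeff 0 f) ∈ I :=
    I.mul_mem_left _ h1
  rw [← C_mul] at h2
  have h3 : (constantCoeff f)⁻¹ * coeff 0 f = 1 := inv_mul_cancel₀ hc
  rw [h3, C_1] at h2
  exact (Ideal.eq_top_iff_one I).mpr h2

theorem homIdeal_of_mem_minimalPrimes {I p : Ideal (MvPolynomial (Fin n) K)}
    (hI : HomIdeal I) (hp : p ∈ I.minimalPrimes) : HomIdeal p := by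
  rw [homIdeal_iff] at hI ⊢
  have hpp : p.IsPrime := hp.1.1
  have h1 : (p.homogeneousCore (homogeneousSubmodule (Fin n) K)).toIdeal.IsPrime :=
    hpp.homogeneousCore
  have h2 : I ≤ (p.homogeneousCore (homogeneousSubmodule (Fin n) K)).toIdeal := by
    have h3 := Ideal.homogeneousCore_mono (homogeneousSubmodule (Fin n) K) hp.1.2
    have h4 := hI.toIdeal_homogeneousCore_eq_self
    calc I = (I.homogeneousCore (homogeneousSubmodule (Fin n) K)).toIdeal := h4.symm
      _ ≤ _ := h3
  have h3 := hp.2 ⟨h1, h2⟩ (Ideal.toIdeal_homogeneousCore_le _ p)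
  have h4 : (p.homogeneousCore (homogeneousSubmodule (Fin n) K)).toIdeal = p :=
    le_antisymm (Ideal.toIdeal_homogeneousCore_le _ p) h3
  rw [← h4]
  exact (p.homogeneousCore (homogeneousSubmodule (Fin n) K)).isHomogeneous

theorem le_height_of_isRegSeq {c : ℕ} (f : Fin c → MvPolynomial (Fin n) K)
    (hreg : IsRegSeq f) (p : Ideal (MvPolynomial (Fin n) K)) [p.IsPrime]
    (h : Ideal.span (Set.range f) ≤ p) : (c : ℕ∞) ≤ p.height := by
  induction c generalizing p with
  | zero => simp
  | succ c ih =>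
    set f' : Fin c → MvPolynomial (Fin n) K := fun i => f i.castSucc with hf'
    have himg : ∀ i : Fin c, f '' {j | j < i.castSucc} = f' '' {j | j < i} := by
      intro i
      ext g
      constructor
      · rintro ⟨j, hj, rfl⟩
        have hj' : (j : ℕ) < i := hj
        refine ⟨⟨j, by omega⟩, ?_, ?_⟩
        · exact hj'
        · rfl
      · rintro ⟨j, hj, rfl⟩
        exact ⟨j.castSucc, Fin.castSucc_lt_castSucc_iff.mpr hj, rfl⟩
    have himg2 : f '' {j | j < Fin.last c} = Set.range f' := by
      ext g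
      constructor
      · rintro ⟨j, hj, rfl⟩
        have hj' : (j : ℕ) < c := hj
        exact ⟨⟨j, hj'⟩, rfl⟩
      · rintro ⟨j, rfl⟩
        exact ⟨j.castSucc, Fin.castSucc_lt_last j, rfl⟩
    have hreg' : IsRegSeq f' := by
      intro i g hg
      have h1 := hreg i.castSucc g
      rw [himg] at h1
      exact h1 hg
    have hle : Ideal.span (Set.range f') ≤ p := by
      refine le_trans (Ideal.span_mono ?_) h
      rintro _ ⟨i, rfl⟩
      exact ⟨i.castSucc, rfl⟩
    obtain ⟨q, hq, hqp⟩ := Ideal.exists_minimalPrimes_le hle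
    have hqprime : q.IsPrime := hq.1.1
    have h1 := ih f' hreg' q hq.1.2
    have hnot : f (Fin.last c) ∉ q := by
      intro hmem
      obtain ⟨y, hy, hxy⟩ := Ideal.exists_mul_mem_of_mem_minimalPrimes hq hmem
      have h2 := hreg (Fin.last c) y
      rw [himg2] at h2
      exact hy (h2 hxy)
    have hlt : q < p := by
      refine lt_of_le_of_ne hqp ?_
      rintro rfl
      exact hnot (h (Ideal.subset_span ⟨Fin.last c, rfl⟩))
    have h3 := Ideal.height_add_one_le_of_lt_of_isPrime hlt
    push_cast
    exact le_trans (add_le_add h1 le_rfl) h3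

theorem isRegSeq_X : IsRegSeq (X : Fin n → MvPolynomial (Fin n) K) := by
  intro i g hg
  rw [mem_ideal_span_X_image] at hg ⊢
  intro m hm
  have h1 : m + Finsupp.single i 1 ∈ (X i * g).support := by
    rw [mem_support_iff] at hm ⊢
    rwa [mul_comm, coeff_mul_X]
  obtain ⟨j, hj, hj2⟩ := hg _ h1
  refine ⟨j, hj, ?_⟩
  have hji : j < i := hj
  have hne : i ≠ j := fun h => by rw [h] at hji; exact lt_irrefl _ hji
  rw [Finsupp.add_apply, Finsupp.single_eq_of_ne hne.symm, add_zero] at hj2
  exact hj2

/-- a minimal prime of an ideal with at most `c` generators has height at most `c` -/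
theorem height_le_of_minimal {s : Set (MvPolynomial (Fin n) K)} (hs : s.Finite) {c : ℕ}
    (hc : s.ncard ≤ c) {p : Ideal (MvPolynomial (Fin n) K)} (hp : p ∈ (Ideal.span s).minimalPrimes) :
    p.height ≤ c :=
  (Ideal.height_le_card_of_mem_minimalPrimes_span hs hp).trans (by exact_mod_cast hc)

theorem ncard_range_le {m : ℕ} {α : Type*} (f : Fin m → α) : (Set.range f).ncard ≤ m := by
  rw [← Set.image_univ]
  refine (Set.ncard_image_le Set.finite_univ).trans ?_
  simp

theorem height_irr : (irr K n).height = n := by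
  apply le_antisymm
  · apply height_le_of_minimal (Set.finite_range (X : Fin n → MvPolynomial (Fin n) K))
      (ncard_range_le _)
    have h1 : (irr K n).IsPrime := irr_isMaximal.isPrime
    exact ⟨⟨h1, le_rfl⟩, fun q hq _ => hq.2⟩
  · have h1 : (irr K n).IsPrime := irr_isMaximal.isPrime
    exact le_height_of_isRegSeq X isRegSeq_X (irr K n) le_rfl

theorem eq_irr_of_le_height {p : Ideal (MvPolynomial (Fin n) K)} (hp : p.IsPrime)
    (hhom : HomIdeal p) (h : (n : ℕ∞) ≤ p.height) : p = irr K n := by
  have hle := le_irr_of_homIdeal hhom hp.ne_top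
  by_contra hne
  have hlt : p < irr K n := lt_of_le_of_ne hle hne
  have h1 : (irr K n).IsPrime := irr_isMaximal.isPrime
  have h2 := Ideal.height_add_one_le_of_lt_of_isPrime hlt
  rw [height_irr] at h2
  have h3 : (n : ℕ∞) + 1 ≤ n := le_trans (add_le_add h le_rfl) h2
  have h4 : n + 1 ≤ n := by exact_mod_cast h3
  omega

theorem isMPrimary_of_height {I : Ideal (MvPolynomial (Fin n) K)} (hI : HomIdeal I)
    (h : ∀ p : Ideal (MvPolynomial (Fin n) K), p.IsPrime → I ≤ p → (n : ℕ∞) ≤ p.height) :
    IsMPrimary I := by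
  rw [isMPrimary_iff_radical]
  intro i
  rw [← Ideal.sInf_minimalPrimes, Ideal.mem_sInf]
  intro p hp
  have h1 := eq_irr_of_le_height hp.1.1 (homIdeal_of_mem_minimalPrimes hI hp) (h p hp.1.1 hp.1.2)
  rw [h1]
  exact X_mem_irr i

theorem exists_avoid [Infinite K] (V : Submodule K (MvPolynomial (Fin n) K))
    (s : Set (Ideal (MvPolynomial (Fin n) K))) (hs : s.Finite)
    (h : ∀ p ∈ s, ¬ (∀ g ∈ V, g ∈ p)) : ∃ g ∈ V, ∀ p ∈ s, g ∉ p := by
  classical
  set φ : Ideal (MvPolynomial (Fin n) K) → Submodule K V := fun p =>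
    (p.restrictScalars K).comap V.subtype with hφ
  have h1 : ⊤ ∉ hs.toFinset.image φ := by
    intro hmem
    obtain ⟨p, hp, hpt⟩ := Finset.mem_image.mp hmem
    apply h p (hs.mem_toFinset.mp hp)
    intro g hg
    have h2 : (⟨g, hg⟩ : V) ∈ φ p := by rw [hpt]; exact Submodule.mem_top
    exact h2
  have h2 := Subspace.biUnion_ne_univ_of_top_notMem h1
  obtain ⟨g, hg⟩ := (Set.ne_univ_iff_exists_notMem _).mp h2
  refine ⟨g, g.2, fun p hp hgp => hg ?_⟩
  simp only [Set.mem_iUnion]
  exact ⟨φ p, Finset.mem_image_of_mem φ (hs.mem_toFinset.mpr hp), hgp⟩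

/-- a linear form avoiding finitely many primes different from the irrelevant ideal -/
theorem exists_linear_avoid [Infinite K] (s : Set (Ideal (MvPolynomial (Fin n) K)))
    (hs : s.Finite) (hp : ∀ p ∈ s, p ≠ ⊤) (h : ∀ p ∈ s, p ≠ irr K n) :
    ∃ l : MvPolynomial (Fin n) K, l.IsHomogeneous 1 ∧ ∀ p ∈ s, l ∉ p := by
  obtain ⟨g, hg, hg2⟩ := exists_avoid (homogeneousSubmodule (Fin n) K 1) s hs (by
    intro p hps hall
    apply h p hps
    have h1 : irr K n ≤ p := by
      rw [irr, Ideal.span_le]
      rintro _ ⟨i, rfl⟩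
      exact hall _ (isHomogeneous_X K i)
    exact (irr_isMaximal.eq_of_le (hp p hps) h1).symm)
  exact ⟨g, hg, hg2⟩

/-- a homogeneous regular sequence may be completed by linear forms to an m-primary ideal -/
theorem exists_linear_extension [Infinite K] {c : ℕ} (hc : c ≤ n)
    (a : Fin c → ℕ) (hpos : ∀ i, 1 ≤ a i) (f : Fin c → MvPolynomial (Fin n) K)
    (hf : ∀ i, (f i).IsHomogeneous (a i)) (hreg : IsRegSeq f) :
    ∃ l : Fin (n - c) → MvPolynomial (Fin n) K, (∀ i, (l i).IsHomogeneous 1) ∧
      IsMPrimary (Ideal.span (Set.range f) ⊔ Ideal.span (Set.range l)) := by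
  have key : ∀ m, c + m ≤ n → ∃ l : Fin m → MvPolynomial (Fin n) K,
      (∀ i, (l i).IsHomogeneous 1) ∧ ∀ p : Ideal (MvPolynomial (Fin n) K), p.IsPrime →
        Ideal.span (Set.range f ∪ Set.range l) ≤ p → ((c + m : ℕ) : ℕ∞) ≤ p.height := by
    intro m
    induction m with
    | zero =>
      intro _
      refine ⟨fun i => i.elim0, fun i => i.elim0, fun p hp hle => ?_⟩
      exact le_height_of_isRegSeq f hreg p
        (le_trans (Ideal.span_mono Set.subset_union_left) hle)
    | succ m ih =>
      intro hm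
      obtain ⟨l, hl, hh⟩ := ih (by omega)
      set J := Ideal.span (Set.range f ∪ Set.range l) with hJ
      have hfin : (Set.range f ∪ Set.range l).Finite :=
        (Set.finite_range f).union (Set.finite_range l)
      have hcard : (Set.range f ∪ Set.range l).ncard ≤ c + m :=
        (Set.ncard_union_le _ _).trans (add_le_add (ncard_range_le f) (ncard_range_le l))
      obtain ⟨g, hg, hg2⟩ := exists_linear_avoid J.minimalPrimes
        J.finite_minimalPrimes_of_isNoetherianRing
        (fun p hp => hp.1.1.ne_top) (by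
          intro p hp hpirr
          have h1 := height_le_of_minimal hfin hcard hp
          rw [hpirr, height_irr] at h1
          have h2 : n ≤ c + m := by exact_mod_cast h1
          omega)
      refine ⟨Fin.snoc l g, ?_, ?_⟩
      · intro i
        refine Fin.lastCases ?_ (fun j => ?_) i
        · rw [Fin.snoc_last]; exact hg
        · rw [Fin.snoc_castSucc]; exact hl j
      · intro p hp hle
        have hJp : J ≤ p := by
          refine le_trans (Ideal.span_mono ?_) hle
          apply Set.union_subset_union_right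
          rintro _ ⟨i, rfl⟩
          exact ⟨i.castSucc, Fin.snoc_castSucc (α := fun _ => MvPolynomial (Fin n) K) _ _ _⟩
        have hgp : g ∈ p := by
          apply hle
          apply Ideal.subset_span
          right
          exact ⟨Fin.last m, Fin.snoc_last (α := fun _ => MvPolynomial (Fin n) K) _ _⟩
        obtain ⟨q, hq, hqp⟩ := Ideal.exists_minimalPrimes_le hJp
        have hqprime : q.IsPrime := hq.1.1
        have hlt : q < p := by
          refine lt_of_le_of_ne hqp ?_
          rintro rfl
          exact hg2 q hq hgp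
        have h1 := hh q hqprime hq.1.2
        have h2 := Ideal.height_add_one_le_of_lt_of_isPrime hlt
        have h3 : ((c + (m + 1) : ℕ) : ℕ∞) = ((c + m : ℕ) : ℕ∞) + 1 := by push_cast; ring
        rw [h3]
        exact le_trans (add_le_add h1 le_rfl) h2
  obtain ⟨l, hl, hh⟩ := key (n - c) (by omega)
  refine ⟨l, hl, ?_⟩
  rw [← Ideal.span_union]
  apply isMPrimary_of_height
  · apply homIdeal_span
    rintro g (⟨i, rfl⟩ | ⟨i, rfl⟩)
    · exact ⟨a i, hf i⟩
    · exact ⟨1, hl i⟩
  · intro p hp hle
    have h1 := hh p hp hle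
    rwa [show c + (n - c) = n by omega] at h1

theorem mem_irr_of_isHomogeneous {f : MvPolynomial (Fin n) K} {d : ℕ} (hd : 1 ≤ d)
    (hf : f.IsHomogeneous d) : f ∈ irr K n := by
  rw [mem_irr_iff]
  by_contra hc
  have h1 := hf (d := 0) hc
  simp at h1
  omega

/-- the irrelevant ideal is minimal over an m-primary ideal generated by forms of positive degree -/
theorem irr_mem_minimalPrimes {I : Ideal (MvPolynomial (Fin n) K)} (hle : I ≤ irr K n)
    (h : IsMPrimary I) : irr K n ∈ I.minimalPrimes := by
  refine ⟨⟨irr_isMaximal.isPrime, hle⟩, fun q hq _ => ?_⟩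
  rw [isMPrimary_iff_radical] at h
  rw [irr, Ideal.span_le]
  rintro _ ⟨i, rfl⟩
  exact (hq.1.radical_le_iff.mpr hq.2) (h i)

theorem range_eq_insert {α : Type*} (f : Fin n → α) (k : Fin n) :
    Set.range f = insert (f k) (f '' {i | i ≠ k}) := by
  ext x
  constructor
  · rintro ⟨i, rfl⟩
    by_cases hi : i = k
    · left; rw [hi]
    · right; exact ⟨i, hi, rfl⟩
  · rintro (rfl | ⟨i, -, rfl⟩)
    · exact ⟨k, rfl⟩
    · exact ⟨i, rfl⟩

theorem ncard_others_le {α : Type*} (f : Fin n → α) (k : Fin n) :
    (f '' {i | i ≠ k}).ncard ≤ n - 1 := by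
  refine (Set.ncard_image_le (Set.toFinite _)).trans (le_of_eq ?_)
  have : ({i | i ≠ k} : Set (Fin n)) = ({k} : Set (Fin n))ᶜ := rfl
  rw [this, Set.ncard_compl]
  simp

theorem others_minimal_ne_irr (f : Fin n → MvPolynomial (Fin n) K) (k : Fin n)
    {p : Ideal (MvPolynomial (Fin n) K)} (hp : p ∈ (Ideal.span (f '' {i | i ≠ k})).minimalPrimes) :
    p ≠ irr K n := by
  intro hpi
  have h1 := height_le_of_minimal (Set.toFinite _) (ncard_others_le f k) hp
  rw [hpi, height_irr] at h1
  have h2 : n ≤ n - 1 := by exact_mod_cast h1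
  have h3 : 0 < n := k.pos
  omega

/-- one of the forms of an m-primary system may be replaced by a linear form -/
theorem exists_linear_replacement [Infinite K] (a : Fin n → ℕ) (hpos : ∀ i, 1 ≤ a i)
    (f : Fin n → MvPolynomial (Fin n) K) (hf : ∀ i, (f i).IsHomogeneous (a i))
    (h : IsMPrimary (Ideal.span (Set.range f))) (k : Fin n) :
    ∃ l : MvPolynomial (Fin n) K, l.IsHomogeneous 1 ∧
      IsMPrimary (Ideal.span (Set.range (Function.update f k l))) := by
  classical
  set s : Set (MvPolynomial (Fin n) K) := f '' {i | i ≠ k} with hs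
  set J := Ideal.span s with hJ
  obtain ⟨l, hl, hl2⟩ := exists_linear_avoid J.minimalPrimes
    J.finite_minimalPrimes_of_isNoetherianRing (fun p hp => hp.1.1.ne_top)
    (fun p hp => others_minimal_ne_irr f k hp)
  refine ⟨l, hl, ?_⟩
  have hrange : Set.range (Function.update f k l) = insert l s := by
    rw [range_eq_insert _ k, Function.update_self]
    congr 1
    apply Set.image_congr
    intro i hi
    exact Function.update_of_ne hi _ _
  rw [hrange]
  have hhom : HomIdeal (Ideal.span (insert l s)) := by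
    apply homIdeal_span
    rintro g (rfl | ⟨i, -, rfl⟩)
    · exact ⟨1, hl⟩
    · exact ⟨a i, hf i⟩
  have hirr : irr K n ∈ (Ideal.span (insert (f k) s)).minimalPrimes := by
    rw [← range_eq_insert]
    apply irr_mem_minimalPrimes _ h
    rw [Ideal.span_le]
    rintro _ ⟨i, rfl⟩
    exact mem_irr_of_isHomogeneous (hpos i) (hf i)
  rw [isMPrimary_iff_radical]
  intro i
  rw [← Ideal.sInf_minimalPrimes, Ideal.mem_sInf]
  intro p hp
  have hpp : p.IsPrime := hp.1.1
  have hphom := homIdeal_of_mem_minimalPrimes hhom hp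
  have hle := le_irr_of_homIdeal hphom hpp.ne_top
  by_cases hpe : p = irr K n
  · rw [hpe]; exact X_mem_irr i
  · exfalso
    have hlt : p < irr K n := lt_of_le_of_ne hle hpe
    have hsp : s ⊆ p := fun x hx => hp.1.2 (Ideal.subset_span (Set.mem_insert_of_mem _ hx))
    have h1 := Ideal.mem_minimalPrimes_span_of_mem_minimalPrimes_span_insert hlt (f k) s hirr s hsp
      (fun x hx => Ideal.le_radical (Ideal.subset_span (Set.mem_insert_of_mem _ hx)))
    exact hl2 p h1 (hp.1.2 (Ideal.subset_span (Set.mem_insert _ _)))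

theorem ne_zero_of_isMPrimary (a : Fin n → ℕ) (hpos : ∀ i, 1 ≤ a i)
    (f : Fin n → MvPolynomial (Fin n) K) (hf : ∀ i, (f i).IsHomogeneous (a i))
    (h : IsMPrimary (Ideal.span (Set.range f))) (k : Fin n) : f k ≠ 0 := by
  intro h0
  have hirr : irr K n ∈ (Ideal.span (Set.range f)).minimalPrimes := by
    apply irr_mem_minimalPrimes _ h
    rw [Ideal.span_le]
    rintro _ ⟨i, rfl⟩
    exact mem_irr_of_isHomogeneous (hpos i) (hf i)
  rw [range_eq_insert f k, h0, Ideal.span_insert_zero] at hirr
  exact others_minimal_ne_irr f k hirr rfl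

/-- `X k` may be replaced by a power -/
theorem isMPrimary_update_pow (f : Fin n → MvPolynomial (Fin n) K) (k : Fin n) (N : ℕ)
    (h : IsMPrimary (Ideal.span (Set.range f))) :
    IsMPrimary (Ideal.span (Set.range (Function.update f k (f k ^ N)))) := by
  classical
  rw [isMPrimary_iff_radical] at h ⊢
  intro i
  have h1 : Ideal.span (Set.range f) ≤
      (Ideal.span (Set.range (Function.update f k (f k ^ N)))).radical := by
    rw [Ideal.span_le]
    rintro _ ⟨j, rfl⟩
    by_cases hj : j = k
    · subst hj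
      refine ⟨N, Ideal.subset_span ⟨j, ?_⟩⟩
      rw [Function.update_self]
    · apply Ideal.le_radical
      exact Ideal.subset_span ⟨j, Function.update_of_ne hj _ _⟩
  have h2 := Ideal.radical_mono h1 (h i)
  rwa [Ideal.radical_idem] at h2

end Vale.Agent.P200.G
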