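import Vale.Agent.P200.G.LexBasic

/-! Two-coordinate compression, towards the Clements-Lindstrom theorem. -/

namespace Vale.Agent.P200.G

section Rows

variable {N : ℕ} {i l : Fin N}

/-- Replace the coordinates `i` and `l`. -/
private def mkv (i l : Fin N) (c : Fin N → ℕ) (x z : ℕ) : Fin N → ℕ :=
  Function.update (Function.update c i x) l z

private lemma mkv_i (h : i ≠ l) (c : Fin N → ℕ) (x z : ℕ) : mkv i l c x z i = x := by
  unfold mkv
  rw [Function.update_of_ne h, Function.update_self]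

private lemma mkv_l (c : Fin N → ℕ) (x z : ℕ) : mkv i l c x z l = z := by
  unfold mkv
  rw [Function.update_self]

private lemma mkv_of {j : Fin N} (h1 : j ≠ i) (h2 : j ≠ l) (c : Fin N → ℕ) (x z : ℕ) :
    mkv i l c x z j = c j := by
  unfold mkv
  rw [Function.update_of_ne h2, Function.update_of_ne h1]

private lemma mkv_ext (h : i ≠ l) {c : Fin N → ℕ} {x z : ℕ} {y : Fin N → ℕ} (h1 : y i = x)
    (h2 : y l = z) (h3 : ∀ j, j ≠ i → j ≠ l → y j = c j) : mkv i l c x z = y := by
  funext j
  by_cases hj : j = i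
  · subst hj
    rw [mkv_i h, h1]
  · by_cases hj' : j = l
    · subst hj'
      rw [mkv_l, h2]
    · rw [mkv_of hj hj', h3 j hj hj']

private lemma mkv_mkv (h : i ≠ l) (c : Fin N → ℕ) (x z x' z' : ℕ) :
    mkv i l (mkv i l c x z) x' z' = mkv i l c x' z' :=
  mkv_ext h (mkv_i h _ _ _) (mkv_l _ _ _) fun j h1 h2 => by rw [mkv_of h1 h2, mkv_of h1 h2]

private lemma mkv_self (h : i ≠ l) (y : Fin N → ℕ) : mkv i l y (y i) (y l) = y :=
  mkv_ext h rfl rfl fun _ _ _ => rfl

private lemma sum_mkv (h : i ≠ l) (c : Fin N → ℕ) (x z : ℕ) :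
    ∑ j, mkv i l c x z j = ∑ j ∈ (Finset.univ.erase i).erase l, c j + x + z := by
  rw [← Finset.add_sum_erase Finset.univ _ (Finset.mem_univ i),
    ← Finset.add_sum_erase (Finset.univ.erase i) _ (Finset.mem_erase.2 ⟨h.symm, Finset.mem_univ l⟩),
    mkv_i h, mkv_l]
  have : ∑ j ∈ (Finset.univ.erase i).erase l, mkv i l c x z j =
      ∑ j ∈ (Finset.univ.erase i).erase l, c j := by
    refine Finset.sum_congr rfl fun j hj => ?_
    rw [Finset.mem_erase, Finset.mem_erase] at hj
    exact mkv_of hj.2.1 hj.1 _ _ _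
  rw [this]
  ring

/-- The row of `M` over the outer coordinates `c` with sum `t` of the two inner coordinates. -/
private def rowc (i l : Fin N) (M : Finset (Fin N → ℕ)) (c : Fin N → ℕ) (t : ℕ) : Finset ℕ :=
  (Finset.range (t + 1)).filter fun x => mkv i l c x (t - x) ∈ M

private lemma mem_rowc {M : Finset (Fin N → ℕ)} {c : Fin N → ℕ} {t x : ℕ} :
    x ∈ rowc i l M c t ↔ x ≤ t ∧ mkv i l c x (t - x) ∈ M := by
  unfold rowc
  rw [Finset.mem_filter, Finset.mem_range, Nat.lt_succ_iff]

private lemma rowc_congr (h : i ≠ l) {M : Finset (Fin N → ℕ)} {c c' : Fin N → ℕ} (t : ℕ)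
    (hc : ∀ j, j ≠ i → j ≠ l → c j = c' j) : rowc i l M c t = rowc i l M c' t := by
  ext x
  rw [mem_rowc, mem_rowc, mkv_ext h (mkv_i h _ _ _) (mkv_l _ _ _)
    (fun j h1 h2 => by rw [mkv_of h1 h2, hc j h1 h2])]

/-- The key of a vector: the outer coordinates and the sum of the two inner coordinates. -/
private def keyc (i l : Fin N) (y : Fin N → ℕ) : (Fin N → ℕ) × ℕ := (mkv i l y 0 0, y i + y l)

private lemma sum_rowc (h : i ≠ l) (M : Finset (Fin N → ℕ)) (U : Finset ((Fin N → ℕ) × ℕ))
    (hU : ∀ y ∈ M, keyc i l y ∈ U) (hU' : ∀ κ ∈ U, mkv i l κ.1 0 0 = κ.1)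
    (g : (Fin N → ℕ) → ℕ) :
    ∑ y ∈ M, g y = ∑ κ ∈ U, ∑ x ∈ rowc i l M κ.1 κ.2, g (mkv i l κ.1 x (κ.2 - x)) := by
  rw [← Finset.sum_fiberwise_of_maps_to hU]
  refine Finset.sum_congr rfl fun κ hκ => ?_
  have hback : ∀ y, keyc i l y = κ → mkv i l κ.1 (y i) (κ.2 - y i) = y := by
    rintro y rfl
    change mkv i l (mkv i l y 0 0) (y i) (y i + y l - y i) = y
    rw [mkv_mkv h, Nat.add_sub_cancel_left, mkv_self h]
  refine Finset.sum_nbij' (fun y => y i) (fun x => mkv i l κ.1 x (κ.2 - x)) ?_ ?_ ?_ ?_ ?_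
  · intro y hy
    rw [Finset.mem_filter] at hy
    rw [mem_rowc, hback y hy.2]
    refine ⟨?_, hy.1⟩
    rw [← hy.2]
    exact Nat.le_add_right _ _
  · intro x hx
    rw [mem_rowc] at hx
    rw [Finset.mem_filter]
    refine ⟨hx.2, ?_⟩
    unfold keyc
    rw [mkv_mkv h, mkv_i h, mkv_l, hU' κ hκ, Nat.add_sub_cancel' hx.1]
  · intro y hy
    rw [Finset.mem_filter] at hy
    exact hback y hy.2
  · intro x _
    exact mkv_i h _ _ _
  · intro y hy
    rw [Finset.mem_filter] at hy
    rw [hback y hy.2]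

end Rows

section Intervals

/-- The interval of values of the first inner coordinate. -/
private def Iv (A B t : ℕ) : Finset ℕ :=
  (Finset.range (t + 1)).filter fun x => x < A ∧ t - x < B

private lemma mem_Iv {A B t x : ℕ} : x ∈ Iv A B t ↔ x ≤ t ∧ x < A ∧ t - x < B := by
  unfold Iv
  rw [Finset.mem_filter, Finset.mem_range, Nat.lt_succ_iff]

/-- The top segment of size `r` of the interval. -/
private def Tp (A B t r : ℕ) : Finset ℕ :=
  (Iv A B t).filter fun x => min t (A - 1) < x + r

private lemma mem_Tp {A B t r x : ℕ} :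
    x ∈ Tp A B t r ↔ (x ≤ t ∧ x < A ∧ t - x < B) ∧ min t (A - 1) < x + r := by
  unfold Tp
  rw [Finset.mem_filter, mem_Iv]

private lemma Tp_mono {A B t r r' : ℕ} (h : r ≤ r') : Tp A B t r ⊆ Tp A B t r' := by
  intro x hx
  rw [mem_Tp] at hx ⊢
  exact ⟨hx.1, by omega⟩

private lemma card_Tp_le (A B t r : ℕ) : (Tp A B t r).card ≤ r := by
  have h : Tp A B t r ⊆ Finset.Icc (min t (A - 1) + 1 - r) (min t (A - 1)) := by
    intro x hx
    rw [mem_Tp] at hx
    rw [Finset.mem_Icc]
    omega
  refine (Finset.card_le_card h).trans ?_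
  rw [Nat.card_Icc]
  omega

private lemma card_Tp {A B t : ℕ} {X : Finset ℕ} (hX : X ⊆ Iv A B t) :
    (Tp A B t X.card).card = X.card := by
  rcases Finset.eq_empty_or_nonempty X with rfl | ⟨x, hx⟩
  · have := card_Tp_le A B t (∅ : Finset ℕ).card
    rw [Finset.card_empty] at this ⊢
    omega
  have hx' := mem_Iv.1 (hX hx)
  have h1 : Iv A B t = Finset.Icc (t + 1 - B) (min t (A - 1)) := by
    ext z
    rw [mem_Iv, Finset.mem_Icc]
    omega
  have h2 : Tp A B t X.card =
      Finset.Icc (max (t + 1 - B) (min t (A - 1) + 1 - X.card)) (min t (A - 1)) := by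
    ext z
    rw [mem_Tp, Finset.mem_Icc]
    omega
  have h3 := Finset.card_le_card hX
  rw [h1, Nat.card_Icc] at h3
  rw [h2, Nat.card_Icc]
  omega

/-- The two-dimensional shadow. -/
private def Sh (A B t : ℕ) (X : Finset ℕ) : Finset ℕ :=
  (Iv A B (t + 1)).filter fun x => x ∈ X ∨ (1 ≤ x ∧ x - 1 ∈ X)

private lemma mem_Sh {A B t x : ℕ} {X : Finset ℕ} :
    x ∈ Sh A B t X ↔ (x ≤ t + 1 ∧ x < A ∧ t + 1 - x < B) ∧ (x ∈ X ∨ (1 ≤ x ∧ x - 1 ∈ X)) := by
  unfold Sh
  rw [Finset.mem_filter, mem_Iv]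

private lemma Sh_Tp {A B t : ℕ} (hAB : A ≤ B) {X : Finset ℕ} (hX : X ⊆ Iv A B t) :
    Sh A B t (Tp A B t X.card) ⊆ Tp A B (t + 1) (Sh A B t X).card := by
  intro x hx
  rw [mem_Sh, mem_Tp, mem_Tp] at hx
  rw [mem_Tp]
  refine ⟨hx.1, ?_⟩
  -- `X` is nonempty
  have hne : X.Nonempty := by
    rw [← Finset.card_pos]
    omega
  rcases lt_or_ge (t + 1) A with ht | ht
  · -- the interval grows upwards
    obtain ⟨z, hz, hmax⟩ := Finset.exists_max_image X id hne
    have hz' := mem_Iv.1 (hX hz)
    have hsub : insert (z + 1) X ⊆ Sh A B t X := by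
      intro w hw
      rw [Finset.mem_insert] at hw
      rw [mem_Sh]
      rcases hw with rfl | hw
      · exact ⟨by omega, Or.inr ⟨by omega, by simpa using hz⟩⟩
      · have := mem_Iv.1 (hX hw)
        exact ⟨by omega, Or.inl hw⟩
    have hnot : z + 1 ∉ X := fun h => by
      have := hmax _ h
      simp only [id] at this
      omega
    have := Finset.card_le_card hsub
    rw [Finset.card_insert_of_notMem hnot] at this
    omega
  · -- the upper end is `A - 1`
    by_contra hcon
    have hcard : (Sh A B t X).card < X.card := by omega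
    have hlow : t + 1 - B ∈ X ∧ B ≤ t + 1 := by
      by_contra hlow
      have hsub : X ⊆ Sh A B t X := by
        intro w hw
        have hw' := mem_Iv.1 (hX hw)
        rw [mem_Sh]
        refine ⟨?_, Or.inl hw⟩
        have : ¬ (w = t + 1 - B ∧ B ≤ t + 1) := by
          rintro ⟨rfl, h⟩
          exact hlow ⟨hw, h⟩
        omega
      have := Finset.card_le_card hsub
      omega
    have hsub : X.erase (t + 1 - B) ⊆ Sh A B t X := by
      intro w hw
      rw [Finset.mem_erase] at hw
      have hw' := mem_Iv.1 (hX hw.2)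
      rw [mem_Sh]
      exact ⟨by omega, Or.inl hw.2⟩
    have heq : X.erase (t + 1 - B) = Sh A B t X := by
      refine Finset.eq_of_subset_of_card_le hsub ?_
      rw [Finset.card_erase_of_mem hlow.1]
      omega
    have hall : ∀ j, t + 1 - B + j < A → t + 1 - B + j ∈ X := by
      intro j
      induction j with
      | zero => intro _; exact hlow.1
      | succ j ih =>
        intro hj
        have h1 := ih (by omega)
        have h2 : t + 1 - B + (j + 1) ∈ Sh A B t X := by
          rw [mem_Sh]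
          have h1' := mem_Iv.1 (hX h1)
          refine ⟨by omega, Or.inr ⟨by omega, ?_⟩⟩
          have : t + 1 - B + (j + 1) - 1 = t + 1 - B + j := by omega
          rwa [this]
        rw [← heq] at h2
        exact Finset.mem_of_mem_erase h2
    -- now the shadow is the whole interval
    have hfull : Iv A B (t + 1) ⊆ Sh A B t X := by
      intro w hw
      rw [mem_Iv] at hw
      rw [mem_Sh]
      refine ⟨hw, Or.inl ?_⟩
      have := hall (w - (t + 1 - B)) (by omega)
      have e : t + 1 - B + (w - (t + 1 - B)) = w := by omega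
      rwa [e] at this
    have h1 : Iv A B (t + 1) = Finset.Icc (t + 1 + 1 - B) (A - 1) := by
      ext z
      rw [mem_Iv, Finset.mem_Icc]
      omega
    have h2 := Finset.card_le_card hfull
    rw [h1, Nat.card_Icc] at h2
    omega

/-- The top segment maximizes the sum. -/
private lemma sum_Tp {A B t : ℕ} {X : Finset ℕ} (hX : X ⊆ Iv A B t) :
    ∑ x ∈ Tp A B t X.card, (t - x) + (X \ Tp A B t X.card).card ≤ ∑ x ∈ X, (t - x) := by
  set T := Tp A B t X.card with hT
  have hcard : (T \ X).card = (X \ T).card := by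
    have h1 := Finset.card_sdiff_add_card_inter T X
    have h2 := Finset.card_sdiff_add_card_inter X T
    rw [Finset.inter_comm] at h2
    have h3 : T.card = X.card := card_Tp hX
    omega
  have e1 : ∑ x ∈ T, (t - x) = ∑ x ∈ T ∩ X, (t - x) + ∑ x ∈ T \ X, (t - x) :=
    (Finset.sum_inter_add_sum_sdiff T X _).symm
  have e2 : ∑ x ∈ X, (t - x) = ∑ x ∈ T ∩ X, (t - x) + ∑ x ∈ X \ T, (t - x) := by
    rw [Finset.inter_comm]
    exact (Finset.sum_inter_add_sum_sdiff X T _).symm
  set θ := min t (A - 1) + 1 - X.card with hθ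
  have h1 : ∑ x ∈ T \ X, (t - x) ≤ (T \ X).card * (t - θ) := by
    rw [← smul_eq_mul]
    refine Finset.sum_le_card_nsmul _ _ _ fun x hx => ?_
    rw [Finset.mem_sdiff, hT, mem_Tp] at hx
    omega
  have h2 : (X \ T).card * (t - θ) + (X \ T).card ≤ ∑ x ∈ X \ T, (t - x) := by
    have : (X \ T).card * (t - θ) + (X \ T).card = (X \ T).card • (t - θ + 1) := by
      rw [smul_eq_mul]
      ring
    rw [this]
    refine Finset.card_nsmul_le_sum _ _ _ fun x hx => ?_
    rw [Finset.mem_sdiff, hT, mem_Tp] at hx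
    have hx' := mem_Iv.1 (hX hx.1)
    have := hx.2
    have h0 : 0 < X.card := Finset.card_pos.2 ⟨x, hx.1⟩
    omega
  rw [hcard] at h1
  omega

end Intervals


section Compress

variable {N : ℕ} {i l : Fin N} {a : Fin N → ℕ} {d : ℕ} {M : Finset (Fin N → ℕ)}

private lemma rowc_subset_Iv (h : i ≠ l) (hM : M ⊆ boxD a d) (c : Fin N → ℕ) (t : ℕ) :
    rowc i l M c t ⊆ Iv (a i) (a l) t := by
  intro x hx
  rw [mem_rowc] at hx
  have hb := (mem_boxD.1 (hM hx.2)).1
  have h1 := hb i
  have h2 := hb l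
  rw [mkv_i h] at h1
  rw [mkv_l] at h2
  exact mem_Iv.2 ⟨hx.1, h1, h2⟩

/-- The compressed set. -/
private def cmp (i l : Fin N) (a : Fin N → ℕ) (d : ℕ) (M : Finset (Fin N → ℕ)) :
    Finset (Fin N → ℕ) :=
  (boxD a d).filter fun y => min (y i + y l) (a i - 1) < y i + (rowc i l M y (y i + y l)).card

private lemma cmp_subset : cmp i l a d M ⊆ boxD a d := Finset.filter_subset _ _

private lemma rowc_cmp (h : i ≠ l) (hM : M ⊆ boxD a d) (c : Fin N → ℕ) (t : ℕ) :
    rowc i l (cmp i l a d M) c t = Tp (a i) (a l) t (rowc i l M c t).card := by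
  ext x
  rw [mem_rowc, mem_Tp]
  unfold cmp
  rw [Finset.mem_filter, mkv_i h, mkv_l]
  constructor
  · rintro ⟨hx, hb, hlt⟩
    have hb' := (mem_boxD.1 hb).1
    have h1 := hb' i
    have h2 := hb' l
    rw [mkv_i h] at h1
    rw [mkv_l] at h2
    rw [Nat.add_sub_cancel' hx, rowc_congr h t (c' := c) (fun j h1 h2 => mkv_of h1 h2 _ _ _)] at hlt
    exact ⟨⟨hx, h1, h2⟩, hlt⟩
  · rintro ⟨⟨hx, h1, h2⟩, hlt⟩
    refine ⟨hx, ?_, ?_⟩
    · have hpos : 0 < (rowc i l M c t).card := by omega
      obtain ⟨z, hz⟩ := Finset.card_pos.1 hpos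
      rw [mem_rowc] at hz
      obtain ⟨hz1, hz2⟩ := mem_boxD.1 (hM hz.2)
      rw [mem_boxD]
      constructor
      · intro j
        by_cases hj : j = i
        · subst hj
          rw [mkv_i h]
          exact h1
        · by_cases hj' : j = l
          · subst hj'
            rw [mkv_l]
            exact h2
          · have := hz1 j
            rw [mkv_of hj hj'] at this ⊢
            exact this
      · rw [sum_mkv h] at hz2 ⊢
        omega
    · rw [Nat.add_sub_cancel' hx, rowc_congr h t (c' := c) (fun j h1 h2 => mkv_of h1 h2 _ _ _)]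
      exact hlt

private lemma update_mkv (h : i ≠ l) {k : Fin N} (hk1 : k ≠ i) (hk2 : k ≠ l) (c : Fin N → ℕ)
    (x z v : ℕ) : Function.update (mkv i l c x z) k v = mkv i l (Function.update c k v) x z := by
  symm
  refine mkv_ext h ?_ ?_ ?_
  · rw [Function.update_of_ne hk1.symm, mkv_i h]
  · rw [Function.update_of_ne hk2.symm, mkv_l]
  · intro j h1 h2
    by_cases hj : j = k
    · subst hj
      rw [Function.update_self, Function.update_self]
    · rw [Function.update_of_ne hj, Function.update_of_ne hj, mkv_of h1 h2]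

/-- Analysis of the rows of a shadow. -/
private lemma mem_rowc_upShadow (h : i ≠ l) {c : Fin N → ℕ} {t x : ℕ}
    (hx : x ∈ rowc i l (upShadow a M) c t) :
    x ∈ Iv (a i) (a l) t ∧ (∀ j, j ≠ i → j ≠ l → c j < a j) ∧
      ((∃ t', t = t' + 1 ∧ (x ∈ rowc i l M c t' ∨ (1 ≤ x ∧ x - 1 ∈ rowc i l M c t'))) ∨
        ∃ k, k ≠ i ∧ k ≠ l ∧ 0 < c k ∧ x ∈ rowc i l M (Function.update c k (c k - 1)) t) := by
  rw [mem_rowc, mem_upShadow] at hx
  obtain ⟨hxt, hb, m, hm, k, hk⟩ := hx
  have h1 := hb i
  have h2 := hb l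
  rw [mkv_i h] at h1
  rw [mkv_l] at h2
  refine ⟨mem_Iv.2 ⟨hxt, h1, h2⟩, ?_, ?_⟩
  · intro j hj1 hj2
    have := hb j
    rwa [mkv_of hj1 hj2] at this
  · by_cases hki : k = i
    · subst hki
      left
      have e1 : x = m k + 1 := by
        have := congrFun hk k
        rwa [mkv_i h, Function.update_self] at this
      have e2 : t - x = m l := by
        have := congrFun hk l
        rwa [mkv_l, Function.update_of_ne h.symm] at this
      refine ⟨t - 1, by omega, Or.inr ⟨by omega, ?_⟩⟩
      rw [mem_rowc]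
      refine ⟨by omega, ?_⟩
      have e3 : mkv k l c (x - 1) (t - 1 - (x - 1)) = m := by
        refine mkv_ext h (by omega) (by omega) fun j hj1 hj2 => ?_
        have := congrFun hk j
        rw [mkv_of hj1 hj2, Function.update_of_ne hj1] at this
        exact this.symm
      rw [e3]
      exact hm
    · by_cases hkl : k = l
      · subst hkl
        left
        have e1 : x = m i := by
          have := congrFun hk i
          rwa [mkv_i h, Function.update_of_ne h] at this
        have e2 : t - x = m k + 1 := by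
          have := congrFun hk k
          rwa [mkv_l, Function.update_self] at this
        refine ⟨t - 1, by omega, Or.inl ?_⟩
        rw [mem_rowc]
        refine ⟨by omega, ?_⟩
        have e3 : mkv i k c x (t - 1 - x) = m := by
          refine mkv_ext h (by omega) (by omega) fun j hj1 hj2 => ?_
          have := congrFun hk j
          rw [mkv_of hj1 hj2, Function.update_of_ne hj2] at this
          exact this.symm
        rw [e3]
        exact hm
      · right
        have e0 : c k = m k + 1 := by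
          have := congrFun hk k
          rwa [mkv_of hki hkl, Function.update_self] at this
        refine ⟨k, hki, hkl, by omega, ?_⟩
        rw [mem_rowc]
        refine ⟨hxt, ?_⟩
        have e3 : mkv i l (Function.update c k (c k - 1)) x (t - x) = m := by
          rw [← update_mkv h hki hkl, hk, Function.update_idem]
          have : c k - 1 = m k := by omega
          rw [this, Function.update_eq_self]
        rw [e3]
        exact hm

private lemma Sh_rowc_subset (h : i ≠ l) {c : Fin N → ℕ} {t : ℕ}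
    (hc : ∀ j, j ≠ i → j ≠ l → c j < a j) :
    Sh (a i) (a l) t (rowc i l M c t) ⊆ rowc i l (upShadow a M) c (t + 1) := by
  intro x hx
  rw [mem_Sh] at hx
  obtain ⟨⟨hxt, hxA, hxB⟩, hx⟩ := hx
  have hbox : ∀ j, mkv i l c x (t + 1 - x) j < a j := by
    intro j
    by_cases hj : j = i
    · subst hj
      rwa [mkv_i h]
    · by_cases hj' : j = l
      · subst hj'
        rwa [mkv_l]
      · rw [mkv_of hj hj']
        exact hc j hj hj'
  rw [mem_rowc, mem_upShadow]
  refine ⟨hxt, hbox, ?_⟩
  rcases hx with hx | ⟨hx1, hx⟩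
  · rw [mem_rowc] at hx
    refine ⟨_, hx.2, l, ?_⟩
    rw [mkv_l]
    refine mkv_ext h ?_ ?_ ?_
    · rw [Function.update_of_ne h, mkv_i h]
    · rw [Function.update_self]
      omega
    · intro j hj1 hj2
      rw [Function.update_of_ne hj2, mkv_of hj1 hj2]
  · rw [mem_rowc] at hx
    refine ⟨_, hx.2, i, ?_⟩
    rw [mkv_i h]
    refine mkv_ext h ?_ ?_ ?_
    · rw [Function.update_self]
      omega
    · rw [Function.update_of_ne h.symm, mkv_l]
      omega
    · intro j hj1 hj2
      rw [Function.update_of_ne hj1, mkv_of hj1 hj2]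

private lemma rowc_pred_subset (h : i ≠ l) (hM : M ⊆ boxD a d) {c : Fin N → ℕ} {t : ℕ}
    (hc : ∀ j, j ≠ i → j ≠ l → c j < a j) {k : Fin N} (hk1 : k ≠ i) (hk2 : k ≠ l)
    (hk : 0 < c k) :
    rowc i l M (Function.update c k (c k - 1)) t ⊆ rowc i l (upShadow a M) c t := by
  intro x hx
  have hxI := mem_Iv.1 (rowc_subset_Iv h hM _ _ hx)
  rw [mem_rowc] at hx
  rw [mem_rowc, mem_upShadow]
  refine ⟨hx.1, ?_, _, hx.2, k, ?_⟩
  · intro j
    by_cases hj : j = i
    · subst hj
      rw [mkv_i h]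
      exact hxI.2.1
    · by_cases hj' : j = l
      · subst hj'
        rw [mkv_l]
        exact hxI.2.2
      · rw [mkv_of hj hj']
        exact hc j hj hj'
  · rw [update_mkv h hk1 hk2, mkv_of hk1 hk2, Function.update_self, Function.update_idem]
    have : c k - 1 + 1 = c k := by omega
    rw [this, Function.update_eq_self]

private lemma card_rowc_upShadow_cmp (h : i ≠ l) (hAB : a i ≤ a l) (hM : M ⊆ boxD a d)
    (c : Fin N → ℕ) (t : ℕ) :
    (rowc i l (upShadow a (cmp i l a d M)) c t).card ≤ (rowc i l (upShadow a M) c t).card := by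
  refine le_trans (Finset.card_le_card ?_) (card_Tp_le (a i) (a l) t _)
  intro x hx
  obtain ⟨hxI, hc, hx'⟩ := mem_rowc_upShadow h hx
  clear hx
  rcases hx' with ⟨t', rfl, hx⟩ | ⟨k, hk1, hk2, hk, hx⟩
  · rw [rowc_cmp h hM] at hx
    have h1 : x ∈ Sh (a i) (a l) t' (Tp (a i) (a l) t' (rowc i l M c t').card) :=
      mem_Sh.2 ⟨mem_Iv.1 hxI, hx⟩
    exact Tp_mono (Finset.card_le_card (Sh_rowc_subset h hc))
      (Sh_Tp hAB (rowc_subset_Iv h hM c t') h1)
  · rw [rowc_cmp h hM] at hx
    exact Tp_mono (Finset.card_le_card (rowc_pred_subset h hM hc hk1 hk2 hk)) hx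

/-- Two-coordinate compression. -/
private lemma compress_aux (h : i ≠ l) (hAB : a i ≤ a l) (hM : M ⊆ boxD a d)
    (m : Fin N → ℕ) (hm : m ∈ M) (hlast : 0 < m l) (hcap : m i + 1 < a i)
    (hviol : Function.update (Function.update m l (m l - 1)) i (m i + 1) ∉ M) :
    ∃ M' ⊆ boxD a d, M'.card = M.card ∧ (upShadow a M').card ≤ (upShadow a M).card ∧
      ∑ m ∈ M', m l < ∑ m ∈ M, m l := by
  classical
  set U : Finset ((Fin N → ℕ) × ℕ) := (boxD a d ∪ boxD a (d + 1)).image (keyc i l) with hUdef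
  have hU1 : ∀ S : Finset (Fin N → ℕ), S ⊆ boxD a d → ∀ y ∈ S, keyc i l y ∈ U := fun S hS y hy =>
    Finset.mem_image_of_mem _ (Finset.mem_union_left _ (hS hy))
  have hU2 : ∀ S : Finset (Fin N → ℕ), S ⊆ boxD a d → ∀ y ∈ upShadow a S, keyc i l y ∈ U :=
    fun S hS y hy =>
      Finset.mem_image_of_mem _ (Finset.mem_union_right _ (upShadow_subset_boxD hS hy))
  have hU' : ∀ κ ∈ U, mkv i l κ.1 0 0 = κ.1 := by
    intro κ hκ
    obtain ⟨y, _, rfl⟩ := Finset.mem_image.1 hκ
    exact mkv_mkv h _ _ _ _ _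
  have hcards : ∀ S : Finset (Fin N → ℕ), (∀ y ∈ S, keyc i l y ∈ U) →
      S.card = ∑ κ ∈ U, (rowc i l S κ.1 κ.2).card := by
    intro S hS
    have := sum_rowc h S U hS hU' (fun _ => 1)
    simpa using this
  have hlasts : ∀ S : Finset (Fin N → ℕ), (∀ y ∈ S, keyc i l y ∈ U) →
      ∑ y ∈ S, y l = ∑ κ ∈ U, ∑ x ∈ rowc i l S κ.1 κ.2, (κ.2 - x) := by
    intro S hS
    have := sum_rowc h S U hS hU' (fun y => y l)
    simpa only [mkv_l] using this
  refine ⟨cmp i l a d M, cmp_subset, ?_, ?_, ?_⟩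
  · rw [hcards _ (hU1 _ cmp_subset), hcards _ (hU1 _ hM)]
    refine Finset.sum_congr rfl fun κ _ => ?_
    rw [rowc_cmp h hM, card_Tp (rowc_subset_Iv h hM _ _)]
  · rw [hcards _ (hU2 _ cmp_subset), hcards _ (hU2 _ hM)]
    exact Finset.sum_le_sum fun κ _ => card_rowc_upShadow_cmp h hAB hM _ _
  · rw [hlasts _ (hU1 _ cmp_subset), hlasts _ (hU1 _ hM)]
    refine Finset.sum_lt_sum (fun κ _ => ?_) ⟨keyc i l m, hU1 _ hM m hm, ?_⟩
    · rw [rowc_cmp h hM]
      have := sum_Tp (rowc_subset_Iv h hM κ.1 κ.2)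
      omega
    · rw [rowc_cmp h hM]
      have h1 := sum_Tp (rowc_subset_Iv h hM (keyc i l m).1 (keyc i l m).2)
      set X := rowc i l M (keyc i l m).1 (keyc i l m).2 with hX
      set t := (keyc i l m).2 with ht
      have ht' : t = m i + m l := rfl
      have hpos : 0 < (X \ Tp (a i) (a l) t X.card).card := by
        rw [Finset.card_pos, Finset.sdiff_nonempty]
        intro hsub
        have heq : X = Tp (a i) (a l) t X.card :=
          Finset.eq_of_subset_of_card_le hsub (card_Tp_le _ _ _ _)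
        have hmX : m i ∈ X := by
          rw [hX, mem_rowc, ht']
          refine ⟨Nat.le_add_right _ _, ?_⟩
          change mkv i l (mkv i l m 0 0) (m i) (m i + m l - m i) ∈ M
          rw [mkv_mkv h, Nat.add_sub_cancel_left, mkv_self h]
          exact hm
        have hmT := mem_Tp.1 (heq ▸ hmX : m i ∈ Tp (a i) (a l) t X.card)
        have h2 : m i + 1 ∈ X := by
          rw [heq, mem_Tp]
          rw [ht'] at hmT ⊢
          omega
        rw [hX, mem_rowc, ht'] at h2
        apply hviol
        have h3 := h2.2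
        change mkv i l (mkv i l m 0 0) (m i + 1) (m i + m l - (m i + 1)) ∈ M at h3
        rw [mkv_mkv h] at h3
        have h4 : Function.update (Function.update m l (m l - 1)) i (m i + 1) =
            mkv i l m (m i + 1) (m i + m l - (m i + 1)) := by
          unfold mkv
          rw [Function.update_comm h.symm]
          congr 1
          omega
        rw [h4]
        exact h3
      omega

end Compress

variable {n : ℕ}

/-- If `M` is not stable for moving one unit from the last coordinate to coordinate `i`,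
then the compression in the coordinates `i, last` keeps the cardinality, does not increase
the shadow and strictly decreases the total of the last coordinates. -/
theorem compress_pair (a : Fin (n + 1) → ℕ) (ha : Monotone a) (d : ℕ)
    (M : Finset (Fin (n + 1) → ℕ)) (hM : M ⊆ boxD a d) (i : Fin (n + 1))
    (hi : i ≠ Fin.last n) (m : Fin (n + 1) → ℕ) (hm : m ∈ M) (hlast : 0 < m (Fin.last n))
    (hcap : m i + 1 < a i)
    (hviol : Function.update (Function.update m (Fin.last n) (m (Fin.last n) - 1)) i (m i + 1)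
      ∉ M) :
    ∃ M' ⊆ boxD a d, M'.card = M.card ∧ (upShadow a M').card ≤ (upShadow a M).card ∧
      ∑ m ∈ M', m (Fin.last n) < ∑ m ∈ M, m (Fin.last n) :=
  compress_aux hi (ha (Fin.le_last i)) hM m hm hlast hcap hviol

/-- Every `M` may be replaced by a set stable in the last variable, of the same size and with
a shadow which is not larger. -/
theorem exists_stable (a : Fin (n + 1) → ℕ) (ha : Monotone a) (d : ℕ)
    (M : Finset (Fin (n + 1) → ℕ)) (hM : M ⊆ boxD a d) :
    ∃ M' ⊆ boxD a d, M'.card = M.card ∧ (upShadow a M').card ≤ (upShadow a M).card ∧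
      ∀ m ∈ M', ∀ i, i ≠ Fin.last n → 0 < m (Fin.last n) → m i + 1 < a i →
        Function.update (Function.update m (Fin.last n) (m (Fin.last n) - 1)) i (m i + 1)
          ∈ M' := by
  obtain ⟨s, hs⟩ : ∃ s, ∑ m ∈ M, m (Fin.last n) = s := ⟨_, rfl⟩
  induction s using Nat.strong_induction_on generalizing M with
  | _ s ih =>
    by_cases hst : ∀ m ∈ M, ∀ i, i ≠ Fin.last n → 0 < m (Fin.last n) → m i + 1 < a i →
        Function.update (Function.update m (Fin.last n) (m (Fin.last n) - 1)) i (m i + 1) ∈ M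
    · exact ⟨M, hM, rfl, le_rfl, hst⟩
    · push Not at hst
      obtain ⟨m, hm, i, hi, hlast, hcap, hviol⟩ := hst
      obtain ⟨M₁, hM₁, hc₁, hs₁, hl₁⟩ := compress_pair a ha d M hM i hi m hm hlast hcap hviol
      obtain ⟨M₂, hM₂, hc₂, hs₂, hst₂⟩ := ih _ (hs ▸ hl₁) M₁ hM₁ rfl
      exact ⟨M₂, hM₂, hc₂.trans hc₁, hs₂.trans hs₁, hst₂⟩

end Vale.Agent.P200.G
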