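import Vale.Agent.P200.G.CLCompress

/-! The Clements-Lindstrom theorem. -/

namespace Vale.Agent.P200.G

variable {n : ℕ}

/-- Append a last coordinate. -/
private def sn (y : Fin n → ℕ) (t : ℕ) : Fin (n + 1) → ℕ := Fin.snoc (α := fun _ => ℕ) y t

/-- Forget the last coordinate. -/
private def ini (m : Fin (n + 1) → ℕ) : Fin n → ℕ := fun i => m i.castSucc

private lemma sn_last (y : Fin n → ℕ) (t : ℕ) : sn y t (Fin.last n) = t := by simp [sn]

private lemma sn_castSucc (y : Fin n → ℕ) (t : ℕ) (i : Fin n) : sn y t i.castSucc = y i := by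
  simp [sn]

private lemma ini_sn (y : Fin n → ℕ) (t : ℕ) : ini (sn y t) = y := by
  funext i
  exact sn_castSucc y t i

private lemma sn_ini (m : Fin (n + 1) → ℕ) : sn (ini m) (m (Fin.last n)) = m := by
  funext i
  refine Fin.lastCases ?_ (fun j => ?_) i
  · rw [sn_last]
  · rw [sn_castSucc]; rfl

private lemma sn_inj {y y' : Fin n → ℕ} {t t' : ℕ} (h : sn y t = sn y' t') : y = y' ∧ t = t' := by
  constructor
  · rw [← ini_sn y t, h, ini_sn]
  · rw [← sn_last y t, h, sn_last]

private lemma sum_sn (y : Fin n → ℕ) (t : ℕ) : ∑ i, sn y t i = ∑ i, y i + t := by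
  rw [Fin.sum_univ_castSucc, sn_last]
  simp only [sn_castSucc]

private lemma lexLT_sn {y y' : Fin n → ℕ} {t t' : ℕ} :
    lexLT (sn y t) (sn y' t') ↔ lexLT y y' ∨ (y = y' ∧ t < t') := by
  constructor
  · rintro ⟨i, h1, h2⟩
    revert h1 h2
    refine Fin.lastCases ?_ (fun j => ?_) i
    · intro h1 h2
      rw [sn_last, sn_last] at h2
      refine Or.inr ⟨?_, h2⟩
      funext k
      have := h1 k.castSucc (Fin.castSucc_lt_last k)
      rwa [sn_castSucc, sn_castSucc] at this
    · intro h1 h2
      rw [sn_castSucc, sn_castSucc] at h2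
      refine Or.inl ⟨j, fun k hk => ?_, h2⟩
      have := h1 k.castSucc (Fin.castSucc_lt_castSucc_iff.2 hk)
      rwa [sn_castSucc, sn_castSucc] at this
  · rintro (⟨j, h1, h2⟩ | ⟨rfl, h⟩)
    · refine ⟨j.castSucc, fun k => ?_, by rwa [sn_castSucc, sn_castSucc]⟩
      refine Fin.lastCases ?_ (fun k => ?_) k
      · intro hk
        exact absurd hk (not_lt.2 (Fin.castSucc_lt_last j).le)
      · intro hk
        rw [sn_castSucc, sn_castSucc]
        exact h1 k (Fin.castSucc_lt_castSucc_iff.1 hk)
    · refine ⟨Fin.last n, fun k => ?_, by rwa [sn_last, sn_last]⟩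
      refine Fin.lastCases ?_ (fun k => ?_) k
      · intro hk
        exact absurd hk (lt_irrefl _)
      · intro _
        rw [sn_castSucc, sn_castSucc]

/-- The slice of `M` at height `t` of the last coordinate. -/
private def sl (M : Finset (Fin (n + 1) → ℕ)) (t : ℕ) : Finset (Fin n → ℕ) :=
  (M.filter fun m => m (Fin.last n) = t).image ini

private lemma mem_sl {M : Finset (Fin (n + 1) → ℕ)} {t : ℕ} {y : Fin n → ℕ} :
    y ∈ sl M t ↔ sn y t ∈ M := by
  unfold sl
  rw [Finset.mem_image]
  constructor
  · rintro ⟨m, hm, rfl⟩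
    rw [Finset.mem_filter] at hm
    rw [← hm.2, sn_ini]
    exact hm.1
  · intro h
    exact ⟨sn y t, Finset.mem_filter.2 ⟨h, sn_last y t⟩, ini_sn y t⟩

private lemma card_sl (M : Finset (Fin (n + 1) → ℕ)) (t : ℕ) :
    (sl M t).card = (M.filter fun m => m (Fin.last n) = t).card := by
  unfold sl
  refine Finset.card_image_of_injOn ?_
  intro m hm m' hm' h
  have h1 : m (Fin.last n) = t := (Finset.mem_filter.1 (Finset.mem_coe.1 hm)).2
  have h2 : m' (Fin.last n) = t := (Finset.mem_filter.1 (Finset.mem_coe.1 hm')).2
  rw [← sn_ini m, ← sn_ini m', h1, h2]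
  have h3 : ini m = ini m' := h
  rw [h3]

private lemma card_eq_sum_sl {a : Fin (n + 1) → ℕ} {d : ℕ} {M : Finset (Fin (n + 1) → ℕ)}
    (hM : M ⊆ boxD a d) : M.card = ∑ t ∈ Finset.range (a (Fin.last n)), (sl M t).card := by
  rw [Finset.card_eq_sum_card_fiberwise (f := fun m => m (Fin.last n))
    (t := Finset.range (a (Fin.last n)))]
  · exact Finset.sum_congr rfl fun t _ => (card_sl M t).symm
  · intro m hm
    exact Finset.mem_coe.2 (Finset.mem_range.2 ((mem_boxD.1 (hM hm)).1 _))

private lemma sn_mem_boxD {a : Fin (n + 1) → ℕ} {d t : ℕ} {y : Fin n → ℕ} :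
    sn y t ∈ boxD a d ↔ t < a (Fin.last n) ∧ t ≤ d ∧ y ∈ boxD (ini a) (d - t) := by
  rw [mem_boxD, mem_boxD, sum_sn]
  constructor
  · rintro ⟨h1, h2⟩
    refine ⟨by simpa [sn_last] using h1 (Fin.last n), by omega, fun i => ?_, by omega⟩
    have := h1 i.castSucc
    rwa [sn_castSucc] at this
  · rintro ⟨h1, h2, h3, h4⟩
    refine ⟨fun i => ?_, by omega⟩
    refine Fin.lastCases ?_ (fun j => ?_) i
    · rwa [sn_last]
    · rw [sn_castSucc]
      exact h3 j

private lemma sl_subset {a : Fin (n + 1) → ℕ} {d : ℕ} {M : Finset (Fin (n + 1) → ℕ)}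
    (hM : M ⊆ boxD a d) (t : ℕ) : sl M t ⊆ boxD (ini a) (d - t) := fun _ hy =>
  (sn_mem_boxD.1 (hM (mem_sl.1 hy))).2.2

private lemma sl_le {a : Fin (n + 1) → ℕ} {d : ℕ} {M : Finset (Fin (n + 1) → ℕ)}
    (hM : M ⊆ boxD a d) {t : ℕ} (h : (sl M t).Nonempty) : t < a (Fin.last n) ∧ t ≤ d := by
  obtain ⟨y, hy⟩ := h
  have := sn_mem_boxD.1 (hM (mem_sl.1 hy))
  exact ⟨this.1, this.2.1⟩

private lemma update_sn_castSucc (y : Fin n → ℕ) (t : ℕ) (i : Fin n) (c : ℕ) :
    Function.update (sn y t) i.castSucc c = sn (Function.update y i c) t := by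
  funext j
  refine Fin.lastCases ?_ (fun j => ?_) j
  · rw [Function.update_of_ne (Fin.castSucc_lt_last i).ne', sn_last, sn_last]
  · rw [sn_castSucc]
    by_cases h : j = i
    · subst h
      simp
    · rw [Function.update_of_ne (fun h' => h (Fin.castSucc_injective n h')),
        Function.update_of_ne h, sn_castSucc]

private lemma update_sn_last (y : Fin n → ℕ) (t c : ℕ) :
    Function.update (sn y t) (Fin.last n) c = sn y c := by
  funext j
  refine Fin.lastCases ?_ (fun j => ?_) j
  · simp [sn_last]
  · rw [sn_castSucc, Function.update_of_ne (Fin.castSucc_lt_last j).ne, sn_castSucc]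

/-- Stability for moves from the last coordinate. -/
private def Stab (a : Fin (n + 1) → ℕ) (M : Finset (Fin (n + 1) → ℕ)) : Prop :=
  ∀ m ∈ M, ∀ i, i ≠ Fin.last n → 0 < m (Fin.last n) → m i + 1 < a i →
    Function.update (Function.update m (Fin.last n) (m (Fin.last n) - 1)) i (m i + 1) ∈ M

private lemma stab_sl {a : Fin (n + 1) → ℕ} {M : Finset (Fin (n + 1) → ℕ)} (h : Stab a M)
    {y : Fin n → ℕ} {t : ℕ} (hy : y ∈ sl M (t + 1)) {i : Fin n} (hi : y i + 1 < ini a i) :
    Function.update y i (y i + 1) ∈ sl M t := by
  have h1 := h _ (mem_sl.1 hy) i.castSucc (Fin.castSucc_lt_last i).ne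
    (by rw [sn_last]; omega) (by rw [sn_castSucc]; exact hi)
  rw [sn_last, update_sn_last, sn_castSucc, update_sn_castSucc] at h1
  exact mem_sl.2 h1

private lemma stab_upShadow_sl {a : Fin (n + 1) → ℕ} {M : Finset (Fin (n + 1) → ℕ)}
    (h : Stab a M) (t : ℕ) : upShadow (ini a) (sl M (t + 1)) ⊆ sl M t := by
  intro y hy
  obtain ⟨h1, m, hm, i, rfl⟩ := mem_upShadow.1 hy
  refine stab_sl h hm ?_
  have := h1 i
  rwa [Function.update_self] at this

/-- The size of the shadow of a stable set. -/
private lemma stab_card_upShadow {a : Fin (n + 1) → ℕ} {M : Finset (Fin (n + 1) → ℕ)} {d k : ℕ}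
    (hM : M ⊆ boxD a d) (h : Stab a M) (hk : a (Fin.last n) = k + 1) :
    (upShadow a M).card + (sl M k).card =
      M.card + (upShadow (ini a) (sl M 0)).card := by
  classical
  have e1 : (upShadow a M).card =
      ((upShadow a M).filter fun y => y (Fin.last n) ≠ 0).card +
        ((upShadow a M).filter fun y => ¬ y (Fin.last n) ≠ 0).card :=
    (Finset.card_filter_add_card_filter_not _).symm
  have e2 : M.card = (M.filter fun m => m (Fin.last n) = k).card +
      (M.filter fun m => ¬ m (Fin.last n) = k).card :=
    (Finset.card_filter_add_card_filter_not _).symm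
  have e3 : ((upShadow a M).filter fun y => ¬ y (Fin.last n) ≠ 0).card =
      (upShadow (ini a) (sl M 0)).card := by
    symm
    refine Finset.card_bij (fun y _ => sn y 0) ?_ ?_ ?_
    · intro y hy
      obtain ⟨h1, m, hm, i, rfl⟩ := mem_upShadow.1 hy
      rw [Finset.mem_filter]
      refine ⟨mem_upShadow.2 ⟨?_, sn m 0, mem_sl.1 hm, i.castSucc, ?_⟩, by simp [sn_last]⟩
      · intro j
        refine Fin.lastCases ?_ (fun j => ?_) j
        · rw [sn_last]; omega
        · rw [sn_castSucc]; exact h1 j
      · rw [sn_castSucc, update_sn_castSucc]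
    · intro y _ y' _ hyy
      exact (sn_inj hyy).1
    · intro y hy
      rw [Finset.mem_filter] at hy
      obtain ⟨hy1, hy2⟩ := hy
      have hy3 : y (Fin.last n) = 0 := by
        by_contra h'
        exact hy2 h'
      obtain ⟨h1, m, hm, i, hyi⟩ := mem_upShadow.1 hy1
      have hi : i ≠ Fin.last n := by
        rintro rfl
        rw [hyi, Function.update_self] at hy3
        omega
      obtain ⟨j, rfl⟩ := Fin.exists_castSucc_eq.2 hi
      have hm0 : m (Fin.last n) = 0 := by
        rw [hyi, Function.update_of_ne (Fin.castSucc_lt_last j).ne'] at hy3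
        exact hy3
      refine ⟨ini y, mem_upShadow.2 ⟨fun i => h1 _, ini m, mem_sl.2 ?_, j, ?_⟩, ?_⟩
      · rw [← hm0, sn_ini]; exact hm
      · funext l
        change y l.castSucc = _
        rw [hyi]
        by_cases hl : l = j
        · subst hl
          simp [ini]
        · rw [Function.update_of_ne (fun h' => hl (Fin.castSucc_injective n h')),
            Function.update_of_ne hl]
          rfl
      · rw [← hy3, sn_ini]
  have e4 : ((upShadow a M).filter fun y => y (Fin.last n) ≠ 0).card =
      (M.filter fun m => ¬ m (Fin.last n) = k).card := by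
    symm
    refine Finset.card_bij (fun m _ => Function.update m (Fin.last n) (m (Fin.last n) + 1))
      ?_ ?_ ?_
    · intro m hm
      rw [Finset.mem_filter] at hm
      have hmb := (mem_boxD.1 (hM hm.1)).1
      rw [Finset.mem_filter]
      refine ⟨mem_upShadow.2 ⟨?_, m, hm.1, Fin.last n, rfl⟩, by simp⟩
      intro j
      by_cases hj : j = Fin.last n
      · subst hj
        rw [Function.update_self]
        have := hmb (Fin.last n)
        have := hm.2
        omega
      · rw [Function.update_of_ne hj]
        exact hmb j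
    · intro m _ m' _ hmm
      funext j
      by_cases hj : j = Fin.last n
      · subst hj
        have := congrFun hmm (Fin.last n)
        simp only [Function.update_self] at this
        omega
      · have := congrFun hmm j
        rwa [Function.update_of_ne hj, Function.update_of_ne hj] at this
    · intro y hy
      rw [Finset.mem_filter] at hy
      obtain ⟨hy1, hy2⟩ := hy
      obtain ⟨h1, m, hm, i, hyi⟩ := mem_upShadow.1 hy1
      have key : Function.update y (Fin.last n) (y (Fin.last n) - 1) ∈ M := by
        by_cases hi : i = Fin.last n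
        · subst hi
          have : Function.update y (Fin.last n) (y (Fin.last n) - 1) = m := by
            funext j
            by_cases hj : j = Fin.last n
            · subst hj
              rw [Function.update_self, hyi, Function.update_self]
              omega
            · rw [Function.update_of_ne hj, hyi, Function.update_of_ne hj]
          rw [this]
          exact hm
        · have hyl : y (Fin.last n) = m (Fin.last n) := by
            rw [hyi, Function.update_of_ne (Ne.symm hi)]
          have h3 := h m hm i hi (by omega) (by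
            have := h1 i
            rwa [hyi, Function.update_self] at this)
          have : Function.update y (Fin.last n) (y (Fin.last n) - 1) =
              Function.update (Function.update m (Fin.last n) (m (Fin.last n) - 1)) i
                (m i + 1) := by
            rw [Function.update_comm (Ne.symm hi), ← hyi, hyl]
          rw [this]
          exact h3
      refine ⟨_, Finset.mem_filter.2 ⟨key, ?_⟩, ?_⟩
      · rw [Function.update_self]
        have := h1 (Fin.last n)
        omega
      · simp only [Function.update_self, Function.update_idem]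
        have : y (Fin.last n) - 1 + 1 = y (Fin.last n) := by omega
        rw [this, Function.update_eq_self]
  rw [card_sl]
  omega

private lemma lexSeg_stab (a : Fin (n + 1) → ℕ) (d q : ℕ) : Stab a (lexSeg a d q) := by
  intro m hm i hi hpos hcap
  have hmb := mem_boxD.1 (lexSeg_subset hm)
  refine lexSeg_upClosed hm (mem_boxD.2 ⟨?_, ?_⟩) ?_
  · intro j
    by_cases hj : j = i
    · subst hj
      rw [Function.update_self]
      exact hcap
    · rw [Function.update_of_ne hj]
      by_cases hj' : j = Fin.last n
      · subst hj'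
        rw [Function.update_self]
        have := hmb.1 (Fin.last n)
        omega
      · rw [Function.update_of_ne hj']
        exact hmb.1 j
  · obtain ⟨j, rfl⟩ := Fin.exists_castSucc_eq.2 hi
    have h1 : m = sn (ini m) (m (Fin.last n)) := (sn_ini m).symm
    have h2 : Function.update (Function.update m (Fin.last n) (m (Fin.last n) - 1)) j.castSucc
        (m j.castSucc + 1) = sn (Function.update (ini m) j (ini m j + 1))
          (m (Fin.last n) - 1) := by
      conv_lhs => rw [h1]
      rw [update_sn_last, sn_last, sn_castSucc, update_sn_castSucc]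
    have h3 : ∑ i, Function.update (ini m) j (ini m j + 1) i = ∑ i, ini m i + 1 := by
      rw [Finset.sum_update_of_mem (Finset.mem_univ j)]
      have := Finset.add_sum_erase Finset.univ (ini m) (Finset.mem_univ j)
      rw [← Finset.sdiff_singleton_eq_erase] at this
      omega
    rw [h2, sum_sn, h3]
    have h4 := hmb.2
    rw [h1, sum_sn] at h4
    omega
  · refine ⟨i, fun k hk => ?_, by rw [Function.update_self]; omega⟩
    rw [Function.update_of_ne hk.ne, Function.update_of_ne]
    rintro rfl
    exact absurd hk (not_lt.2 (Fin.le_last i))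

private lemma sl_upClosed {a : Fin (n + 1) → ℕ} {d q t : ℕ} {y y' : Fin n → ℕ}
    (hy : y ∈ sl (lexSeg a d q) t) (hy' : y' ∈ boxD (ini a) (d - t)) (h : lexLT y y') :
    y' ∈ sl (lexSeg a d q) t := by
  have h1 := mem_sl.1 hy
  have h2 := sn_mem_boxD.1 (lexSeg_subset h1)
  exact mem_sl.2 (lexSeg_upClosed h1 (sn_mem_boxD.2 ⟨h2.1, h2.2.1, hy'⟩)
    (lexLT_sn.2 (Or.inl h)))

/-- **Clements-Lindstrom**: among all sets of degree `d` exponents of given size in a box with
weakly increasing sides, the lexicographic segment has the smallest shadow. -/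
theorem clementsLindstrom {n : ℕ} (a : Fin n → ℕ) (ha : Monotone a) (d : ℕ)
    (M : Finset (Fin n → ℕ)) (hM : M ⊆ boxD a d) :
    up a d M.card ≤ (upShadow a M).card := by
  induction n generalizing d with
  | zero =>
    have : upShadow a (lexSeg a d M.card) = ∅ := by
      ext y
      constructor
      · intro hy
        obtain ⟨_, m, _, i, _⟩ := mem_upShadow.1 hy
        exact i.elim0
      · intro h
        simp at h
    unfold up
    rw [this]
    simp
  | succ n ih =>
    have ha' : Monotone (ini a) := fun i j hij => ha (Fin.castSucc_le_castSucc_iff.2 hij)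
    have IH : ∀ (d : ℕ) (M : Finset (Fin n → ℕ)), M ⊆ boxD (ini a) d →
        up (ini a) d M.card ≤ (upShadow (ini a) M).card := fun d M hM => ih (ini a) ha' d M hM
    obtain ⟨M', hM', hcard, hsh, hst⟩ := exists_stable a ha d M hM
    rw [← hcard]
    refine le_trans ?_ hsh
    clear hsh hcard hM M
    have hS : Stab a M' := hst
    -- trivial case of an empty box
    rcases Nat.eq_zero_or_pos (a (Fin.last n)) with ha0 | hapos
    · have : M' = ∅ := by
        rw [Finset.eq_empty_iff_forall_notMem]
        intro m hm
        have := (mem_boxD.1 (hM' hm)).1 (Fin.last n)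
        omega
      rw [this, Finset.card_empty, up_zero]
      exact Nat.zero_le _
    obtain ⟨k, hk⟩ : ∃ k, a (Fin.last n) = k + 1 := ⟨a (Fin.last n) - 1, by omega⟩
    set q := M'.card with hq
    set L := lexSeg a d q with hL
    have hLb : L ⊆ boxD a d := lexSeg_subset
    have hLcard : L.card = q := by
      rw [hL, card_lexSeg, min_eq_left]
      exact Finset.card_le_card hM'
    have hLst : Stab a L := lexSeg_stab a d q
    -- the segments `N t`
    let N : ℕ → Finset (Fin n → ℕ) := fun t => lexSeg (ini a) (d - t) (sl M' t).card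
    have hNb : ∀ t, N t ⊆ boxD (ini a) (d - t) := fun t => lexSeg_subset
    have hNcard : ∀ t, (N t).card = (sl M' t).card := fun t => by
      change (lexSeg _ _ _).card = _
      rw [card_lexSeg, min_eq_left]
      exact Finset.card_le_card (sl_subset hM' t)
    have hNup : ∀ t y y', y ∈ N t → y' ∈ boxD (ini a) (d - t) → lexLT y y' → y' ∈ N t :=
      fun t y y' h1 h2 h3 => lexSeg_upClosed h1 h2 h3
    have hNst : ∀ t, upShadow (ini a) (N (t + 1)) ⊆ N t := by
      intro t
      rcases Finset.eq_empty_or_nonempty (sl M' (t + 1)) with he | hne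
      · have : N (t + 1) = ∅ := by
          rw [← Finset.card_eq_zero, hNcard, he, Finset.card_empty]
        rw [this, upShadow_empty]
        exact Finset.empty_subset _
      · have h1 := (sl_le hM' hne).2
        have h2 : d - (t + 1) + 1 = d - t := by omega
        change upShadow (ini a) (lexSeg (ini a) (d - (t + 1)) (sl M' (t + 1)).card) ⊆ _
        rw [upShadow_lexSeg, h2]
        refine lexSeg_mono ?_
        exact (IH _ _ (sl_subset hM' (t + 1))).trans
          (Finset.card_le_card (stab_upShadow_sl hS t))
    have hNle : ∀ t, (N t).Nonempty → t < a (Fin.last n) ∧ t ≤ d := by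
      intro t ht
      rw [← Finset.card_pos, hNcard, Finset.card_pos] at ht
      exact sl_le hM' ht
    have hsum : ∑ t ∈ Finset.range (a (Fin.last n)), (N t).card =
        ∑ t ∈ Finset.range (a (Fin.last n)), (sl L t).card := by
      rw [← card_eq_sum_sl hLb, hLcard, hq, card_eq_sum_sl hM']
      exact Finset.sum_congr rfl fun t _ => hNcard t
    have hLup : ∀ t y y', y ∈ sl L t → y' ∈ boxD (ini a) (d - t) → lexLT y y' → y' ∈ sl L t :=
      fun t y y' h1 h2 h3 => sl_upClosed h1 h2 h3
    -- climbing
    have climb : ∀ (j t : ℕ) (z : Fin n → ℕ), z ∈ boxD (ini a) (d - t) →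
        ∀ y, y ∈ N (t + j) → (y = z ∨ lexLT y z) → z ∈ N t := by
      intro j
      induction j with
      | zero =>
        intro t z hz y hy hyz
        rcases hyz with rfl | hyz
        · exact hy
        · exact hNup t y z hy hz hyz
      | succ j ihj =>
        intro t z hz y hy hyz
        have hy' := mem_boxD.1 (hNb _ hy)
        have hz' := mem_boxD.1 hz
        have hle := (hNle _ ⟨y, hy⟩).2
        have hdeg : ∑ i, y i < ∑ i, z i := by
          rw [hy'.2, hz'.2]
          omega
        have hlt : lexLT y z := by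
          rcases hyz with rfl | h
          · exact absurd hdeg (lt_irrefl _)
          · exact h
        obtain ⟨i, hi1, hi2⟩ := exists_step hy'.1 hz'.1 hlt hdeg
        refine ihj t z hz _ ?_ hi2
        refine hNst (t + j) (mem_upShadow.2 ⟨hi1, y, hy, i, rfl⟩)
    -- (3a)
    have h3a : (sl L 0).card ≤ (sl M' 0).card := by
      by_contra hcon
      push Not at hcon
      rw [← hNcard 0] at hcon
      obtain ⟨y, hyL, hyN⟩ := Finset.exists_mem_notMem_of_card_lt_card hcon
      have hyb := sn_mem_boxD.1 (hLb (mem_sl.1 hyL))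
      have hsub : ∀ t, N t ⊆ sl L t := by
        intro t z hz
        by_contra hzL
        have hzb := hNb t hz
        have hzle := hNle t ⟨z, hz⟩
        have hzb' : sn z t ∈ boxD a d := sn_mem_boxD.2 ⟨hzle.1, hzle.2, hzb⟩
        have h1 : sn z t ∉ L := fun h => hzL (mem_sl.2 h)
        have h2 : ¬ lexLT (sn y 0) (sn z t) := fun h =>
          h1 (lexSeg_upClosed (mem_sl.1 hyL) hzb' h)
        apply hyN
        refine climb t 0 y hyb.2.2 z (by rwa [Nat.zero_add]) ?_
        rcases lexLT_trichotomy (sn y 0) (sn z t) with h | h | h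
        · exact absurd h h2
        · exact Or.inl (sn_inj h).1.symm
        · rcases lexLT_sn.1 h with h | ⟨h, h'⟩
          · exact Or.inr h
          · omega
      have hlt : ∑ t ∈ Finset.range (a (Fin.last n)), (N t).card <
          ∑ t ∈ Finset.range (a (Fin.last n)), (sl L t).card :=
        Finset.sum_lt_sum (fun t _ => Finset.card_le_card (hsub t))
          ⟨0, Finset.mem_range.2 hapos, hcon⟩
      omega
    -- (3b)
    have h3b : (sl M' k).card ≤ (sl L k).card := by
      by_contra hcon
      push Not at hcon
      rw [← hNcard k] at hcon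
      obtain ⟨y, hyN, hyL⟩ := Finset.exists_mem_notMem_of_card_lt_card hcon
      have hyb := hNb k hyN
      have hyle := hNle k ⟨y, hyN⟩
      have hyb' : sn y k ∈ boxD a d := sn_mem_boxD.2 ⟨hyle.1, hyle.2, hyb⟩
      have h1 : sn y k ∉ L := fun h => hyL (mem_sl.2 h)
      have hsub : ∀ t, sl L t ⊆ N t := by
        intro t z hz
        have hzL := mem_sl.1 hz
        have hzb := sn_mem_boxD.1 (hLb hzL)
        have h2 : ¬ lexLT (sn z t) (sn y k) := fun h => h1 (lexSeg_upClosed hzL hyb' h)
        have htk : t ≤ k := by omega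
        obtain ⟨j, rfl⟩ := Nat.exists_eq_add_of_le htk
        refine climb j t z hzb.2.2 y hyN ?_
        rcases lexLT_trichotomy (sn z t) (sn y (t + j)) with h | h | h
        · exact absurd h h2
        · exact Or.inl (sn_inj h).1.symm
        · rcases lexLT_sn.1 h with h | ⟨h, h'⟩
          · exact Or.inr h
          · omega
      have hlt : ∑ t ∈ Finset.range (a (Fin.last n)), (sl L t).card <
          ∑ t ∈ Finset.range (a (Fin.last n)), (N t).card :=
        Finset.sum_lt_sum (fun t _ => Finset.card_le_card (hsub t))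
          ⟨k, Finset.mem_range.2 (by omega), hcon⟩
      omega
    -- conclusion
    have hA := stab_card_upShadow hM' hS hk
    have hB := stab_card_upShadow hLb hLst hk
    have hC : up (ini a) (d - 0) (sl M' 0).card ≤ (upShadow (ini a) (sl M' 0)).card :=
      IH (d - 0) _ (sl_subset hM' 0)
    have hD : up (ini a) (d - 0) (sl L 0).card ≤ up (ini a) (d - 0) (sl M' 0).card := up_mono h3a
    have hE : sl L 0 = lexSeg (ini a) (d - 0) (sl L 0).card :=
      eq_lexSeg_of_upClosed (sl_subset hLb 0) fun m hm m' hm' h => hLup 0 m m' hm hm' h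
    have hF : (upShadow (ini a) (sl L 0)).card = up (ini a) (d - 0) (sl L 0).card := by
      conv_lhs => rw [hE]
      rfl
    have hG : up a d q = (upShadow a L).card := rfl
    omega

end Vale.Agent.P200.G
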