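import Vale.Agent.P200.G.HilbBasic

/-! Eliminating a variable: quotients by a linear form. -/

namespace Vale.Agent.P200.G

open MvPolynomial

variable {K : Type*} [Field K] {n : ℕ}

/-- `φ` eliminates the linear form `l`. -/
structure Eliminates (φ : MvPolynomial (Fin (n + 1)) K →ₐ[K] MvPolynomial (Fin n) K)
    (l : MvPolynomial (Fin (n + 1)) K) : Prop where
  surj : Function.Surjective φ
  homog : ∀ d f, f.IsHomogeneous d → (φ f).IsHomogeneous d
  ker : RingHom.ker φ = Ideal.span {l}

theorem exists_eliminates {l : MvPolynomial (Fin (n + 1)) K} (hl : l.IsHomogeneous 1)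
    (hl0 : l ≠ 0) : ∃ φ : MvPolynomial (Fin (n + 1)) K →ₐ[K] MvPolynomial (Fin n) K,
      Eliminates φ l := by
  classical
  have h1 : l ∈ Submodule.span K (Set.range (X : Fin (n + 1) → MvPolynomial (Fin (n + 1)) K)) := by
    rw [← homogeneousSubmodule_one_eq_span_X]
    exact hl
  rw [Submodule.mem_span_range_iff_exists_fun] at h1
  obtain ⟨c, hc⟩ := h1
  obtain ⟨i0, hi0⟩ : ∃ i, c i ≠ 0 := by
    by_contra hcon
    push Not at hcon
    apply hl0
    rw [← hc]
    exact Finset.sum_eq_zero fun i _ => by rw [hcon i, zero_smul]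
  let r : MvPolynomial (Fin n) K := -((c i0)⁻¹ • ∑ j, c (i0.succAbove j) • X j)
  let v : Fin (n + 1) → MvPolynomial (Fin n) K :=
    i0.insertNth (α := fun _ => MvPolynomial (Fin n) K) r (fun j => X j)
  have hv0 : v i0 = r := Fin.insertNth_apply_same _ _ _
  have hvs : ∀ j, v (i0.succAbove j) = X j := fun j => Fin.insertNth_apply_succAbove _ _ _ _
  let φ : MvPolynomial (Fin (n + 1)) K →ₐ[K] MvPolynomial (Fin n) K := aeval v
  let ψ : MvPolynomial (Fin n) K →ₐ[K] MvPolynomial (Fin (n + 1)) K := rename i0.succAbove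
  have hφψ : ∀ g, φ (ψ g) = g := by
    intro g
    change aeval v (rename i0.succAbove g) = g
    rw [aeval_rename]
    have h2 : v ∘ i0.succAbove = X := by
      funext j
      exact hvs j
    rw [h2, aeval_X_left, AlgHom.id_apply]
  have hr1 : r.IsHomogeneous 1 := by
    refine Submodule.neg_mem (homogeneousSubmodule (Fin n) K 1) (Submodule.smul_mem _ _
      (Submodule.sum_mem _ fun j _ => Submodule.smul_mem _ _ ?_))
    exact isHomogeneous_X K j
  have hφl : φ l = 0 := by
    rw [← hc, map_sum, Fin.sum_univ_succAbove _ i0, map_smul]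
    change c i0 • aeval v (X i0) + _ = 0
    rw [aeval_X, hv0]
    have h3 : ∀ j, φ (c (i0.succAbove j) • X (i0.succAbove j)) = c (i0.succAbove j) • X j := by
      intro j
      rw [map_smul]
      change _ • aeval v (X (i0.succAbove j)) = _
      rw [aeval_X, hvs]
    rw [Finset.sum_congr rfl fun j _ => h3 j]
    change c i0 • -((c i0)⁻¹ • ∑ j, c (i0.succAbove j) • X j) + _ = 0
    rw [smul_neg, smul_smul, mul_inv_cancel₀ hi0, one_smul, neg_add_cancel]
  refine ⟨φ, fun g => ⟨ψ g, hφψ g⟩, ?_, ?_⟩
  · intro d f hf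
    have h2 := hf.aeval v (n := 1) (fun i => by
      by_cases hi : i = i0
      · rw [hi, hv0]; exact hr1
      · obtain ⟨j, rfl⟩ := Fin.exists_succAbove_eq hi
        rw [hvs]
        exact isHomogeneous_X K j)
    rwa [one_mul] at h2
  · apply le_antisymm
    · intro g hg
      rw [RingHom.mem_ker] at hg
      have key : ((Ideal.Quotient.mkₐ K (Ideal.span {l})).comp (ψ.comp φ)) =
          Ideal.Quotient.mkₐ K (Ideal.span {l}) := by
        apply MvPolynomial.algHom_ext
        intro i
        change Ideal.Quotient.mk (Ideal.span {l}) (ψ (aeval v (X i))) =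
          Ideal.Quotient.mk (Ideal.span {l}) (X i)
        rw [aeval_X, Ideal.Quotient.eq]
        by_cases hi : i = i0
        · rw [hi, hv0]
          have h4 : ψ r - X i0 = C (-(c i0)⁻¹) * l := by
            rw [← hc, Fin.sum_univ_succAbove _ i0, C_mul']
            change ψ (-((c i0)⁻¹ • ∑ j, c (i0.succAbove j) • X j)) - X i0 = _
            rw [map_neg, map_smul, map_sum]
            have h5 : ∀ j, ψ (c (i0.succAbove j) • X j) =
                c (i0.succAbove j) • X (i0.succAbove j) := by
              intro j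
              rw [map_smul]
              change _ • rename i0.succAbove (X j) = _
              rw [rename_X]
            rw [Finset.sum_congr rfl fun j _ => h5 j, smul_add, smul_smul, neg_mul,
              inv_mul_cancel₀ hi0, neg_smul, neg_smul, one_smul]
            abel
          rw [h4]
          exact Ideal.mul_mem_left _ _ (Ideal.mem_span_singleton_self l)
        · obtain ⟨j, rfl⟩ := Fin.exists_succAbove_eq hi
          rw [hvs]
          change rename i0.succAbove (X j) - _ ∈ _
          rw [rename_X, sub_self]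
          exact Ideal.zero_mem _
      have h6 := DFunLike.congr_fun key g
      change Ideal.Quotient.mk (Ideal.span {l}) (ψ (φ g)) =
          Ideal.Quotient.mk (Ideal.span {l}) g at h6
      rw [hg, map_zero, map_zero] at h6
      exact Ideal.Quotient.eq_zero_iff_mem.1 h6.symm
    · rw [Ideal.span_singleton_le_iff_mem, RingHom.mem_ker]
      exact hφl

/-- `φ` commutes with homogeneous components -/
theorem Eliminates.comp_map {φ : MvPolynomial (Fin (n + 1)) K →ₐ[K] MvPolynomial (Fin n) K}
    {l : MvPolynomial (Fin (n + 1)) K} (h : Eliminates φ l) (d : ℕ)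
    (f : MvPolynomial (Fin (n + 1)) K) :
    homogeneousComponent d (φ f) = φ (homogeneousComponent d f) := by
  classical
  conv_lhs => rw [← sum_homogeneousComponent f, map_sum, map_sum]
  have h1 : ∀ i ∈ Finset.range (f.totalDegree + 1),
      homogeneousComponent d (φ (homogeneousComponent i f)) =
      if d = i then φ (homogeneousComponent i f) else 0 := fun i _ =>
    homogeneousComponent_of_mem (h.homog _ _ (homogeneousComponent_isHomogeneous i f))
  rw [Finset.sum_congr rfl h1, Finset.sum_ite_eq]
  split_ifs with h2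
  · rfl
  · rw [Finset.mem_range, not_lt] at h2
    rw [homogeneousComponent_eq_zero d f (by omega), map_zero]

theorem Eliminates.exists_lift {φ : MvPolynomial (Fin (n + 1)) K →ₐ[K] MvPolynomial (Fin n) K}
    {l : MvPolynomial (Fin (n + 1)) K} (h : Eliminates φ l) {d : ℕ}
    {g : MvPolynomial (Fin n) K} (hg : g.IsHomogeneous d) :
    ∃ f : MvPolynomial (Fin (n + 1)) K, f.IsHomogeneous d ∧ φ f = g := by
  obtain ⟨f, rfl⟩ := h.surj g
  refine ⟨homogeneousComponent d f, homogeneousComponent_isHomogeneous _ _, ?_⟩
  rw [← h.comp_map, homogeneousComponent_eq_self hg]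

theorem Eliminates.homIdeal_map {φ : MvPolynomial (Fin (n + 1)) K →ₐ[K] MvPolynomial (Fin n) K}
    {l : MvPolynomial (Fin (n + 1)) K} (h : Eliminates φ l)
    {I : Ideal (MvPolynomial (Fin (n + 1)) K)} (hI : HomIdeal I) :
    HomIdeal (I.map φ) := by
  intro p hp d
  obtain ⟨q, hq, rfl⟩ := (Ideal.mem_map_iff_of_surjective φ h.surj).1 hp
  rw [h.comp_map]
  exact Ideal.mem_map_of_mem _ (hI q hq d)

theorem elim_finrank_map {V W : Type*} [AddCommGroup V] [Module K V] [AddCommGroup W] [Module K W]
    (φ : V →ₗ[K] W) (U : Submodule K V) [Module.Finite K U] :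
    Module.finrank K (U.map φ) + Module.finrank K (U ⊓ LinearMap.ker φ : Submodule K V) =
      Module.finrank K U := by
  have h2 : Module.finrank K (LinearMap.range (φ.domRestrict U)) +
      Module.finrank K (LinearMap.ker (φ.domRestrict U)) = Module.finrank K U :=
    LinearMap.finrank_range_add_finrank_ker (φ.domRestrict U)
  have h4 : (LinearMap.ker (φ.domRestrict U)).map U.subtype = U ⊓ LinearMap.ker φ := by
    ext p
    constructor
    · rintro ⟨q, hq, rfl⟩
      exact ⟨q.2, hq⟩
    · rintro ⟨hp, hpk⟩
      exact ⟨⟨p, hp⟩, hpk, rfl⟩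
  rw [← h4, Submodule.finrank_map_subtype_eq, ← LinearMap.range_domRestrict]
  exact h2

theorem Eliminates.hilb_map {φ : MvPolynomial (Fin (n + 1)) K →ₐ[K] MvPolynomial (Fin n) K}
    {l : MvPolynomial (Fin (n + 1)) K} (h : Eliminates φ l)
    {I : Ideal (MvPolynomial (Fin (n + 1)) K)} (hl : l ∈ I) (d : ℕ) :
    hilb (I.map φ) d = hilb I d := by
  have hkerI : ∀ p, φ p = 0 → p ∈ I := by
    intro p hp
    have h1 : p ∈ RingHom.ker φ := hp
    rw [h.ker] at h1
    exact (Ideal.span_singleton_le_iff_mem I).2 hl h1
  have e1 : (homogeneousSubmodule (Fin (n + 1)) K d).map φ.toLinearMap =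
      homogeneousSubmodule (Fin n) K d := by
    apply le_antisymm
    · rintro _ ⟨f, hf, rfl⟩
      exact h.homog _ _ hf
    · intro g hg
      obtain ⟨f, hf, rfl⟩ := h.exists_lift hg
      exact ⟨f, hf, rfl⟩
  have e2 : (piece I d).map φ.toLinearMap = piece (I.map φ) d := by
    apply le_antisymm
    · rintro _ ⟨f, ⟨hf, hfd⟩, rfl⟩
      exact ⟨Ideal.mem_map_of_mem _ hf, h.homog _ _ hfd⟩
    · rintro g ⟨hg, hgd⟩
      obtain ⟨f, hf, rfl⟩ := h.exists_lift hgd
      obtain ⟨q, hq, hq2⟩ := (Ideal.mem_map_iff_of_surjective φ h.surj).1 hg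
      refine ⟨f, ⟨?_, hf⟩, rfl⟩
      have h1 : f - q ∈ I := hkerI _ (by rw [map_sub, hq2, sub_self])
      have h2 := I.add_mem h1 hq
      rwa [sub_add_cancel] at h2
  have e3 : piece I d ⊓ LinearMap.ker φ.toLinearMap =
      homogeneousSubmodule (Fin (n + 1)) K d ⊓ LinearMap.ker φ.toLinearMap := by
    apply le_antisymm
    · exact inf_le_inf_right _ (piece_le I d)
    · rintro p ⟨hp, hpk⟩
      exact ⟨⟨hkerI p hpk, hp⟩, hpk⟩
  have f1 := elim_finrank_map φ.toLinearMap (homogeneousSubmodule (Fin (n + 1)) K d)
  have f2 := elim_finrank_map φ.toLinearMap (piece I d)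
  rw [e1] at f1
  rw [e2, e3] at f2
  have g1 := finrank_piece_add_hilb I d
  have g2 := finrank_piece_add_hilb (I.map φ) d
  omega

/-- m-primary ideals pass to the quotient: if `I = (f_i)` is m-primary and `f_k` is a multiple
of `l`, then the images of the other `f_i` generate an m-primary ideal. -/
theorem Eliminates.isMPrimary {φ : MvPolynomial (Fin (n + 1)) K →ₐ[K] MvPolynomial (Fin n) K}
    {l : MvPolynomial (Fin (n + 1)) K} (h : Eliminates φ l) (k : Fin (n + 1))
    (f : Fin (n + 1) → MvPolynomial (Fin (n + 1)) K)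
    (hf : IsMPrimary (Ideal.span (Set.range f))) (hk : l ∣ f k) :
    IsMPrimary (Ideal.span (Set.range fun i => φ (f (k.succAbove i)))) := by
  obtain ⟨N, hN⟩ := hf
  refine ⟨N, fun d hd g hg => ?_⟩
  obtain ⟨f', hf', rfl⟩ := h.exists_lift hg
  have h1 : φ f' ∈ (Ideal.span (Set.range f)).map φ := Ideal.mem_map_of_mem _ (hN d hd f' hf')
  rw [Ideal.map_span] at h1
  refine Ideal.span_le.2 ?_ h1
  rintro _ ⟨_, ⟨i, rfl⟩, rfl⟩
  by_cases hi : i = k
  · have h2 : φ (f i) = 0 := by
      have h3 : f i ∈ RingHom.ker φ := by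
        rw [h.ker, hi, Ideal.mem_span_singleton]
        exact hk
      exact h3
    rw [h2]
    exact Ideal.zero_mem _
  · obtain ⟨j, rfl⟩ := Fin.exists_succAbove_eq hi
    exact Ideal.subset_span ⟨j, rfl⟩

theorem Eliminates.splitsLinear
    {φ : MvPolynomial (Fin (n + 1)) K →ₐ[K] MvPolynomial (Fin n) K}
    {l : MvPolynomial (Fin (n + 1)) K} (h : Eliminates φ l) {d : ℕ}
    {f : MvPolynomial (Fin (n + 1)) K} (hf : SplitsLinear d f) : SplitsLinear d (φ f) := by
  obtain ⟨g, hg, rfl⟩ := hf
  exact ⟨fun i => φ (g i), fun i => h.homog _ _ (hg i), map_prod _ _ _⟩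

theorem elim_aeval_eval {m : ℕ} (v : Fin m → K) (f : MvPolynomial (Fin m) K) :
    aeval v f = eval v f := by
  rw [← coe_aeval_eq_eval]
  rfl

/-- a form in one variable -/
theorem elim_one_var {d : ℕ} {f : MvPolynomial (Fin 1) K} (hf : f.IsHomogeneous d) :
    f = monomial (Finsupp.single 0 d) (coeff (Finsupp.single 0 d) f) := by
  classical
  ext m
  rw [coeff_monomial]
  split_ifs with h
  · rw [h]
  · apply hf.coeff_eq_zero
    intro hm
    apply h
    apply Finsupp.ext
    intro i
    have hi : i = 0 := Subsingleton.elim _ _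
    subst hi
    rw [Finsupp.degree_eq_sum, Fin.sum_univ_one] at hm
    rw [Finsupp.single_eq_same, hm]

/-- a form vanishes at the multiples of a zero -/
theorem elim_eval_smul {m d : ℕ} {f : MvPolynomial (Fin m) K} (hf : f.IsHomogeneous d)
    (c : K) (p : Fin m → K) : eval (fun i => c * p i) f = c ^ d * eval p f := by
  rw [eval_eq', eval_eq', Finset.mul_sum]
  refine Finset.sum_congr rfl fun e he => ?_
  have h1 : e.degree = d := by
    by_contra hne
    exact (mem_support_iff.1 he) (hf.coeff_eq_zero hne)
  rw [Finsupp.degree_eq_sum] at h1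
  simp only [mul_pow]
  rw [Finset.prod_mul_distrib, Finset.prod_pow_eq_pow_sum, h1]
  ring

/-- a binary form over an algebraically closed field has a nontrivial zero -/
theorem elim_exists_zero [IsAlgClosed K] {d : ℕ} {f : MvPolynomial (Fin 2) K}
    (hf : f.IsHomogeneous (d + 1)) : ∃ p : Fin 2 → K, p ≠ 0 ∧ eval p f = 0 := by
  classical
  let g : Polynomial K := aeval ![1, Polynomial.X] f
  have hg : ∀ t, g.eval t = eval ![1, t] f := by
    intro t
    have h1 : ((Polynomial.aeval t : Polynomial K →ₐ[K] K).comp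
        (aeval ![1, Polynomial.X] : MvPolynomial (Fin 2) K →ₐ[K] Polynomial K)) =
        aeval ![1, t] := by
      apply MvPolynomial.algHom_ext
      intro i
      fin_cases i <;> simp
    have h2 := DFunLike.congr_fun h1 f
    rw [AlgHom.comp_apply, elim_aeval_eval] at h2
    rw [← h2]
    simp [g, Polynomial.aeval_def]
  by_cases hdeg : g.degree = 0
  · obtain ⟨c, hc⟩ : ∃ c, g = Polynomial.C c :=
      ⟨_, Polynomial.eq_C_of_degree_eq_zero hdeg⟩
    refine ⟨![0, 1], ?_, ?_⟩
    · intro h0
      have h1 := congrFun h0 1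
      simp at h1
    · let k : Polynomial K := aeval ![Polynomial.X, 1] f
      have hk : ∀ t, k.eval t = eval ![t, 1] f := by
        intro t
        have h1 : ((Polynomial.aeval t : Polynomial K →ₐ[K] K).comp
            (aeval ![Polynomial.X, 1] : MvPolynomial (Fin 2) K →ₐ[K] Polynomial K)) =
            aeval ![t, 1] := by
          apply MvPolynomial.algHom_ext
          intro i
          fin_cases i <;> simp
        have h2 := DFunLike.congr_fun h1 f
        rw [AlgHom.comp_apply, elim_aeval_eval] at h2
        rw [← h2]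
        simp [k, Polynomial.aeval_def]
      have h3 : Polynomial.X * (k - Polynomial.C c * Polynomial.X ^ (d + 1)) = 0 := by
        apply Polynomial.funext
        intro t
        rw [Polynomial.eval_mul, Polynomial.eval_X, Polynomial.eval_sub, hk, Polynomial.eval_mul,
          Polynomial.eval_C, Polynomial.eval_pow, Polynomial.eval_X, Polynomial.eval_zero]
        by_cases ht : t = 0
        · rw [ht, zero_mul]
        · have h4 := elim_eval_smul hf t ![1, t⁻¹]
          have h5 : (fun i => t * (![1, t⁻¹] : Fin 2 → K) i) = ![t, 1] := by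
            funext i
            fin_cases i
            · simp
            · simp [ht]
          rw [h5, ← hg, hc, Polynomial.eval_C] at h4
          rw [h4]
          ring
      have h6 : k - Polynomial.C c * Polynomial.X ^ (d + 1) = 0 :=
        (mul_eq_zero.1 h3).resolve_left Polynomial.X_ne_zero
      have h7 := congrArg (Polynomial.eval 0) h6
      rw [Polynomial.eval_sub, hk, Polynomial.eval_mul, Polynomial.eval_C, Polynomial.eval_pow,
        Polynomial.eval_X, Polynomial.eval_zero, zero_pow (Nat.succ_ne_zero d), mul_zero,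
        sub_zero] at h7
      exact h7
  · obtain ⟨r, hr⟩ := IsAlgClosed.exists_root g hdeg
    refine ⟨![1, r], ?_, ?_⟩
    · intro h0
      have h1 := congrFun h0 0
      simp at h1
    · rw [← hg]
      exact hr

/-- a linear factor of a form in at most two variables -/
theorem elim_exists_factor [IsAlgClosed K] (hn : n ≤ 2) {d : ℕ} {f : MvPolynomial (Fin n) K}
    (hf : f.IsHomogeneous (d + 1)) : ∃ l g : MvPolynomial (Fin n) K, l.IsHomogeneous 1 ∧
      g.IsHomogeneous d ∧ f = l * g := by
  classical
  have key : (∃ l : MvPolynomial (Fin n) K, l.IsHomogeneous 1 ∧ l ∣ f) → ∃ l g : MvPolynomial (Fin n) K,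
      l.IsHomogeneous 1 ∧ g.IsHomogeneous d ∧ f = l * g := by
    rintro ⟨l, hl, u, hu⟩
    refine ⟨l, homogeneousComponent d u, hl, homogeneousComponent_isHomogeneous _ _, ?_⟩
    rw [← comp_mul_add hl, ← hu, homogeneousComponent_eq_self hf]
  apply key
  obtain rfl | rfl | rfl : n = 0 ∨ n = 1 ∨ n = 2 := by omega
  · refine ⟨0, isHomogeneous_zero _ _ _, ?_⟩
    have h0 : f = 0 := by
      ext m
      rw [coeff_zero]
      apply hf.coeff_eq_zero
      have hm : m = 0 := Subsingleton.elim _ _
      rw [hm, map_zero]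
      omega
    rw [h0]
  · refine ⟨X 0, isHomogeneous_X K 0, ?_⟩
    rw [elim_one_var hf, X_dvd_monomial]
    right
    simp
  · obtain ⟨p, hp, hpf⟩ := elim_exists_zero hf
    let l : MvPolynomial (Fin 2) K := p 1 • X 0 - p 0 • X 1
    have hl : l.IsHomogeneous 1 := by
      refine Submodule.sub_mem (homogeneousSubmodule (Fin 2) K 1)
        (Submodule.smul_mem _ _ ?_) (Submodule.smul_mem _ _ ?_)
      · exact isHomogeneous_X K 0
      · exact isHomogeneous_X K 1
    have hl0 : l ≠ 0 := by
      intro h0
      apply hp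
      have c0 := congrArg (coeff (Finsupp.single 0 1)) h0
      have c1 := congrArg (coeff (Finsupp.single 1 1)) h0
      change coeff _ (p 1 • X 0 - p 0 • X 1) = _ at c0 c1
      rw [coeff_sub, coeff_smul, coeff_smul, coeff_X, coeff_X, coeff_zero] at c0 c1
      have n01 : (Finsupp.single (0 : Fin 2) 1) ≠ (Finsupp.single (1 : Fin 2) 1) := by
        intro hc
        exact absurd (Finsupp.single_left_injective one_ne_zero hc) (by decide)
      rw [if_pos rfl, if_neg n01.symm] at c0
      rw [if_pos rfl, if_neg n01] at c1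
      funext i
      fin_cases i
      · simpa using c1
      · simpa using c0
    refine ⟨l, hl, ?_⟩
    obtain ⟨φ, hφ⟩ := exists_eliminates hl hl0
    have h1 := elim_one_var (hφ.homog _ _ hf)
    have hev : ∀ g, eval (fun _ => (1 : K)) (φ g) = eval (fun i => eval (fun _ => (1 : K)) (φ (X i))) g := by
      intro g
      have h2 : ((aeval (fun _ => (1 : K)) : MvPolynomial (Fin 1) K →ₐ[K] K).comp φ) =
          aeval (fun i => aeval (fun _ => (1 : K)) (φ (X i))) := by
        apply MvPolynomial.algHom_ext
        intro i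
        rw [aeval_X]
        rfl
      have h3 := DFunLike.congr_fun h2 g
      rw [AlgHom.comp_apply] at h3
      simpa only [elim_aeval_eval] using h3
    set q : Fin 2 → K := fun i => eval (fun _ => (1 : K)) (φ (X i)) with hq
    have hql : eval q l = 0 := by
      rw [← hev]
      have h4 : φ l = 0 := by
        have h5 : l ∈ RingHom.ker φ := by
          rw [hφ.ker]
          exact Ideal.mem_span_singleton_self l
        exact h5
      rw [h4, map_zero]
    have hql2 : p 1 * q 0 - p 0 * q 1 = 0 := by
      have h5 : eval q l = p 1 * q 0 - p 0 * q 1 := by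
        change eval q (p 1 • X 0 - p 0 • X 1) = _
        rw [map_sub, smul_eval, smul_eval, eval_X, eval_X]
      rw [← h5, hql]
    obtain ⟨c, hc⟩ : ∃ c : K, q = fun i => c * p i := by
      by_cases hp1 : p 1 = 0
      · have hp0 : p 0 ≠ 0 := by
          intro hp0
          apply hp
          funext i
          fin_cases i
          · exact hp0
          · exact hp1
        have hq1 : q 1 = 0 := by
          rw [hp1, zero_mul, zero_sub, neg_eq_zero] at hql2
          exact (mul_eq_zero.1 hql2).resolve_left hp0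
        refine ⟨q 0 / p 0, ?_⟩
        funext i
        fin_cases i
        · change q 0 = q 0 / p 0 * p 0
          rw [div_mul_cancel₀ _ hp0]
        · change q 1 = q 0 / p 0 * p 1
          rw [hq1, hp1, mul_zero]
      · refine ⟨q 1 / p 1, ?_⟩
        funext i
        fin_cases i
        · change q 0 = q 1 / p 1 * p 0
          field_simp
          linear_combination hql2
        · change q 1 = q 1 / p 1 * p 1
          rw [div_mul_cancel₀ _ hp1]
    have h6 : eval (fun _ => (1 : K)) (φ f) = 0 := by
      rw [hev, hc, elim_eval_smul hf, hpf, mul_zero]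
    have h7 : φ f = 0 := by
      rw [h1, eval_monomial] at h6
      simp only [one_pow, Finsupp.prod, Finset.prod_const_one, mul_one] at h6
      rw [h1, h6, map_zero]
    have h8 : f ∈ RingHom.ker φ := h7
    rw [hφ.ker, Ideal.mem_span_singleton] at h8
    exact h8

/-- over an algebraically closed field, forms in at most two variables split -/
theorem splitsLinear_of_le_two [IsAlgClosed K] (hn : n ≤ 2) {d : ℕ} (hd : 1 ≤ d)
    {f : MvPolynomial (Fin n) K} (hf : f.IsHomogeneous d) : SplitsLinear d f := by
  obtain ⟨e, rfl⟩ : ∃ e, d = e + 1 := ⟨d - 1, by omega⟩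
  clear hd
  induction e generalizing f with
  | zero =>
    exact ⟨fun _ => f, fun _ => hf, by simp⟩
  | succ e ih =>
    obtain ⟨l, g, hl, hg, rfl⟩ := elim_exists_factor hn hf
    obtain ⟨l', hl', hprod⟩ := ih hg
    refine ⟨Fin.cons l l', ?_, ?_⟩
    · intro i
      refine Fin.cases ?_ (fun j => ?_) i
      · rw [Fin.cons_zero]; exact hl
      · rw [Fin.cons_succ]; exact hl' j
    · rw [Fin.prod_univ_succ, Fin.cons_zero, hprod]
      simp only [Fin.cons_succ]

end Vale.Agent.P200.G
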