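import Vale.Agent.P200.G.Stack
import Vale.Agent.P200.G.Elim

/-! Reduction to fewer variables when one of the forms is a product of linear forms. -/

namespace Vale.Agent.P200.G

open MvPolynomial

variable {K : Type*} [Field K] {n : ℕ}

theorem egh_iff_num {a : Fin n → ℕ} {I : Ideal (MvPolynomial (Fin n) K)} :
    EGH a I ↔ EGHnum a (hilb I) := Iff.rfl

theorem card_boxD_zero {a : Fin n → ℕ} (hpos : ∀ i, 1 ≤ a i) : (boxD a 0).card = 1 := by
  have h : boxD a 0 = {fun _ => 0} := by
    ext m
    rw [mem_boxD, Finset.mem_singleton]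
    constructor
    · rintro ⟨_, h⟩
      funext i
      exact (Finset.sum_eq_zero_iff.1 h) i (Finset.mem_univ i)
    · rintro rfl
      exact ⟨fun i => hpos i, by simp⟩
  rw [h, Finset.card_singleton]

/-- if `h 0 ≤ 1` the growth inequality bounds `h` by the box. -/
theorem EGHnum.le_card {a : Fin n → ℕ} (hpos : ∀ i, 1 ≤ a i) {h : ℕ → ℕ} (h0 : h 0 ≤ 1)
    (hh : EGHnum a h) (d : ℕ) : h d ≤ (boxD a d).card := by
  cases d with
  | zero => rw [card_boxD_zero hpos]; exact h0
  | succ d => exact (Nat.le_add_left _ _).trans (hh d)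

theorem hilb_zero_le_one (I : Ideal (MvPolynomial (Fin n) K)) : hilb I 0 ≤ 1 := by
  have h := finrank_piece_add_hilb I 0
  rw [finrank_homogeneousSubmodule] at h
  have h2 : ((Finset.univ : Finset (Fin n)).finsuppAntidiag 0).card = 1 := by simp
  omega

/-- the inductive claim: decomposition of the Hilbert function along linear factors -/
private theorem decomp (a' : Fin n → ℕ) (hpos : ∀ i, 1 ≤ a' i)
    (I : Ideal (MvPolynomial (Fin (n + 1)) K))
    (f : MvPolynomial (Fin (n + 1)) K)
    (hyp : ∀ l : MvPolynomial (Fin (n + 1)) K, l.IsHomogeneous 1 → l ≠ 0 → l ∣ f →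
      ∀ J : Ideal (MvPolynomial (Fin (n + 1)) K), HomIdeal J → I ≤ J → l ∈ J →
        EGHnum a' (hilb J)) (r : ℕ) :
    ∀ (Ls : Multiset (MvPolynomial (Fin (n + 1)) K)), Multiset.card Ls = r →
      (∀ l ∈ Ls, l.IsHomogeneous 1 ∧ l ≠ 0 ∧ l ∣ f) →
      ∀ I' : Ideal (MvPolynomial (Fin (n + 1)) K), HomIdeal I' → I ≤ I' → Ls.prod ∈ I' →
      ∀ d : ℕ, ∃ R R' : ℕ → ℕ,
        hilb I' d = ∑ j ∈ Finset.range (min r (d + 1)), R j ∧
        hilb I' (d + 1) = ∑ j ∈ Finset.range (min r (d + 2)), R' j ∧
        (∀ j, j < r → j ≤ d →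
          up a' (d - j) ((boxD a' (d - j)).card - R j) + R' j ≤ (boxD a' (d + 1 - j)).card) ∧
        (∀ j, j + 1 < r → j ≤ d → R' (j + 1) ≤ R j) ∧
        (∀ j, j < r → j ≤ d → R j ≤ (boxD a' (d - j)).card) ∧
        (1 ≤ r → ∃ l ∈ Ls, R' 0 = hilb (I' ⊔ Ideal.span {l}) (d + 1)) := by
  classical
  induction r with
  | zero =>
    intro Ls hcard _ I' hI' hII' hprod d
    have hLs : Ls = 0 := Multiset.card_eq_zero.1 hcard
    rw [hLs, Multiset.prod_zero] at hprod
    have htop : ∀ e, hilb I' e = 0 := fun e => hilb_eq_zero_iff.2 fun g _ => by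
      rw [(Ideal.eq_top_iff_one I').2 hprod]
      trivial
    exact ⟨fun _ => 0, fun _ => 0, by simp [htop], by simp [htop],
      fun j hj => absurd hj (Nat.not_lt_zero j), fun j hj => absurd hj (Nat.not_lt_zero _),
      fun j hj => absurd hj (Nat.not_lt_zero j), fun h => absurd h (by omega)⟩
  | succ r ih =>
    intro Ls hcard hLs I' hI' hII' hprod d
    have hne : Ls.toFinset.Nonempty := by
      rw [Finset.nonempty_iff_ne_empty, Ne, Multiset.toFinset_eq_empty]
      rintro rfl
      simp at hcard
    obtain ⟨l, hl, hmax⟩ := Finset.exists_max_image Ls.toFinset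
      (fun l => hilb (I' ⊔ Ideal.span {l}) d) hne
    rw [Multiset.mem_toFinset] at hl
    obtain ⟨hl1, hl0, hlf⟩ := hLs l hl
    set J := I' ⊔ Ideal.span {l} with hJ
    have hJhom : HomIdeal J := homIdeal_sup hI' (homIdeal_span (by
      rintro g rfl
      exact ⟨1, hl1⟩))
    have hJI : I ≤ J := hII'.trans le_sup_left
    have hlJ : l ∈ J := Ideal.mem_sup_right (Ideal.mem_span_singleton_self l)
    have hJnum := hyp l hl1 hl0 hlf J hJhom hJI hlJ
    set C := colonBy I' l with hC
    have hChom : HomIdeal C := homIdeal_colonBy hI' hl1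
    have hI'C : I' ≤ C := fun g hg => I'.mul_mem_left l hg
    have hCprod : (Ls.erase l).prod ∈ C := by
      rw [hC, mem_colonBy, Multiset.prod_erase hl]
      exact hprod
    have hCcard : Multiset.card (Ls.erase l) = r := by
      rw [Multiset.card_erase_of_mem hl, hcard]
      rfl
    have hCLs : ∀ l' ∈ Ls.erase l, l'.IsHomogeneous 1 ∧ l' ≠ 0 ∧ l' ∣ f :=
      fun l' hl' => hLs l' (Multiset.mem_of_mem_erase hl')
    cases d with
    | zero =>
      refine ⟨fun _ => hilb J 0, fun j => if j = 0 then hilb J 1 else hilb C 0, ?_, ?_, ?_, ?_,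
        ?_, fun _ => ⟨l, hl, by simp [hJ]⟩⟩
      · rw [Nat.min_eq_right (by omega)]
        simp only [zero_add, Finset.sum_range_one]
        exact (hilb_sup_span_of_lt hI' hl1 (by norm_num)).symm
      · have h1 := hilb_exact hI' hl1 0
        rw [← hJ, ← hC] at h1
        rcases Nat.eq_zero_or_pos r with hr | hr
        · subst hr
          have h2 : hilb C 0 = 0 := hilb_eq_zero_iff.2 fun g _ => by
            have h3 : Ls.erase l = 0 := Multiset.card_eq_zero.1 hCcard
            rw [h3, Multiset.prod_zero] at hCprod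
            rw [(Ideal.eq_top_iff_one C).2 hCprod]
            trivial
          simpa [h2] using h1
        · rw [Nat.min_eq_right (by omega)]
          simpa [Finset.sum_range_succ] using h1
      · intro j _ hj
        obtain rfl : j = 0 := by omega
        simpa using hJnum 0
      · intro j _ hj
        obtain rfl : j = 0 := by omega
        simp only [zero_add, one_ne_zero, if_false]
        rw [show hilb J 0 = hilb I' 0 from hilb_sup_span_of_lt hI' hl1 (by norm_num)]
        exact hilb_antitone hI'C 0
      · intro j _ hj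
        obtain rfl : j = 0 := by omega
        exact EGHnum.le_card hpos (hilb_zero_le_one J) hJnum 0
    | succ d =>
      obtain ⟨R, R', h1, h2, h3, h4, h5, h6⟩ := ih (Ls.erase l) hCcard hCLs C hChom
        (hII'.trans hI'C) hCprod d
      refine ⟨fun j => Nat.casesOn j (hilb J (d + 1)) R,
        fun j => Nat.casesOn j (hilb J (d + 2)) R', ?_, ?_, ?_, ?_, ?_,
        fun _ => ⟨l, hl, rfl⟩⟩
      · have e1 := hilb_exact hI' hl1 d
        rw [← hJ, ← hC] at e1
        rw [show min (r + 1) (d + 1 + 1) = min r (d + 1) + 1 by omega,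
          Finset.sum_range_succ', e1, h1, add_comm]
        rfl
      · have e1 := hilb_exact hI' hl1 (d + 1)
        rw [← hJ, ← hC] at e1
        rw [show min (r + 1) (d + 1 + 2) = min r (d + 2) + 1 by omega,
          Finset.sum_range_succ', e1, h2, add_comm]
        rfl
      · intro j hj hjd
        cases j with
        | zero => exact hJnum (d + 1)
        | succ j =>
          have := h3 j (by omega) (by omega)
          rw [show d + 1 - (j + 1) = d - j by omega,
            show d + 1 + 1 - (j + 1) = d + 1 - j by omega]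
          exact this
      · intro j hj hjd
        cases j with
        | zero =>
          obtain ⟨l2, hl2, hl2'⟩ := h6 (by omega)
          change R' 0 ≤ hilb J (d + 1)
          rw [hl2']
          refine le_trans (hilb_antitone (sup_le_sup_right hI'C _) (d + 1)) ?_
          exact hmax l2 (Multiset.mem_toFinset.2 (Multiset.mem_of_mem_erase hl2))
        | succ j => exact h4 j (by omega) (by omega)
      · intro j hj hjd
        cases j with
        | zero => exact EGHnum.le_card hpos (hilb_zero_le_one J) hJnum (d + 1)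
        | succ j =>
          rw [show d + 1 - (j + 1) = d - j by omega]
          exact h5 j (by omega) (by omega)

/-- **Reduction lemma.**  If `I` contains a nonzero product of `a k` linear forms and the growth
inequality for the remaining degrees holds for every homogeneous ideal containing `I` and
a nonzero linear form, then it holds for `I`. -/
theorem egh_of_linear_factors (a : Fin (n + 1) → ℕ) (ha : Monotone a) (hpos : ∀ i, 1 ≤ a i)
    (k : Fin (n + 1)) (I : Ideal (MvPolynomial (Fin (n + 1)) K)) (hI : HomIdeal I)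
    (f : MvPolynomial (Fin (n + 1)) K) (hf : SplitsLinear (a k) f) (hf0 : f ≠ 0) (hfI : f ∈ I)
    (hyp : ∀ l : MvPolynomial (Fin (n + 1)) K, l.IsHomogeneous 1 → l ≠ 0 → l ∣ f →
      ∀ J : Ideal (MvPolynomial (Fin (n + 1)) K), HomIdeal J → I ≤ J → l ∈ J →
        EGHnum (fun i => a (k.succAbove i)) (hilb J)) :
    EGH a I := by
  obtain ⟨l, hl, hfl⟩ := hf
  intro d
  have hprod : (Finset.univ.val.map l).prod = f := hfl.symm
  obtain ⟨R, R', h1, h2, h3, h4, h5, -⟩ := decomp (fun i => a (k.succAbove i))
    (fun i => hpos _) I f hyp (a k) (Finset.univ.val.map l) (by simp) (by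
      intro l' hl'
      obtain ⟨i, -, rfl⟩ := Multiset.mem_map.1 hl'
      have hdvd : l i ∣ f := by
        rw [hfl]
        exact Finset.dvd_prod_of_mem l (Finset.mem_univ i)
      exact ⟨hl i, fun h0 => hf0 (by
        rw [h0] at hdvd
        exact zero_dvd_iff.1 hdvd), hdvd⟩) I hI le_rfl (by rw [hprod]; exact hfI) d
  rw [h1, h2]
  exact stack_growth a ha k d R R' h3 h4 h5

end Vale.Agent.P200.G
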