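import Vale.Agent.P200.G.CLMain

/-! Stacking lexicographic segments of a box with one side removed: slices and growth. -/

namespace Vale.Agent.P200.G

variable {n : ℕ}

/-- forget the `k`-th coordinate -/
private def rmv (k : Fin (n + 1)) (m : Fin (n + 1) → ℕ) : Fin n → ℕ := fun i => m (k.succAbove i)

/-- insert a `k`-th coordinate -/
private def ins (k : Fin (n + 1)) (j : ℕ) (y : Fin n → ℕ) : Fin (n + 1) → ℕ :=
  Fin.insertNth (α := fun _ => ℕ) k j y

private lemma ins_same (k : Fin (n + 1)) (j : ℕ) (y : Fin n → ℕ) : ins k j y k = j :=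
  Fin.insertNth_apply_same _ _ _

private lemma ins_succAbove (k : Fin (n + 1)) (j : ℕ) (y : Fin n → ℕ) (i : Fin n) :
    ins k j y (k.succAbove i) = y i :=
  Fin.insertNth_apply_succAbove _ _ _ _

private lemma rmv_ins (k : Fin (n + 1)) (j : ℕ) (y : Fin n → ℕ) : rmv k (ins k j y) = y := by
  funext i
  exact ins_succAbove k j y i

private lemma ext_succAbove {k : Fin (n + 1)} {m m' : Fin (n + 1) → ℕ} (h : m k = m' k)
    (h' : rmv k m = rmv k m') : m = m' := by
  funext i
  rcases eq_or_ne i k with rfl | hi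
  · exact h
  · obtain ⟨i', rfl⟩ := Fin.exists_succAbove_eq hi
    exact congrFun h' i'

private lemma ins_rmv (k : Fin (n + 1)) (m : Fin (n + 1) → ℕ) : ins k (m k) (rmv k m) = m :=
  ext_succAbove (ins_same k _ _) (rmv_ins k _ _)

private lemma mem_boxD_rmv {a : Fin (n + 1) → ℕ} {k : Fin (n + 1)} {d : ℕ}
    {m : Fin (n + 1) → ℕ} :
    m ∈ boxD a d ↔ m k < a k ∧ m k ≤ d ∧
      rmv k m ∈ boxD (fun i => a (k.succAbove i)) (d - m k) := by
  rw [mem_boxD, mem_boxD, Fin.sum_univ_succAbove m k]
  constructor
  · rintro ⟨h1, h2⟩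
    refine ⟨h1 k, by omega, fun i => h1 _, ?_⟩
    change ∑ i, m (k.succAbove i) = _
    omega
  · rintro ⟨h1, h2, h3, h4⟩
    refine ⟨fun i => ?_, ?_⟩
    · rcases eq_or_ne i k with rfl | hi
      · exact h1
      · obtain ⟨i', rfl⟩ := Fin.exists_succAbove_eq hi
        exact h3 i'
    · change ∑ i, m (k.succAbove i) = _ at h4
      omega

/-- the stack of a family of subsets -/
private def stk (a : Fin (n + 1) → ℕ) (k : Fin (n + 1)) (d : ℕ)
    (P : ℕ → Finset (Fin n → ℕ)) : Finset (Fin (n + 1) → ℕ) :=
  (boxD a d).filter fun m => rmv k m ∈ P (m k)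

private lemma card_stk (a : Fin (n + 1) → ℕ) (k : Fin (n + 1)) (d : ℕ)
    (P : ℕ → Finset (Fin n → ℕ))
    (hP : ∀ j, P j ⊆ boxD (fun i => a (k.succAbove i)) (d - j)) :
    (stk a k d P).card = ∑ j ∈ Finset.range (min (a k) (d + 1)), (P j).card := by
  classical
  rw [Finset.card_eq_sum_card_fiberwise (f := fun m => m k)
    (t := Finset.range (min (a k) (d + 1)))]
  · refine Finset.sum_congr rfl fun j hj => ?_
    rw [Finset.mem_range, lt_min_iff] at hj
    have h : (stk a k d P).filter (fun m => m k = j) = (P j).image (ins k j) := by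
      ext m
      rw [Finset.mem_filter, Finset.mem_image, stk, Finset.mem_filter]
      constructor
      · rintro ⟨⟨_, h2⟩, rfl⟩
        exact ⟨rmv k m, h2, ins_rmv k m⟩
      · rintro ⟨y, hy, rfl⟩
        rw [ins_same, rmv_ins]
        refine ⟨⟨?_, hy⟩, rfl⟩
        rw [mem_boxD_rmv (k := k), ins_same, rmv_ins]
        exact ⟨hj.1, by omega, hP j hy⟩
    rw [h, Finset.card_image_of_injective]
    intro y y' hyy
    rw [← rmv_ins k j y, hyy, rmv_ins]
  · intro m hm
    have h1 := (mem_boxD_rmv (k := k)).1 (Finset.mem_filter.1 (Finset.mem_coe.1 hm)).1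
    rw [Finset.mem_coe, Finset.mem_range, lt_min_iff]
    exact ⟨h1.1, Nat.lt_succ_of_le h1.2.1⟩

/-- the box of degree `d` is the union of the slices with given `k`-th coordinate -/
theorem card_boxD_slices (a : Fin (n + 1) → ℕ) (k : Fin (n + 1)) (d : ℕ) :
    (boxD a d).card =
      ∑ j ∈ Finset.range (min (a k) (d + 1)), (boxD (fun i => a (k.succAbove i)) (d - j)).card := by
  rw [← card_stk a k d (fun j => boxD (fun i => a (k.succAbove i)) (d - j)) fun j => subset_rfl]
  congr 1
  ext m
  rw [stk, Finset.mem_filter]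
  exact ⟨fun h => ⟨h, (mem_boxD_rmv.1 h).2.2⟩, fun h => h.1⟩

/-- **Stacking lemma.** -/
theorem stack_growth (a : Fin (n + 1) → ℕ) (ha : Monotone a) (k : Fin (n + 1)) (d : ℕ)
    (r r' : ℕ → ℕ)
    (h1 : ∀ j, j < a k → j ≤ d →
      up (fun i => a (k.succAbove i)) (d - j)
        ((boxD (fun i => a (k.succAbove i)) (d - j)).card - r j) + r' j ≤
      (boxD (fun i => a (k.succAbove i)) (d + 1 - j)).card)
    (h2 : ∀ j, j + 1 < a k → j ≤ d → r' (j + 1) ≤ r j)
    (h3 : ∀ j, j < a k → j ≤ d → r j ≤ (boxD (fun i => a (k.succAbove i)) (d - j)).card) :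
    up a d ((boxD a d).card - ∑ j ∈ Finset.range (min (a k) (d + 1)), r j)
      + ∑ j ∈ Finset.range (min (a k) (d + 2)), r' j ≤ (boxD a (d + 1)).card := by
  classical
  set a' : Fin n → ℕ := fun i => a (k.succAbove i) with ha'
  set p : ℕ → ℕ := fun j => (boxD a' (d - j)).card - r j with hp
  set p' : ℕ → ℕ := fun j => (boxD a' (d + 1 - j)).card - r' j with hp'
  set P : ℕ → Finset (Fin n → ℕ) := fun j => lexSeg a' (d - j) (p j) with hP
  set P' : ℕ → Finset (Fin n → ℕ) := fun j => lexSeg a' (d + 1 - j) (p' j) with hP'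
  have hPs : ∀ j, P j ⊆ boxD a' (d - j) := fun j => lexSeg_subset
  have hPs' : ∀ j, P' j ⊆ boxD a' (d + 1 - j) := fun j => lexSeg_subset
  have hr' : ∀ j, j < a k → j ≤ d + 1 → r' j ≤ (boxD a' (d + 1 - j)).card := by
    intro j hj hjd
    rcases Nat.lt_or_ge d j with hjd' | hjd'
    · have e : j = d + 1 := by omega
      subst e
      have h4 := h2 d hj le_rfl
      have h5 := h3 d (by omega) le_rfl
      have e2 : d + 1 - (d + 1) = d - d := by omega
      rw [e2]
      exact h4.trans h5
    · have := h1 j hj hjd'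
      omega
  have hL : (stk a k d P).card = (boxD a d).card - ∑ j ∈ Finset.range (min (a k) (d + 1)), r j := by
    rw [card_stk a k d P hPs, card_boxD_slices a k d]
    have h4 : ∀ j ∈ Finset.range (min (a k) (d + 1)), (P j).card + r j = (boxD a' (d - j)).card := by
      intro j hj
      rw [Finset.mem_range, lt_min_iff] at hj
      have h5 := h3 j hj.1 (by omega)
      have h6 : (P j).card = min (p j) (boxD a' (d - j)).card := card_lexSeg _ _ _
      have h7 : p j = (boxD a' (d - j)).card - r j := rfl
      rw [h6, h7]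
      omega
    rw [← Finset.sum_congr rfl h4, Finset.sum_add_distrib, Nat.add_sub_cancel]
  have hL' : (stk a k (d + 1) P').card + ∑ j ∈ Finset.range (min (a k) (d + 2)), r' j =
      (boxD a (d + 1)).card := by
    rw [card_stk a k (d + 1) P' hPs', card_boxD_slices a k (d + 1), ← Finset.sum_add_distrib]
    refine Finset.sum_congr rfl fun j hj => ?_
    rw [Finset.mem_range, lt_min_iff] at hj
    have h5 := hr' j hj.1 (by omega)
    have h6 : (P' j).card = min (p' j) (boxD a' (d + 1 - j)).card := card_lexSeg _ _ _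
    have h7 : p' j = (boxD a' (d + 1 - j)).card - r' j := rfl
    have h8 : boxD (fun i => a (k.succAbove i)) (d + 1 - j) = boxD a' (d + 1 - j) := rfl
    rw [h6, h7, h8]
    omega
  have hsub : upShadow a (stk a k d P) ⊆ stk a k (d + 1) P' := by
    intro y hy
    have hyb : y ∈ boxD a (d + 1) := upShadow_subset_boxD (Finset.filter_subset _ _) hy
    obtain ⟨hy1, m, hm, i, hyi⟩ := mem_upShadow.1 hy
    obtain ⟨hmb, hmP⟩ := Finset.mem_filter.1 hm
    obtain ⟨hm1, hm2, hm3⟩ := (mem_boxD_rmv (k := k)).1 hmb
    refine Finset.mem_filter.2 ⟨hyb, ?_⟩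
    rcases eq_or_ne i k with rfl | hi
    · have hyk : y i = m i + 1 := by rw [hyi, Function.update_self]
      have hrm : rmv i y = rmv i m := by
        funext l
        change y (i.succAbove l) = m (i.succAbove l)
        rw [hyi, Function.update_of_ne (Fin.succAbove_ne i l)]
      rw [hyk, hrm]
      have h4 := h2 (m i) (by have := hy1 i; omega) hm2
      have e : d + 1 - (m i + 1) = d - m i := by omega
      change rmv i m ∈ lexSeg a' (d + 1 - (m i + 1))
        ((boxD a' (d + 1 - (m i + 1))).card - r' (m i + 1))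
      rw [e]
      refine lexSeg_mono ?_ hmP
      change (boxD a' (d - m i)).card - r (m i) ≤ (boxD a' (d - m i)).card - r' (m i + 1)
      omega
    · obtain ⟨i', rfl⟩ := Fin.exists_succAbove_eq hi
      have hyk : y k = m k := by rw [hyi, Function.update_of_ne (Ne.symm hi)]
      have hrm : rmv k y = Function.update (rmv k m) i' (rmv k m i' + 1) := by
        funext l
        change y (k.succAbove l) = _
        rw [hyi]
        by_cases hl : l = i'
        · subst hl
          rw [Function.update_self, Function.update_self]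
          rfl
        · rw [Function.update_of_ne (fun h => hl (Fin.succAbove_right_injective h)),
            Function.update_of_ne hl]
          rfl
      rw [hyk]
      have h4 : rmv k y ∈ upShadow a' (P (m k)) := by
        rw [mem_upShadow]
        refine ⟨fun l => hy1 _, rmv k m, hmP, i', hrm⟩
      have h5 : upShadow a' (P (m k)) =
          lexSeg a' (d - m k + 1) (up a' (d - m k) (p (m k))) := upShadow_lexSeg _ _ _
      have e : d - m k + 1 = d + 1 - m k := by omega
      rw [h5, e] at h4
      refine lexSeg_mono ?_ h4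
      have h6 := h1 (m k) hm1 hm2
      change up a' (d - m k) ((boxD a' (d - m k)).card - r (m k)) ≤
        (boxD a' (d + 1 - m k)).card - r' (m k)
      omega
  have hCL := clementsLindstrom a ha d (stk a k d P) (Finset.filter_subset _ _)
  have hcard := Finset.card_le_card hsub
  rw [hL] at hCL
  omega

end Vale.Agent.P200.G
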